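import Crest.Agent.X326.B3.Defs
import Crest.Agent.X326.TC.Core
import Crest.Agent.X326.M4.Rec
import Crest.Agent.X326.Top.SO

/-!
Row 326 (S0503), part M3: the list-level interfaces (statements only).

Arrays are flat lists of records (`List ℕ`), of length `L.N` for a layout `L`.
-/

set_option autoImplicit false

namespace Crest.Agent.X326.B3

open Crest.Agent.Lib.PT

instance : PTCode Lay :=
  PTCode.ofInj (fun L => (L.Pre, L.g, Un.mk L.F, L.G1, L.R, L.G2, L.Z)) (by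
    rintro ⟨a, b, c, d, e, f, g⟩ ⟨a', b', c', d', e', f', g'⟩ h
    simp only [Prod.mk.injEq, Un.mk.injEq] at h
    obtain ⟨rfl, rfl, rfl, rfl, rfl, rfl, rfl⟩ := h
    rfl)

/-- non-degenerate layouts -/
structure Lay.Good (L : Lay) : Prop where
  Pre : 0 < L.Pre
  g : 2 ≤ L.g
  G1 : 0 < L.G1
  R : 0 < L.R
  even : 2 ∣ L.R
  G2 : 0 < L.G2
  Z : 0 < L.Z

/-- the largest code size of an entry -/
def msz {α : Type} [PTCode α] (l : List α) : ℕ := (l.map sz).foldr max 0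

/-- the records of an array above the spectators `β`, read in a ring -/
def fib {A : Type} [CommRing A] (y : A) (L : Lay) (β : Base) (l : List (List ℕ)) : Bv → A :=
  fun b => M4.ev y (l.getD (L.addr β b) [])

/-- all `L.N` records are well formed -/
def WFL (L : Lay) (r M : ℕ) (l : List (List ℕ)) : Prop :=
  l.length = L.N ∧ ∀ x ∈ l, M4.WF r M x

/-- the address map of the gadget: `src = true` : xor with the bits `s, …`; `src = false` : flip -/
def gadMap (src : Bool) (t s len : ℕ) : Bv → Bv :=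
  bif src then xorMap t s len else flipMap t len

/-- domain of the gadget; input `(L, (src, t, s, len), l)` -/
def GadDom (x : Lay × (Bool × Un × Un × Un) × List (List ℕ)) : Prop :=
  x.1.Good ∧ x.2.2.length = x.1.N ∧ x.2.1.2.1.val + x.2.1.2.2.2.val ≤ x.2.1.2.2.1.val ∧
    x.2.1.2.2.1.val ≤ x.1.F ∧ (x.2.1.1 = true → x.2.1.2.2.1.val + x.2.1.2.2.2.val ≤ x.1.F)

/-- **The xor gadget** (`B3/Gadget`): on safe addresses, the bits `t, …, t + len - 1` receive the
bits `s, …, s + len - 1` (slower chunks: `t + len ≤ s`), or are flipped (then `s` is only a number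
with `t + len ≤ s ≤ F`). -/
def GadgetStatement (τ : ℝ) : Prop :=
  ∃ (gad : Lay × (Bool × Un × Un × Un) × List (List ℕ) → List (List ℕ)) (k : ℕ),
    TC GadDom (fun x => x.1.N * (msz x.2.2 + 1) * pw τ (x.2.1.2.2.2.val * Nat.size x.1.g + 1) +
      x.1.N * (sz x.1 + 1) ^ k) gad ∧
    ∀ (L : Lay) (src : Bool) (t s len : ℕ) (l : List (List ℕ)),
      GadDom (L, (src, ⟨t⟩, ⟨s⟩, ⟨len⟩), l) →
        (gad (L, (src, ⟨t⟩, ⟨s⟩, ⟨len⟩), l)).length = l.length ∧
        (∀ x ∈ gad (L, (src, ⟨t⟩, ⟨s⟩, ⟨len⟩), l), x ∈ l) ∧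
        ∀ β, L.Safe β → ∀ b, (gad (L, (src, ⟨t⟩, ⟨s⟩, ⟨len⟩), l)).getD (L.addr β b) [] =
          l.getD (L.addr β (gadMap src t s len b)) []

/-- nominal cost of one pass over an array of records of `r` residues modulo `M`, with
polynomial work of degree `k` per record -/
def pass (k M r : ℕ) (L : Lay) : ℕ :=
  L.N * ((r + 1) * (Nat.size M + 1) + (Nat.size M + Nat.size r + sz L + 1) ^ k)

/-- domain of the base butterfly; input `((M, r), L, j, l)` -/
def BaseDom (x : (ℕ × ℕ) × Lay × Un × List (List ℕ)) : Prop :=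
  x.2.1.Good ∧ x.2.2.1.val < x.2.1.F ∧ WFL x.2.1 x.1.2 x.1.1 x.2.2.2

/-- **The base butterfly** (`B3/Base`): `C` on the selected bit of chunk `j`. -/
def BaseStatement : Prop :=
  ∃ (bf : (ℕ × ℕ) × Lay × Un × List (List ℕ) → List (List ℕ)) (k : ℕ),
    TC BaseDom (fun x => pass k x.1.1 x.1.2 x.2.1) bf ∧
    ∀ (M r : ℕ) (L : Lay) (j : ℕ) (l : List (List ℕ)), BaseDom ((M, r), L, ⟨j⟩, l) →
      WFL L r M (bf ((M, r), L, ⟨j⟩, l)) ∧
      ∀ (A : Type) [CommRing A] (y hf : A), (M : A) = 0 → M % 2 = 1 → y ^ r = -1 →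
        2 * hf = 1 → ∀ β, L.Safe β →
          fib y L β (bf ((M, r), L, ⟨j⟩, l)) = Cop (y ^ (r / 2)) hf j (fib y L β l)

/-- domain of part B; input `((M, r), L, (lo, j), l)`: the call treats the `m ^ j` chunks
starting at chunk `lo` -/
def PartBDom (W m : ℕ) (x : (ℕ × ℕ) × Lay × (Un × Un) × List (List ℕ)) : Prop :=
  x.2.1.Good ∧ x.2.2.1.1.val + m ^ x.2.2.1.2.val ≤ x.2.1.F ∧ W ^ x.2.2.1.2.val ∣ x.2.1.Z ∧
    WFL x.2.1 x.1.2 x.1.1 x.2.2.2

/-- **Part B** (`B3/Main`): `C` on the selected bits of `m ^ j` consecutive chunks. -/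
def PartBStatement (W m : ℕ) (τ : ℝ) : Prop :=
  ∃ (pb : (ℕ × ℕ) × Lay × (Un × Un) × List (List ℕ) → List (List ℕ)) (k : ℕ),
    TC (PartBDom W m) (fun x => pass k x.1.1 x.1.2 x.2.1 * (x.2.2.1.2.val + 1) *
      pw τ (m ^ x.2.2.1.2.val * (Nat.size x.2.1.g + 1))) pb ∧
    ∀ (M r : ℕ) (L : Lay) (lo j : ℕ) (l : List (List ℕ)),
      PartBDom W m ((M, r), L, (⟨lo⟩, ⟨j⟩), l) →
      WFL L r M (pb ((M, r), L, (⟨lo⟩, ⟨j⟩), l)) ∧
      ∀ (A : Type) [CommRing A] (y hf : A), (M : A) = 0 → M % 2 = 1 → y ^ r = -1 →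
        r % 2 = 0 → 2 * hf = 1 → ∀ β, L.Safe β →
          fib y L β (pb ((M, r), L, (⟨lo⟩, ⟨j⟩), l)) =
            Crange (y ^ (r / 2)) hf lo (m ^ j) (fib y L β l)

/-- **The field-level program** (`B3/Frame`). -/
def ProgStatement (W m : ℕ) (τ : ℝ) : Prop :=
  ∃ (P : List (Ins W m)) (ρ : Fin W ≃ Fin W), CProg P ρ ∧ (ncalls P : ℝ) ≤ W * (m : ℝ) ^ τ

/-- Main statement of `B3/Main`. -/
def MainB : Prop :=
  ∀ (W m : ℕ) (τ : ℝ), 0 < W → 2 ≤ m → 0 < τ → τ ≤ 1 → ProgStatement W m τ → GadgetStatement τ →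
    BaseStatement → PartBStatement W m τ

end Crest.Agent.X326.B3
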