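import Crest.Agent.X326.B3.Base
import Crest.Agent.X326.B3.StreamsTC
import Crest.Agent.X326.TC.Un

/-!
Row 326 (S0503), part M3: the cost of one butterfly pass; `baseStatement`.
-/

set_option autoImplicit false

namespace Crest.Agent.X326.B3

open Crest.Agent.Lib.PT M4

variable {ι : Type} [PTCode ι] {P : Dom ι} {T : Cost ι}

theorem tc_partner {α : Type} [PTCode α] {w : ι → ℕ} {l : ι → List α} (hw : TU P T w)
    (hl : TC P T l) : TC P T (fun x => partner (w x) (l x)) :=
  (TC.map Lin.reverse (TC.chunks (TU.const 2) (TC.chunks hw hl))).flatten.flatten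

namespace Bf

theorem lin_subM : Lin (fun q : ℕ × ℕ × ℕ => subM q.1 q.2.1 q.2.2) := by
  unfold subM
  fun_prop

variable {M e : ι → ℕ} {u v : ι → List ℕ}

theorem tc_recSub (hM : TC P T M) (hu : TC P T u) (hv : TC P T v)
    (hB : Bud P T (fun x => (u x).length * sz (M x))) :
    TC P T (fun x => recSub (M x) (u x) (v x)) :=
  TC.zipWithCtx_lin lin_subM hM hu hv hB

theorem tc_recRot0 (hM : TC P T M) (he : TU P T e) (hu : TC P T u)
    (hB : Bud P T (fun x => (u x).length * sz (M x))) :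
    TC P T (fun x => recRot0 (M x) (e x) (u x)) :=
  (St.tc_recNeg hM (TC.drop ((TU.length hu).sub he) hu)
    (hB.mono fun x _ => Nat.mul_le_mul_right _ (by simp))).append
    (TC.take ((TU.length hu).sub he) hu)

theorem length_recRot0 (M e : ℕ) (a : List ℕ) : (recRot0 M e a).length = a.length := by
  simp [recRot0, recNeg]

theorem tc_recRot (hM : TC P T M) (he : TU P T e) (hu : TC P T u)
    (hB : Bud P T (fun x => (u x).length * sz (M x))) :
    TC P T (fun x => recRot (M x) (e x) (u x)) := by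
  unfold recRot
  exact TC.ite (TP.of_tc (he.decide_lt (TU.length hu))) (tc_recRot0 hM he hu hB)
    (St.tc_recNeg hM (tc_recRot0 hM (he.sub (TU.length hu)) hu hB)
      (hB.mono fun x _ => by rw [length_recRot0]))

theorem tc_recMulI (hM : TC P T M) (hu : TC P T u)
    (hB : Bud P T (fun x => (u x).length * sz (M x))) :
    TC P T (fun x => recMulI (M x) (u x)) :=
  tc_recRot0 hM ((TU.length hu).div (TU.const 2)) hu hB

theorem tc_cRec (hM : TC P T M) (hu : TC P T u) (hv : TC P T v)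
    (hB : Bud P T (fun x => (u x).length * sz (M x))) :
    TC P T (fun x => cRec (M x) (u x) (v x)) :=
  St.tc_recHalf hM
    (St.tc_recAdd hM (St.tc_recAdd hM hu hv hB)
      (tc_recMulI hM (tc_recSub hM hu hv hB)
        (hB.mono fun x _ => Nat.mul_le_mul_right _ (by simp [recSub])))
      (hB.mono fun x _ => Nat.mul_le_mul_right _ (by simp [recAdd])))
    (hB.mono fun x _ => Nat.mul_le_mul_right _ (by simp [recAdd]))

/-! ### projections of a layout in polynomial time -/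

theorem ptf_layTuple : PTF (fun L : Lay => (L.Pre, L.g, Un.mk L.F, L.G1, L.R, L.G2, L.Z)) :=
  ⟨_, PT.id, fun _ => rfl⟩

section proj

variable {α : Type} [PTCode α] {L : α → Lay}

theorem ptf_Pre (h : PTF L) : PTF (fun a => (L a).Pre) := by
  have h0 := PTF.comp ptf_layTuple h
  have h' := PTF.comp PTF.fst h0
  exact h'

theorem ptf_g (h : PTF L) : PTF (fun a => (L a).g) := by
  have h0 := PTF.comp ptf_layTuple h
  have h1 := PTF.comp PTF.snd h0
  have h' := PTF.comp PTF.fst h1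
  exact h'

theorem ptu_F (h : PTF L) : PTU (fun a => (L a).F) := by
  have h0 := PTF.comp ptf_layTuple h
  have h1 := PTF.comp PTF.snd h0
  have h2 := PTF.comp PTF.snd h1
  have h' := PTF.comp PTF.fst h2
  exact h'

theorem ptf_G1 (h : PTF L) : PTF (fun a => (L a).G1) := by
  have h0 := PTF.comp ptf_layTuple h
  have h1 := PTF.comp PTF.snd h0
  have h2 := PTF.comp PTF.snd h1
  have h3 := PTF.comp PTF.snd h2
  have h' := PTF.comp PTF.fst h3
  exact h'

theorem ptf_R (h : PTF L) : PTF (fun a => (L a).R) := by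
  have h0 := PTF.comp ptf_layTuple h
  have h1 := PTF.comp PTF.snd h0
  have h2 := PTF.comp PTF.snd h1
  have h3 := PTF.comp PTF.snd h2
  have h4 := PTF.comp PTF.snd h3
  have h' := PTF.comp PTF.fst h4
  exact h'

theorem ptf_G2 (h : PTF L) : PTF (fun a => (L a).G2) := by
  have h0 := PTF.comp ptf_layTuple h
  have h1 := PTF.comp PTF.snd h0
  have h2 := PTF.comp PTF.snd h1
  have h3 := PTF.comp PTF.snd h2
  have h4 := PTF.comp PTF.snd h3
  have h5 := PTF.comp PTF.snd h4
  have h' := PTF.comp PTF.fst h5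
  exact h'

theorem ptf_Z (h : PTF L) : PTF (fun a => (L a).Z) := by
  have h0 := PTF.comp ptf_layTuple h
  have h1 := PTF.comp PTF.snd h0
  have h2 := PTF.comp PTF.snd h1
  have h3 := PTF.comp PTF.snd h2
  have h4 := PTF.comp PTF.snd h3
  have h5 := PTF.comp PTF.snd h4
  have h6 := PTF.comp PTF.snd h5
  exact h6

theorem ptf_wy (h : PTF L) : PTF (fun a => (L a).wy) :=
  PTF.natMul (PTF.natMul (ptf_Z h) (PTF.natPow (ptf_g h) (ptu_F h))) (ptf_G2 h)

theorem ptf_wh (h : PTF L) : PTF (fun a => (L a).wh) :=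
  PTF.natMul (PTF.natMul (ptf_wy h) (PTF.natPow (ptf_R h) (ptu_F h))) (ptf_G1 h)

theorem ptf_layN (h : PTF L) : PTF (fun a => (L a).N) :=
  PTF.natMul (PTF.natMul (ptf_wh h) (PTF.natPow (ptf_g h) (ptu_F h))) (ptf_Pre h)

theorem ptf_layMk {a b c d e f g : α → ℕ} (ha : PTF a) (hb : PTF b) (hc : PTU c) (hd : PTF d)
    (he : PTF e) (hf : PTF f) (hg : PTF g) :
    PTF (fun x => (⟨a x, b x, c x, d x, e x, f x, g x⟩ : Lay)) := by
  have h : PTF (fun x => (a x, b x, Un.mk (c x), d x, e x, f x, g x)) :=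
    PTF.prodMk ha (PTF.prodMk hb (PTF.prodMk hc (PTF.prodMk hd (PTF.prodMk he
      (PTF.prodMk hf hg)))))
  obtain ⟨q, hq, hq'⟩ := h
  exact ⟨q, hq, hq'⟩

end proj

theorem ptf_weight : PTF (fun q : Lay × Un => q.1.wy * q.1.R ^ q.2.val) :=
  PTF.natMul (ptf_wy PTF.fst) (PTF.natPow (ptf_R PTF.fst) (PTU.val PTF.snd))

theorem N_pos {L : Lay} (h : L.Good) : 0 < L.N := by
  have h1 := h.Pre
  have h2 : 0 < L.g := by have := h.g; omega
  have h3 := h.G1
  have h4 := h.R
  have h5 := h.G2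
  have h6 := h.Z
  unfold Lay.N Lay.wh Lay.wy
  positivity

end Bf

/-- the butterfly `C` on a list of records -/
theorem tc_baseC {M w : ι → ℕ} {l : ι → List (List ℕ)} (hM : TC P T M) (hw : TU P T w)
    (hl : TC P T l) (r : ι → ℕ) (h : ∀ x, P x → ∀ a ∈ l x, a.length ≤ r x)
    (hB : Bud P T (fun x => (l x).length * ((r x + 1) * (Nat.size (M x) + 1)))) :
    TC P T (fun x => baseC (M x) (w x) (l x)) := by
  have h1 : TC (fun _ : ℕ × List ℕ × List ℕ => True) (fun q => q.2.1.length * sz q.1)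
      (fun q => cRec q.1 q.2.1 q.2.2) :=
    Bf.tc_cRec (TC.fst TC.id) (TC.fst (TC.snd TC.id)) (TC.snd (TC.snd TC.id)) Bud.self
  refine TC.zipWithCtx_le h1 hM hl (tc_partner hw hl) (fun x => r x * Nat.size (M x)) 0
    (fun x hx a ha b _ => ⟨trivial, ?_⟩)
    (hB.mono fun x _ => Nat.mul_le_mul_left _ (by nlinarith))
    (hB.mono fun x _ => Nat.mul_le_mul_left _ (by rw [sz_nat]; nlinarith))
  simp only [sz_nat, zero_mul, add_zero]
  exact Nat.mul_le_mul_right _ (h x hx a ha)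

/-- **The base butterfly.** -/
theorem baseStatement : BaseStatement := by
  obtain ⟨k, hk⟩ := exists_tc_of_ptf Bf.ptf_weight
  refine ⟨fun x => baseC x.1.1 (x.2.1.wy * x.2.1.R ^ x.2.2.1.val) x.2.2.2, k, ?_, ?_⟩
  · have hL : TC BaseDom (fun x => pass k x.1.1 x.1.2 x.2.1) (fun x => x.2.1) := by fun_prop
    have hj : TC BaseDom (fun x => pass k x.1.1 x.1.2 x.2.1) (fun x => x.2.2.1) := by fun_prop
    have hl : TC BaseDom (fun x => pass k x.1.1 x.1.2 x.2.1) (fun x => x.2.2.2) := by fun_prop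
    have hw : TC BaseDom (fun x => pass k x.1.1 x.1.2 x.2.1)
        (fun x => x.2.1.wy * x.2.1.R ^ x.2.2.1.val) := by
      refine hk.comp (hL.prodMk hj) (fun _ _ => trivial) (Bud.of_le_mul (3 ^ k) ?_)
      rintro ⟨⟨M, r⟩, L, ⟨j⟩, l⟩ ⟨hG, hjF, -⟩
      have h1 : L.F ≤ sz L := by rw [sz_lay]; omega
      have h2 : sz (L, Un.mk j) + 1 ≤ 3 * (Nat.size M + Nat.size r + sz L + 1) := by
        simp only [sz_prod, sz_un] at hjF ⊢
        omega
      have h3 := Bf.N_pos hG
      calc (sz (L, Un.mk j) + 1) ^ k ≤ (3 * (Nat.size M + Nat.size r + sz L + 1)) ^ k :=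
            Nat.pow_le_pow_left h2 k
        _ = 3 ^ k * (1 * (Nat.size M + Nat.size r + sz L + 1) ^ k) := by rw [mul_pow, one_mul]
        _ ≤ 3 ^ k * pass k M r L :=
            Nat.mul_le_mul_left _ (Nat.mul_le_mul h3 (Nat.le_add_left _ _))
    refine tc_baseC (by fun_prop) (TU.ofNat hw ((TC.bud_length hl).mono ?_)) hl (fun x => x.1.2)
      (fun x hx a ha => (hx.2.2.2 a ha).1.le) (Bud.of_le_mul 1 ?_)
    · rintro ⟨⟨M, r⟩, L, ⟨j⟩, l⟩ ⟨hG, hjF, hW⟩
      have h1 := Nat.le_of_dvd (Bf.N_pos hG) (Lay.two_mul_dvd_N hG.even hjF)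
      have h2 : l.length = L.N := hW.1
      simp only at h1 ⊢
      omega
    · rintro ⟨⟨M, r⟩, L, ⟨j⟩, l⟩ ⟨hG, hjF, hW⟩
      have h2 : l.length = L.N := hW.1
      simp only [one_mul, pass, h2]
      exact Nat.mul_le_mul_left _ (Nat.le_add_right _ _)
  · rintro M r L j l ⟨hG, hjF, hW⟩
    refine ⟨⟨length_baseC_lay hG.even hjF hW.1, wf_baseC hW.2⟩, ?_⟩
    intro A _ y hf hM hodd hy hhf β hβ
    funext b
    exact ev_baseC hM hodd hy hhf hβ hG.even hjF hW.1 hW.2 b

end Crest.Agent.X326.B3
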