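import Crest.Agent.X326.B3.Gadget
import Crest.Agent.X326.A.GathTC
import Crest.Agent.X326.A.Spec
import Crest.Agent.X326.TC.Un

/-!
Row 326 (S0503), part M3: the xor gadget in the time calculus (four interchanges by part A and
four controlled rotations).
-/

set_option autoImplicit false

namespace Crest.Agent.X326.B3

open Crest.Agent.Lib.PT Crest.Agent.X326.A

namespace Gad

section ptf

variable {γ : Type} [PTCode γ]

theorem ptf_dig {w q j : γ → ℕ} (hw : PTF w) (hq : PTF q) (hj : PTF j) :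
    PTF (fun c => dig (w c) (q c) (j c)) := by
  unfold dig
  fun_prop

theorem ptf_setDig {w q j v : γ → ℕ} (hw : PTF w) (hq : PTF q) (hj : PTF j) (hv : PTF v) :
    PTF (fun c => setDig (w c) (q c) (j c) (v c)) := by
  unfold setDig
  fun_prop

theorem ptf_dsum {B n : γ → ℕ} {f : γ → ℕ → ℕ} (hB : PTF B) (hn : PTU n)
    (hf : PTF (fun p : γ × Un => f p.1 p.2.val)) : PTF (fun c => dsum (B c) (n c) (f c)) := by
  have hm : PTU (fun p : γ × ℕ => min p.2 (n p.1)) := PTF.natMinUn PTF.snd (hn.comp PTF.fst)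
  have h1 : PTF (fun p : γ × ℕ => f p.1 (min p.2 (n p.1))) :=
    PTF.comp (f := fun p : γ × ℕ => (p.1, Un.mk (min p.2 (n p.1)))) hf (PTF.prodMk PTF.fst hm)
  have h2 : PTF (fun p : γ × ℕ => B p.1 ^ min p.2 (n p.1)) := PTF.natPow (hB.comp PTF.fst) hm
  refine (PTF.natSumRange (f := fun c i => f c (min i (n c)) * B c ^ min i (n c)) hn
    (PTF.natMul h1 h2)).of_eq fun c => ?_
  exact Finset.sum_congr rfl fun i hi => by rw [min_eq_left (Finset.mem_range.1 hi).le]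

/-- digit `i` (unary) of a number -/
theorem ptf_digPow {B q y : γ → ℕ} (hB : PTF B) (hq : PTF q) (hy : PTF y) :
    PTF (fun p : γ × Un => dig (B p.1 ^ p.2.val) (q p.1) (y p.1)) :=
  ptf_dig (PTF.natPow (hB.comp PTF.fst) (PTU.val PTF.snd)) (hq.comp PTF.fst) (hy.comp PTF.fst)

variable {g R n y b : γ → ℕ} {z : γ → ℕ → ℕ}

theorem ptf_off1 (hg : PTF g) (hR : PTF R) (hn : PTU n)
    (hz : PTF (fun p : γ × Un => z p.1 p.2.val)) (hb : PTF b) :
    PTF (fun c => off1 (g c) (R c) (n c) (z c) (b c)) :=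
  ptf_dsum hR hn (PTF.natMul (PTF.natMul (PTF.const 2) hz) (ptf_digPow hg hg hb))

theorem ptf_off2 (hg : PTF g) (hR : PTF R) (hn : PTU n) (hy : PTF y) :
    PTF (fun c => off2 (g c) (R c) (n c) (y c)) :=
  ptf_dsum hg hn (ptf_digPow hR (PTF.const 2) hy)

theorem ptf_off3 (hg : PTF g) (hR : PTF R) (hn : PTU n)
    (hz : PTF (fun p : γ × Un => z p.1 p.2.val)) (hb : PTF b) :
    PTF (fun c => off3 (g c) (R c) (n c) (z c) (b c)) :=
  PTF.natAdd (ptf_dsum hR hn hz) (PTF.natSub (PTF.natPow hR hn) (ptf_off1 hg hR hn hz hb))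

theorem ptf_off4 (hg : PTF g) (hR : PTF R) (hn : PTU n)
    (hz : PTF (fun p : γ × Un => z p.1 p.2.val)) (hy : PTF y) :
    PTF (fun c => off4 (g c) (R c) (n c) (n c) (z c) (y c)) :=
  PTF.natSub (PTF.natPow hg hn) (ptf_dsum hg hn
    (PTF.natMod (PTF.natAdd (ptf_digPow hR (PTF.const 2) hy) hz) (PTF.const 2)))

end ptf

/-- a controlled rotation with polynomial-time parameters -/
theorem tc_rot {γ : Type} [PTCode γ] {w Q : γ → ℕ} {δ : γ → ℕ → ℕ} (hw : PTF w) (hQ : PTF Q)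
    (hδ : PTF₂ δ) : ∃ k : ℕ, ∀ {ι α : Type} [PTCode ι] [PTCode α] {P : ι → Prop} {T : ι → ℕ}
      {c : ι → γ} (d : α) {l : ι → List α}, TC P T c → TC P T l →
      (∀ x, P x → 0 < w (c x) ∧ 0 < Q (c x) ∧ w (c x) * Q (c x) ∣ (l x).length) →
      Bud P T (fun x => ovh k (l x).length (sz (c x) + Nat.size (l x).length)) →
      TC P T (fun x => perm d (Gad.rotIdx (w (c x)) (Q (c x)) (δ (c x))) (l x)) := by
  have hw' : PTF (fun p : γ × ℕ => w p.1) := hw.comp PTF.fst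
  have hQ' : PTF (fun p : γ × ℕ => Q p.1) := hQ.comp PTF.fst
  have h1 : PTF (fun p : γ × ℕ => δ p.1 (p.2 / (w p.1 * Q p.1))) :=
    PTF.comp₂ hδ PTF.fst (PTF.natDiv PTF.snd (PTF.natMul hw' hQ'))
  have h2 : PTF (fun p : γ × ℕ => dig (w p.1) (Q p.1) p.2) := ptf_dig hw' hQ' PTF.snd
  have hsrc : PTF₂ (fun c j => A.rotIdx (w c) (Q c) (δ c) j) :=
    ptf_setDig hw' hQ' PTF.snd (PTF.natMod (PTF.natAdd h2 h1) hQ')
  have hcol : PTF₂ (fun c j =>
      addCol (w c) (Q c) (fun j => δ c (j / (w c * Q c))) (fun _ => 0) j) :=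
    PTF.natAdd (PTF.const (2 * 0)) (PTF.natDiv (PTF.natAdd h2 (PTF.natMod h1 hQ')) hQ')
  obtain ⟨k, hk⟩ := tc_perm hcol hsrc
  exact ⟨k, fun d _ hc hl h hB => hk 2 d hc hl (fun x hx =>
    ⟨colMono_rotIdx _ (h x hx).1 (h x hx).2.1,
      idxPerm_rotIdx _ (h x hx).1 (h x hx).2.1 (h x hx).2.2⟩) hB⟩

/-- positivity and divisibility facts of the seven-field layout -/
structure Geo7 (QA G1 QY G2 Z N : ℕ) : Prop where
  geo : Geo QA (Z * QA * G2 * QY * G1) Z N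
  hw : 0 < Z * QA * G2
  hY : 0 < QY
  dY : Z * QA * G2 * QY ∣ N
  dB : Z * QA ∣ N

theorem geo7 {QA G1 QY G2 Z N : ℕ} (h : Z * QA * G2 * QY * G1 * QA ∣ N) (hN : 0 < N) :
    Geo7 QA G1 QY G2 Z N := by
  have h0 := Nat.pos_of_dvd_of_pos h hN
  have hA : 0 < QA := Nat.pos_of_mul_pos_left h0
  have hH : 0 < Z * QA * G2 * QY * G1 := Nat.pos_of_mul_pos_right h0
  have h1 : 0 < Z * QA * G2 * QY := Nat.pos_of_mul_pos_right hH
  have hw : 0 < Z * QA * G2 := Nat.pos_of_mul_pos_right h1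
  have d1 : Z * QA ∣ Z * QA * G2 * QY * G1 := ⟨G2 * QY * G1, by ring⟩
  exact ⟨⟨hA, Nat.pos_of_mul_pos_right (Nat.pos_of_mul_pos_right hw), hH, d1, h⟩, hw,
    Nat.pos_of_mul_pos_left h1, Dvd.dvd.trans ⟨G1 * QA, by ring⟩ h,
    Dvd.dvd.trans (d1.mul_right _) h⟩

/-- the gadget as a composite of eight pull-backs -/
theorem perm_gadIdx {α : Type} (d : α) {g R n G1 G2 Z : ℕ} (zf : ℕ → ℕ → ℕ) (l : List α)
    (h : Geo7 (g ^ n) G1 (R ^ n) G2 Z l.length) :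
    swapL d (g ^ n) (Z * g ^ n * G2 * R ^ n * G1) Z
      (perm d (Gad.rotIdx (Z * g ^ n * G2) (R ^ n) (d1 g R n G1 zf))
      (swapL d (g ^ n) (Z * g ^ n * G2 * R ^ n * G1) Z
      (perm d (Gad.rotIdx Z (g ^ n) (d2 g R n G2))
      (swapL d (g ^ n) (Z * g ^ n * G2 * R ^ n * G1) Z
      (perm d (Gad.rotIdx (Z * g ^ n * G2) (R ^ n) (d3 g R n G1 zf))
      (swapL d (g ^ n) (Z * g ^ n * G2 * R ^ n * G1) Z
      (perm d (Gad.rotIdx Z (g ^ n) (d4 g R n G1 G2 zf)) l))))))) =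
    perm d (gadIdx g R n G1 G2 Z zf) l := by
  have s : ∀ j < l.length, swapIdx (g ^ n) (Z * g ^ n * G2 * R ^ n * G1) Z j < l.length :=
    fun j hj => h.geo.swapIdx_lt hj
  have rY : ∀ δ, ∀ j < l.length, Gad.rotIdx (Z * g ^ n * G2) (R ^ n) δ j < l.length :=
    fun δ j hj => rotIdx_lt δ h.hw h.hY h.dY hj
  have rB : ∀ δ, ∀ j < l.length, Gad.rotIdx Z (g ^ n) δ j < l.length :=
    fun δ j hj => rotIdx_lt δ h.geo.hD h.geo.hq h.dB hj
  unfold swapL
  rw [perm_perm d l s, perm_perm d l (rY _), perm_perm d l s, perm_perm d l (rB _),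
    perm_perm d l s, perm_perm d l (rY _), perm_perm d l s]
  rfl

/-- the gadget with polynomial-time parameters -/
theorem tc_gad {τ : ℝ} (hA : SwapStatement τ) {γ : Type} [PTCode γ] {g R n G1 G2 Z : γ → ℕ}
    {zf : γ → ℕ → ℕ → ℕ} (hg : PTF g) (hR : PTF R) (hn : PTU n) (h1 : PTF G1) (h2 : PTF G2)
    (hZ : PTF Z) (hz : PTF (fun p : (γ × ℕ) × Un => zf p.1.1 p.1.2 p.2.val)) :
    ∃ k : ℕ, ∀ {ι α : Type} [PTCode ι] [PTCode α] {P : ι → Prop} {T : ι → ℕ}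
      {c : ι → γ} (B : ι → ℕ) (d : α) {l : ι → List α}, TC P T c → TC P T l →
      Small P T (fun x => sz (c x)) →
      (∀ x, P x → Geo7 (g (c x) ^ n (c x)) (G1 (c x)) (R (c x) ^ n (c x)) (G2 (c x)) (Z (c x))
        (l x).length ∧ ∀ r ∈ l x, sz r ≤ B x) →
      Bud P T (fun x => (l x).length * (B x + 1) * pw τ (Nat.size (g (c x) ^ n (c x)) + 1)) →
      Bud P T (fun x => ovh k (l x).length (sz (c x) + Nat.size (l x).length)) →
      TC P T (fun x => perm d (gadIdx (g (c x)) (R (c x)) (n (c x)) (G1 (c x)) (G2 (c x))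
        (Z (c x)) (zf (c x))) (l x)) := by
  have hQA : PTF (fun c => g c ^ n c) := PTF.natPow hg hn
  have hQY : PTF (fun c => R c ^ n c) := PTF.natPow hR hn
  have hwY : PTF (fun c => Z c * g c ^ n c * G2 c) := PTF.natMul (PTF.natMul hZ hQA) h2
  have hwH : PTF (fun c => Z c * g c ^ n c * G2 c * R c ^ n c * G1 c) :=
    PTF.natMul (PTF.natMul hwY hQY) h1
  have f1 : ∀ {u : γ → ℕ}, PTF u → PTF (fun p : γ × ℕ => u p.1) := fun hu => hu.comp PTF.fst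
  have hn' : PTU (fun p : γ × ℕ => n p.1) := hn.comp PTF.fst
  have zz : ∀ {u : γ × ℕ → ℕ}, PTF u →
      PTF (fun q : (γ × ℕ) × Un => zf q.1.1 (u q.1) q.2.val) := fun {u} hu =>
    PTF.comp (f := fun q : (γ × ℕ) × Un => ((q.1.1, u q.1), q.2)) hz
      (PTF.prodMk (PTF.prodMk (PTF.fst.comp PTF.fst) (hu.comp PTF.fst)) PTF.snd)
  have e1 : PTF₂ (fun c pre => d1 (g c) (R c) (n c) (G1 c) (zf c) pre) :=
    ptf_off1 (z := fun p : γ × ℕ => zf p.1 (p.2 % G1 p.1)) (f1 hg) (f1 hR) hn'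
      (zz (PTF.natMod PTF.snd (f1 h1))) (ptf_dig (f1 h1) (f1 hQA) PTF.snd)
  have e2 : PTF₂ (fun c pre => d2 (g c) (R c) (n c) (G2 c) pre) :=
    ptf_off2 (f1 hg) (f1 hR) hn' (ptf_dig (f1 h2) (f1 hQY) PTF.snd)
  have e3 : PTF₂ (fun c pre => d3 (g c) (R c) (n c) (G1 c) (zf c) pre) :=
    ptf_off3 (z := fun p : γ × ℕ => zf p.1 (p.2 % G1 p.1)) (f1 hg) (f1 hR) hn'
      (zz (PTF.natMod PTF.snd (f1 h1))) (ptf_dig (f1 h1) (f1 hQA) PTF.snd)
  have e4 : PTF₂ (fun c pre => d4 (g c) (R c) (n c) (G1 c) (G2 c) (zf c) pre) :=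
    ptf_off4 (z := fun p : γ × ℕ => zf p.1 (dig (G2 p.1 * R p.1 ^ n p.1) (G1 p.1) p.2))
      (f1 hg) (f1 hR) hn' (zz (ptf_dig (PTF.natMul (f1 h2) (f1 hQY)) (f1 h1) PTF.snd))
      (ptf_dig (f1 h2) (f1 hQY) PTF.snd)
  obtain ⟨k0, hk0⟩ := hA
  obtain ⟨k1, hk1⟩ := tc_rot hwY hQY e1
  obtain ⟨k2, hk2⟩ := tc_rot hZ hQA e2
  obtain ⟨k3, hk3⟩ := tc_rot hwY hQY e3
  obtain ⟨k4, hk4⟩ := tc_rot hZ hQA e4
  refine ⟨k0 + k1 + k2 + k3 + k4, fun {ι α} _ _ {P T c} B d {l} hc hl hs hP hB hO => ?_⟩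
  -- the invariant of the intermediate lists
  let J : (ι → List α) → Prop := fun l' => TC P T l' ∧
    ∀ x, P x → (l' x).length = (l x).length ∧ ∀ r ∈ l' x, sz r ≤ B x
  have hO' : ∀ k ≤ k0 + k1 + k2 + k3 + k4, ∀ l', J l' →
      Bud P T (fun x => ovh k (l' x).length (sz (c x) + Nat.size (l' x).length)) :=
    fun k hk l' h => hO.mono fun x hx => by
      rw [(h.2 x hx).1]; exact ovh_mono hk le_rfl le_rfl
  have keep : ∀ (σ : ι → ℕ → ℕ) (l' : ι → List α), J l' →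
      (∀ x, P x → ∀ j < (l x).length, σ x j < (l x).length) →
      ∀ x, P x → (perm d (σ x) (l' x)).length = (l x).length ∧
        ∀ r ∈ perm d (σ x) (l' x), sz r ≤ B x := fun σ l' h hσ x hx =>
    ⟨by rw [length_perm, (h.2 x hx).1], fun r hr => (h.2 x hx).2 r
      (mem_perm (by rw [(h.2 x hx).1]; exact hσ x hx) hr)⟩
  have sw : ∀ l', J l' → J (fun x => swapL d (g (c x) ^ n (c x))
      (Z (c x) * g (c x) ^ n (c x) * G2 (c x) * R (c x) ^ n (c x) * G1 (c x)) (Z (c x))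
      (l' x)) := fun l' h => by
    refine ⟨hk0 ι α P T _ _ _ B d l' (TC.ptf hQA hc hs) (TC.ptf hwH hc hs) (TC.ptf hZ hc hs) h.1
      (fun x hx => ⟨by rw [(h.2 x hx).1]; exact (hP x hx).1.geo, (h.2 x hx).2⟩) ?_,
      keep _ l' h fun x hx j hj => (hP x hx).1.geo.swapIdx_lt hj⟩
    refine (hB.add (hO' k0 (by omega) l' h)).mono fun x hx => ?_
    rw [(h.2 x hx).1]
    exact Nat.add_le_add_left (ovh_mono le_rfl le_rfl (Nat.le_add_left _ _)) _
  have kY : ∀ (δ : ι → ℕ → ℕ) x, P x → ∀ j < (l x).length,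
      Gad.rotIdx (Z (c x) * g (c x) ^ n (c x) * G2 (c x)) (R (c x) ^ n (c x)) (δ x) j <
        (l x).length := fun δ x hx j hj =>
    rotIdx_lt _ (hP x hx).1.hw (hP x hx).1.hY (hP x hx).1.dY hj
  have kB : ∀ (δ : ι → ℕ → ℕ) x, P x → ∀ j < (l x).length,
      Gad.rotIdx (Z (c x)) (g (c x) ^ n (c x)) (δ x) j < (l x).length := fun δ x hx j hj =>
    rotIdx_lt _ (hP x hx).1.geo.hD (hP x hx).1.geo.hq (hP x hx).1.dB hj
  have gY : ∀ l', J l' → ∀ x, P x → 0 < Z (c x) * g (c x) ^ n (c x) * G2 (c x) ∧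
      0 < R (c x) ^ n (c x) ∧
      Z (c x) * g (c x) ^ n (c x) * G2 (c x) * R (c x) ^ n (c x) ∣ (l' x).length :=
    fun l' h x hx => ⟨(hP x hx).1.hw, (hP x hx).1.hY, by rw [(h.2 x hx).1]; exact (hP x hx).1.dY⟩
  have gB : ∀ l', J l' → ∀ x, P x → 0 < Z (c x) ∧ 0 < g (c x) ^ n (c x) ∧
      Z (c x) * g (c x) ^ n (c x) ∣ (l' x).length :=
    fun l' h x hx => ⟨(hP x hx).1.geo.hD, (hP x hx).1.geo.hq,
      by rw [(h.2 x hx).1]; exact (hP x hx).1.dB⟩
  have j0 : J l := ⟨hl, fun x hx => ⟨rfl, (hP x hx).2⟩⟩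
  have j1 : J _ := sw _ ⟨hk4 d hc j0.1 (gB _ j0) (hO' k4 (by omega) _ j0), keep _ _ j0 (kB _)⟩
  have j2 : J _ := sw _ ⟨hk3 d hc j1.1 (gY _ j1) (hO' k3 (by omega) _ j1), keep _ _ j1 (kY _)⟩
  have j3 : J _ := sw _ ⟨hk2 d hc j2.1 (gB _ j2) (hO' k2 (by omega) _ j2), keep _ _ j2 (kB _)⟩
  have j4 : J _ := sw _ ⟨hk1 d hc j3.1 (gY _ j3) (hO' k1 (by omega) _ j3), keep _ _ j3 (kY _)⟩
  exact j4.1.congr fun x hx => perm_gadIdx d _ _ (hP x hx).1

/-- the parameters `((g, R, G1, G2, Z), (F, t, s, len))` of a gadget call -/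
abbrev Ctx : Type := (ℕ × ℕ × ℕ × ℕ × ℕ) × (Un × Un × Un × Un)

theorem size_pow_le (g : ℕ) {n : ℕ} (hn : 0 < n) : Nat.size (g ^ n) ≤ n * Nat.size g := by
  rw [Nat.size_le, mul_comm, pow_mul]
  exact Nat.pow_lt_pow_left (Nat.lt_size_self g) hn.ne'

/-- all parameters of a layout are bounded by the number of addresses -/
theorem lay_bounds (L : Lay) (hN : 0 < L.N) (hg : 2 ≤ L.g) (hF : 0 < L.F) :
    L.g ≤ L.N ∧ L.R ≤ L.N ∧ L.G1 ≤ L.N ∧ L.G2 ≤ L.N ∧ L.Z ≤ L.N ∧ L.F ≤ Nat.size L.N := by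
  have d0 : L.wh ∣ L.N := ⟨L.g ^ L.F * L.Pre, by unfold Lay.N; ring⟩
  have d1 : L.wy ∣ L.wh := ⟨L.R ^ L.F * L.G1, by unfold Lay.wh; ring⟩
  have dg : L.g ^ L.F ∣ L.N := ⟨L.wh * L.Pre, by unfold Lay.N; ring⟩
  have dR : L.R ^ L.F ∣ L.N := Dvd.dvd.trans ⟨L.wy * L.G1, by unfold Lay.wh; ring⟩ d0
  refine ⟨Nat.le_of_dvd hN ((dvd_pow_self _ hF.ne').trans dg),
    Nat.le_of_dvd hN ((dvd_pow_self _ hF.ne').trans dR),
    Nat.le_of_dvd hN (Dvd.dvd.trans ⟨L.wy * L.R ^ L.F, by unfold Lay.wh; ring⟩ d0),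
    Nat.le_of_dvd hN (Dvd.dvd.trans ⟨L.Z * L.g ^ L.F, by unfold Lay.wy; ring⟩ (d1.trans d0)),
    Nat.le_of_dvd hN (Dvd.dvd.trans ⟨L.g ^ L.F * L.G2, by unfold Lay.wy; ring⟩ (d1.trans d0)),
    (Nat.lt_size.2 ((Nat.pow_le_pow_left hg _).trans (Nat.le_of_dvd hN dg))).le⟩

/-- the gadget on a layout, for a polynomial-time mask -/
theorem tc_lay {τ : ℝ} (hτ : 0 ≤ τ) (hA : SwapStatement τ) {zf : Ctx → ℕ → ℕ → ℕ}
    (hz : PTF (fun p : (Ctx × ℕ) × Un => zf p.1.1 p.1.2 p.2.val)) :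
    ∃ k : ℕ, ∀ (ι α : Type) [PTCode ι] [PTCode α] (P : ι → Prop) (T : ι → ℕ) (L : ι → Lay)
      (t s len B : ι → ℕ) (d : α) (l : ι → List α),
      TC P T (fun x => (L x).g) → TC P T (fun x => (L x).F) → TC P T (fun x => (L x).G1) →
      TC P T (fun x => (L x).R) → TC P T (fun x => (L x).G2) → TC P T (fun x => (L x).Z) →
      TC P T t → TC P T s → TC P T len → TC P T l →
      (∀ x, P x → (l x).length = (L x).N ∧ 0 < (L x).N ∧ 2 ≤ (L x).g ∧ 0 < len x ∧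
        t x + len x ≤ (L x).F ∧ s x ≤ (L x).F ∧ ∀ r ∈ l x, sz r ≤ B x) →
      Bud P T (fun x => (l x).length * (B x + 1) * pw τ (len x * Nat.size (L x).g + 1) +
        (l x).length * (Nat.size (l x).length + 1) ^ k) →
      TC P T (fun x => perm d (layIdx (L x) (t x) (len x)
        (zf (((L x).g, (L x).R, (L x).G1, (L x).G2, (L x).Z),
          (Un.mk (L x).F, Un.mk (t x), Un.mk (s x), Un.mk (len x))))) (l x)) := by
  have uF : PTU (fun c : Ctx => c.2.1.val) := PTU.val (by fun_prop)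
  have ut : PTU (fun c : Ctx => c.2.2.1.val) := PTU.val (by fun_prop)
  have ul : PTU (fun c : Ctx => c.2.2.2.2.val) := PTU.val (by fun_prop)
  have pg : PTF (fun c : Ctx => c.1.1) := by fun_prop
  have pR : PTF (fun c : Ctx => c.1.2.1) := by fun_prop
  obtain ⟨k, hk⟩ := tc_gad hA (γ := Ctx) (zf := zf)
    (G1 := fun c => c.1.2.1 ^ (c.2.1.val - c.2.2.1.val - c.2.2.2.2.val) * c.1.2.2.1)
    (G2 := fun c => c.1.1 ^ (c.2.1.val - c.2.2.2.2.val) * c.1.2.2.2.1 * c.1.2.1 ^ c.2.2.1.val)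
    (Z := fun c => c.1.2.2.2.2) pg pR ul
    (PTF.natMul (PTF.natPow pR ((uF.sub ut).sub ul)) (by fun_prop))
    (PTF.natMul (PTF.natMul (PTF.natPow pg (uF.sub ul)) (by fun_prop)) (PTF.natPow pR ut))
    (by fun_prop) hz
  refine ⟨k, fun ι α _ _ P T L t s len B d l hg hF h1 hR h2 hZ ht hs hlen hl hP hB => ?_⟩
  have bd : ∀ x, P x → _ := fun x hx => lay_bounds (L x) (hP x hx).2.1 (hP x hx).2.2.1
    (by have := hP x hx; omega)
  have bN : Bud P T (fun x => (l x).length) := (TU.length hl).bud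
  have sN : Small P T (fun x => Nat.size (l x).length) := Small.size bN
  have un : ∀ {u : ι → ℕ}, TC P T u → (∀ x, P x → u x ≤ (L x).F) → TU P T u := fun hu h =>
    TU.ofNat hu (sN.bud.mono fun x hx => by
      rw [(hP x hx).1]; exact (h x hx).trans (bd x hx).2.2.2.2.2)
  have hc : TC P T (fun x => ((((L x).g, (L x).R, (L x).G1, (L x).G2, (L x).Z),
      (Un.mk (L x).F, Un.mk (t x), Un.mk (s x), Un.mk (len x))) : Ctx)) :=
    (hg.prodMk (hR.prodMk (h1.prodMk (h2.prodMk hZ)))).prodMk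
      (TC.prodMk (un hF fun _ _ => le_rfl) (TC.prodMk (un ht fun x hx => by have := hP x hx; omega)
        (TC.prodMk (un hs fun x hx => (hP x hx).2.2.2.2.2.1)
          (un hlen fun x hx => by have := hP x hx; omega))))
  have hsz : ∀ x, P x → sz ((((L x).g, (L x).R, (L x).G1, (L x).G2, (L x).Z),
      (Un.mk (L x).F, Un.mk (t x), Un.mk (s x), Un.mk (len x))) : Ctx) ≤
      25 * Nat.size (l x).length + 12 := fun x hx => by
    obtain ⟨b1, b2, b3, b4, b5, b6⟩ := bd x hx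
    obtain ⟨e, -, -, -, c1, c2, -⟩ := hP x hx
    have a1 := Nat.size_le_size b1
    have a2 := Nat.size_le_size b2
    have a3 := Nat.size_le_size b3
    have a4 := Nat.size_le_size b4
    have a5 := Nat.size_le_size b5
    simp only [sz_prod, sz_nat, sz_un, e]
    omega
  have g7 : ∀ x, P x → Geo7 ((L x).g ^ len x) (G1' (L x) (t x) (len x)) ((L x).R ^ len x)
      (G2' (L x) (t x) (len x)) (L x).Z (l x).length := fun x hx => by
    refine geo7 ?_ (by rw [(hP x hx).1]; exact (hP x hx).2.1)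
    rw [(hP x hx).1]
    exact lay_dvd (L x) (hP x hx).2.2.2.2.1
  have hB1 : Bud P T (fun x =>
      (l x).length * (B x + 1) * pw τ (Nat.size ((L x).g ^ len x) + 1)) :=
    hB.mono fun x hx => le_trans (Nat.mul_le_mul_left _ (pw_mono hτ (Nat.succ_le_succ
      (size_pow_le _ (hP x hx).2.2.2.1)))) (Nat.le_add_right _ _)
  have hB2 : Bud P T (fun x => ovh k (l x).length (Nat.size (l x).length)) :=
    hB.mono fun x _ => Nat.le_add_left _ _
  have key := hk B d hc hl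
    (sN.of_le_pow 25 1 fun x hx => by have := hsz x hx; rw [pow_one]; omega)
    (fun x hx => ⟨g7 x hx, (hP x hx).2.2.2.2.2.2⟩) hB1
    (Bud.ovh_of_le hB2 1 26 12 le_rfl (fun x _ => by omega)
      fun x hx _ => by have := hsz x hx; omega)
  dsimp only at key
  exact key

end Gad

/-- The cost of the gadget: four interchanges of range `g ^ len` and four rotations
(`B` is only a bound for the sizes of the records, not an input). -/
def GadStatement (τ : ℝ) : Prop :=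
  ∃ k : ℕ, ∀ (ι α : Type) [PTCode ι] [PTCode α] (P : ι → Prop) (T : ι → ℕ) (L : ι → Lay)
    (t s len B : ι → ℕ) (d : α) (l : ι → List α),
    TC P T (fun x => (L x).g) → TC P T (fun x => (L x).F) → TC P T (fun x => (L x).G1) →
    TC P T (fun x => (L x).R) → TC P T (fun x => (L x).G2) → TC P T (fun x => (L x).Z) →
    TC P T t → TC P T s → TC P T len → TC P T l →
    (∀ x, P x → (l x).length = (L x).N ∧ 0 < (L x).N ∧ 2 ≤ (L x).g ∧ 0 < len x ∧
      t x + len x ≤ (L x).F ∧ s x ≤ (L x).F ∧ ∀ r ∈ l x, sz r ≤ B x) →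
    Bud P T (fun x => (l x).length * (B x + 1) * pw τ (len x * Nat.size (L x).g + 1) +
      (l x).length * (Nat.size (l x).length + 1) ^ k) →
    TC P T (fun x => xorL d (L x) (t x) (s x) (len x) (l x)) ∧
      TC P T (fun x => flipL d (L x) (t x) (len x) (l x))

theorem gad_of_swap {τ : ℝ} (hτ : 0 ≤ τ) (hA : SwapStatement τ) : GadStatement τ := by
  obtain ⟨k1, h1⟩ := Gad.tc_lay hτ hA
    (zf := fun c => Gad.zx c.1.2.1 (c.2.2.2.1.val - c.2.2.1.val - c.2.2.2.2.val))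
    (Gad.ptf_dig (PTF.natPow (by fun_prop) (PTU.add (PTU.sub (PTU.sub (PTU.val (by fun_prop))
      (PTU.val (by fun_prop))) (PTU.val (by fun_prop))) (PTU.val PTF.snd))) (PTF.const 2)
      (by fun_prop))
  obtain ⟨k2, h2⟩ := Gad.tc_lay hτ hA (zf := fun _ => Gad.zone) (PTF.const 1)
  refine ⟨k1 + k2, fun ι α _ _ P T L t s len B d l hg hF hG1 hR hG2 hZ ht hs hlen hl hP hB => ?_⟩
  have hB' : ∀ k ≤ k1 + k2, Bud P T (fun x =>
      (l x).length * (B x + 1) * pw τ (len x * Nat.size (L x).g + 1) +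
      (l x).length * (Nat.size (l x).length + 1) ^ k) := fun k hk => hB.mono fun x _ =>
    Nat.add_le_add_left (ovh_mono hk le_rfl le_rfl) _
  exact ⟨h1 ι α P T L t s len B d l hg hF hG1 hR hG2 hZ ht hs hlen hl hP (hB' _ (by omega)),
    h2 ι α P T L t s len B d l hg hF hG1 hR hG2 hZ ht hs hlen hl hP (hB' _ (by omega))⟩

end Crest.Agent.X326.B3
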