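import Crest.Agent.X326.B3.Frame
import Crest.Agent.X326.Net.Nets

/-!
Row 326 (S0503), part M3: translation of the butterfly network into a program of
`add | xor | flip | call` instructions (`CProg`).
-/

set_option autoImplicit false
set_option linter.unusedSectionVars false

namespace Crest.Agent.X326.B3

open Matrix Crest.Agent.X326.Net

variable {W m : ℕ}

/-- the call on group `s` conjugated by the `xor`s into the groups `ts` -/
def conjProg (w : Fin W) (s : Fin m) : List (Fin m) → List (Ins W m)
  | [] => [Ins.call w s]
  | t :: ts => Ins.xor w t s :: (conjProg w s ts ++ [Ins.xor w t s])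

/-- flips of the groups in the support of `t` -/
def flips (w : Fin W) (t : Fin m → ZMod 2) : List (Ins W m) :=
  ((List.finRange m).filter fun a => t a = 1).map (Ins.flip w)

/-- the support of a vector -/
def supp (u : Fin m → ZMod 2) : Finset (Fin m) := Finset.univ.filter fun a => u a = 1

/-- the program of an atom -/
noncomputable def atomProg (w : Fin W) (e : Matrix (Fin m) (Fin m) (ZMod 2))
    (u : Fin m → ZMod 2) : List (Ins W m) :=
  (if h : (supp u).Nonempty then
    conjProg w ((supp u).max' h) ((supp u).erase ((supp u).max' h)).toList else []) ++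
  flips w fun a => e a a * u a

/-- translation of one instruction of the network -/
noncomputable def trInstr : Instr (Fin W) (ℤ × ℕ) (ZMod 2) (Fin m) → List (Ins W m)
  | .add w w' q => [Ins.add w w' q.1 q.2]
  | .atom w e u _ => atomProg w e u

/-! ### side conditions and call counts -/

theorem ncalls_append (P Q : List (Ins W m)) : ncalls (P ++ Q) = ncalls P + ncalls Q := by
  simp [ncalls]

theorem ncalls_conjProg (w : Fin W) (s : Fin m) (ts : List (Fin m)) :
    ncalls (conjProg w s ts) = 1 := by
  induction ts with
  | nil => rfl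
  | cons t ts ih =>
    simp only [ncalls] at ih
    simp [conjProg, ncalls, Ins.isCall, ih]

theorem ncalls_flips (w : Fin W) (t : Fin m → ZMod 2) : ncalls (flips w t) = 0 := by
  simp [ncalls, flips, Ins.isCall]

theorem ncalls_atomProg (w : Fin W) (e : Matrix (Fin m) (Fin m) (ZMod 2)) (u : Fin m → ZMod 2) :
    ncalls (atomProg w e u) ≤ 1 := by
  unfold atomProg
  rw [ncalls_append, ncalls_flips]
  split_ifs
  · rw [ncalls_conjProg]
  · simp [ncalls]

theorem ncalls_flatMap (P : List (Instr (Fin W) (ℤ × ℕ) (ZMod 2) (Fin m))) :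
    ncalls (P.flatMap trInstr) ≤ natoms P := by
  induction P with
  | nil => simp [ncalls]
  | cons ins P ih =>
    rw [List.flatMap_cons, ncalls_append]
    cases ins with
    | add w w' q =>
      rw [natoms_cons_add]
      have : ncalls (trInstr (Instr.add w w' q : Instr (Fin W) (ℤ × ℕ) (ZMod 2) (Fin m))) = 0 :=
        rfl
      omega
    | atom w e u v =>
      rw [natoms_cons_atom]
      have := ncalls_atomProg w e u
      simp only [trInstr]
      omega

theorem ok_conjProg (w : Fin W) (s : Fin m) (ts : List (Fin m)) (h : ∀ t ∈ ts, t < s) :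
    ∀ ins ∈ conjProg w s ts, ins.ok := by
  induction ts with
  | nil =>
    intro ins hins
    simp only [conjProg, List.mem_singleton] at hins
    subst hins
    trivial
  | cons t ts ih =>
    intro ins hins
    simp only [conjProg, List.mem_cons, List.mem_append, List.not_mem_nil, or_false] at hins
    rcases hins with rfl | hins | rfl
    · exact h t List.mem_cons_self
    · exact ih (fun t ht => h t (List.mem_cons_of_mem _ ht)) ins hins
    · exact h t List.mem_cons_self

theorem ok_flips (w : Fin W) (t : Fin m → ZMod 2) : ∀ ins ∈ flips w t, ins.ok := by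
  intro ins hins
  obtain ⟨a, -, rfl⟩ := List.mem_map.1 hins
  trivial

theorem lt_max_of_mem {u : Fin m → ZMod 2} (h : (supp u).Nonempty) :
    ∀ t ∈ ((supp u).erase ((supp u).max' h)).toList, t < (supp u).max' h := by
  intro t ht
  rw [Finset.mem_toList] at ht
  exact Finset.lt_max'_of_mem_erase_max' _ h ht

theorem ok_trInstr (ins : Instr (Fin W) (ℤ × ℕ) (ZMod 2) (Fin m)) :
    ∀ j ∈ trInstr ins, j.ok := by
  cases ins with
  | add w w' q =>
    intro j hj
    simp only [trInstr, List.mem_singleton] at hj
    subst hj
    trivial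
  | atom w e u v =>
    intro j hj
    simp only [trInstr, atomProg, List.mem_append] at hj
    rcases hj with hj | hj
    · split_ifs at hj with h
      · exact ok_conjProg _ _ _ (lt_max_of_mem h) j hj
      · simp at hj
    · exact ok_flips _ _ j hj

/-! ### semantics -/

section Sem

variable {Λ V : Type} [CommRing Λ] [AddCommGroup V] [Module Λ V] {i hf : Λ}

theorem runIns_append (lo f : ℕ) (P Q : List (Ins W m)) (x : Fin W → Bv → V) :
    runIns i hf lo f (P ++ Q) x = runIns i hf lo f Q (runIns i hf lo f P x) := by
  simp [runIns, List.foldl_append]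

theorem runIns_cons (lo f : ℕ) (ins : Ins W m) (P : List (Ins W m)) (x : Fin W → Bv → V) :
    runIns i hf lo f (ins :: P) x = runIns i hf lo f P (ins.exec i hf lo f x) := rfl

theorem runIns_conjProg (lo f : ℕ) (w : Fin W) (s : Fin m) (ts : List (Fin m))
    (h : ∀ t ∈ ts, t < s) (x : Fin W → Bv → V) :
    runIns i hf lo f (conjProg w s ts) x = Function.update x w
      (Cvs i hf (fun c => emb lo f (col f
        (Pi.single s 1 + (ts.map fun t => (Pi.single t 1 : Fin m → ZMod 2)).sum) c)) f (x w)) := by
  induction ts generalizing x with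
  | nil =>
    simp only [conjProg, runIns, List.foldl_cons, List.foldl_nil, Ins.exec, List.map_nil,
      List.sum_nil, add_zero]
    rw [Crange_eq, Cvs_congr i hf fun c hc => single_eq_emb_col lo s hc]
  | cons t ts ih =>
    have hts : t < s := h t List.mem_cons_self
    have h' : ∀ t ∈ ts, t < s := fun t ht => h t (List.mem_cons_of_mem _ ht)
    simp only [conjProg]
    rw [runIns_cons, runIns_append, ih h']
    simp only [runIns, List.foldl_cons, List.foldl_nil, Ins.exec, Function.update_self,
      Function.update_idem]
    have hle : lo + t * f + f ≤ lo + s * f := by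
      have : (t.val + 1) * f ≤ s * f := Nat.mul_le_mul_right _ hts
      rw [add_mul, one_mul] at this
      omega
    rw [Cvs_conj i hf _ (xorMap_add _ _ _) (xorMap_xorMap hle)]
    have h1 : ((Pi.single s 1 + (ts.map fun t => (Pi.single t 1 : Fin m → ZMod 2)).sum :
        Fin m → ZMod 2) s) = 1 := by
      rw [Pi.add_apply, Pi.single_eq_same, Pi.list_sum_apply, List.map_map,
        List.sum_eq_zero, add_zero]
      intro z hz
      obtain ⟨t', ht', rfl⟩ := List.mem_map.1 hz
      exact Pi.single_eq_of_ne (h' t' ht').ne' _
    simp only [xorMap_emb_col, h1, List.map_cons, List.sum_cons]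
    rw [add_assoc, add_comm (List.sum _)]

theorem runIns_map_flip (lo f : ℕ) (w : Fin W) (ts : List (Fin m)) (x : Fin W → Bv → V) :
    runIns i hf lo f (ts.map (Ins.flip w)) x = Function.update x w
      (tau Λ V lo f (allc f (ts.map fun t => (Pi.single t 1 : Fin m → ZMod 2)).sum) (x w)) := by
  induction ts generalizing x with
  | nil =>
    have : allc f (0 : Fin m → ZMod 2) = 0 := rfl
    simp [runIns, this, tau_zero]
  | cons t ts ih =>
    rw [List.map_cons, runIns_cons, ih]
    simp only [Ins.exec, Function.update_self, Function.update_idem, List.map_cons,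
      List.sum_cons]
    congr 1
    funext b
    have : ∀ u v : Fin m → ZMod 2, allc f (u + v) = allc f u + allc f v := fun _ _ => rfl
    simp only [tau, trE_apply, Function.comp, flipMap_eq, this, emb_add]
    congr 1
    abel

theorem sum_single_supp (u : Fin m → ZMod 2) :
    ∑ a ∈ supp u, (Pi.single a 1 : Fin m → ZMod 2) = u := by
  funext b
  rw [Finset.sum_apply]
  simp only [Pi.single_apply, Finset.sum_ite_eq, supp, Finset.mem_filter, Finset.mem_univ,
    true_and]
  rcases zmod2_cases (u b) with h | h <;> simp [h]

theorem runIns_flips (lo f : ℕ) (w : Fin W) (t : Fin m → ZMod 2) (x : Fin W → Bv → V) :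
    runIns i hf lo f (flips w t) x = Function.update x w (tau Λ V lo f (allc f t) (x w)) := by
  unfold flips
  rw [runIns_map_flip]
  congr 4
  rw [← List.sum_toFinset _ ((List.nodup_finRange m).filter _)]
  refine Eq.trans (Finset.sum_congr ?_ fun _ _ => rfl) (sum_single_supp t)
  ext a
  simp [supp]

theorem runIns_atomProg (h2 : 2 * hf = 1) (lo f : ℕ) (w : Fin W)
    (e : Matrix (Fin m) (Fin m) (ZMod 2)) (u : Fin m → ZMod 2) (x : Fin W → Bv → V) :
    runIns i hf lo f (atomProg w e u) x =
      Function.update x w (actB V i hf lo f e u (x w)) := by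
  unfold atomProg actB
  rw [runIns_append, runIns_flips, Module.End.mul_apply]
  split_ifs with h
  · rw [runIns_conjProg lo f w _ _ (lt_max_of_mem h), Function.update_self, Function.update_idem,
      Finset.sum_map_toList, Finset.add_sum_erase _ (fun a => (Pi.single a 1 : Fin m → ZMod 2))
        (Finset.max'_mem _ h), sum_single_supp]
  · have hu : u = 0 := by
      rw [← sum_single_supp u, Finset.not_nonempty_iff_eq_empty.1 h, Finset.sum_empty]
    have h0 : (fun c => emb lo f (col f u c)) = fun _ => 0 := by
      funext c
      have : col f u c = 0 := by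
        funext p
        simp [col, hu]
      rw [this, emb_zero]
    rw [h0, Cvs_zero h2]
    rfl

theorem runIns_flatMap (h2 : 2 * hf = 1) (lo f : ℕ)
    (P : List (Instr (Fin W) (ℤ × ℕ) (ZMod 2) (Fin m))) (x : Fin W → Bv → V) :
    runIns i hf lo f (P.flatMap trInstr) x =
      run (fun e u _ y => actB V i hf lo f e u y) (P.map (Instr.mapCoef (coefVal hf))) x := by
  induction P generalizing x with
  | nil => rfl
  | cons ins P ih =>
    rw [List.flatMap_cons, runIns_append, List.map_cons, run_cons, ih]
    congr 1
    cases ins with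
    | add w w' q => rfl
    | atom w e u v => exact runIns_atomProg h2 lo f w e u x

theorem runIns_flipsAll (lo f : ℕ) (t : Fin W → Fin m → ZMod 2) (ws : List (Fin W))
    (hws : ws.Nodup) (x : Fin W → Bv → V) (w : Fin W) :
    runIns i hf lo f (ws.flatMap fun w => flips w (t w)) x w =
      if w ∈ ws then tau Λ V lo f (allc f (t w)) (x w) else x w := by
  induction ws generalizing x with
  | nil => rfl
  | cons a ws ih =>
    rw [List.nodup_cons] at hws
    rw [List.flatMap_cons, runIns_append, ih hws.2, runIns_flips]
    by_cases hw : w = a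
    · subst hw
      rw [if_neg hws.1, if_pos List.mem_cons_self, Function.update_self]
    · simp only [Function.update_of_ne hw, List.mem_cons, hw, false_or]

end Sem

/-- a butterfly network gives a `CProg` -/
theorem cprog_of_netSpec {P : List (Instr (Fin W) (ℤ × ℕ) (ZMod 2) (Fin m))} {ρ : Fin W ≃ Fin W}
    {lin lout : Fin W → Matrix (Fin m) (Fin m) (ZMod 2)}
    (h : ∀ (R : Type) [CommRing R] (hf : R), 2 * hf = 1 →
      NetSpec R True 1 (P.map (Instr.mapCoef (coefVal hf))) ρ lin lout) :
    ∃ P' : List (Ins W m), CProg P' ρ ∧ ncalls P' ≤ natoms P := by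
  refine ⟨P.flatMap trInstr ++
    (List.finRange W).flatMap fun w => flips w fun a => lin (ρ.symm w) a a, ⟨?_, ?_⟩, ?_⟩
  · intro ins hins
    rcases List.mem_append.1 hins with hins | hins
    · obtain ⟨j, -, hj⟩ := List.mem_flatMap.1 hins
      exact ok_trInstr j ins hj
    · obtain ⟨w, -, hw⟩ := List.mem_flatMap.1 hins
      exact ok_flips _ _ ins hw
  · intro Λ V _ _ _ i hf hi h2 lo f y w
    have hs := h Λ hf h2
    choose x hx using fun w => Phi_surjective (V := V) hi h2 lo f (lin w) (y w)
    have hy : y = fun w => Phi V i hf lo f (lin w) (x w) := funext fun w => (hx w).symm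
    rw [runIns_append, runIns_flipsAll lo f _ _ (List.nodup_finRange W),
      if_pos (List.mem_finRange _), runIns_flatMap h2, Equiv.symm_apply_apply, ← hx w, Crange_eq]
    conv_lhs => rw [hy]
    have hfr := frame (Phi V i hf lo f) (fun e u _ y => actB V i hf lo f e u y) hs.valid (by
      intro w' e u v hm z
      obtain ⟨rfl, he⟩ := hs.symm trivial w' e u v hm
      rw [← Module.End.mul_apply, actB_mul_Phi hi h2 lo f he]) x
    rw [hfr]
    beta_reduce
    rw [hs.logical, hs.label, ← Module.End.mul_apply,
      Crange_full_mul_Phi hi h2 lo f (hs.symm_in trivial w), Module.End.mul_apply]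
  · rw [ncalls_append]
    have h1 := ncalls_flatMap P
    have h2 : ∀ ws : List (Fin W),
        ncalls (ws.flatMap fun w => flips w fun a => lin (ρ.symm w) a a) = 0 := by
      intro ws
      induction ws with
      | nil => rfl
      | cons a ws ih => rw [List.flatMap_cons, ncalls_append, ih, ncalls_flips]
    rw [h2]
    omega

/-- **The field-level program of part B**: `W = 2^63` wires, `m = 2^18` groups. -/
theorem exists_cprog :
    ∃ (W m : ℕ), W = 2 ^ 63 ∧ m = 2 ^ 18 ∧ ∃ (P : List (Ins W m)) (ρ : Fin W ≃ Fin W),
      CProg P ρ ∧ ncalls P * 2 ^ 40 + 13 * (W * m) ≤ W * m * 2 ^ 40 ∧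
        (ncalls P : ℝ) ≤ W * (m : ℝ) ^ (1 - 1 / (2 : ℝ) ^ 40) := by
  obtain ⟨W, m, hW, hm, P, ρ, lin, lout, hspec, hcount, -⟩ := netB
  obtain ⟨P', hP', hn⟩ := cprog_of_netSpec hspec
  have h1 : ncalls P' * 2 ^ 40 + 13 * (W * m) ≤ W * m * 2 ^ 40 :=
    le_trans (Nat.add_le_add_right (Nat.mul_le_mul_right _ hn) _) hcount
  exact ⟨W, m, hW, hm, P', ρ, hP', h1, count_le_rpow hm h1⟩

end Crest.Agent.X326.B3
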