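import Crest.Agent.X326.B3.StreamsTC
import Crest.Agent.X326.B3.BaseTC
import Crest.Agent.X326.B3.GadgetTC
import Crest.Agent.X326.A.Main
import Crest.Agent.X326.B3.Prog

/-!
Row 326 (S0503), part M3: adapters from the component theorems to the statements of `B3/Spec`.
-/

set_option autoImplicit false

namespace Crest.Agent.X326.B3

open Crest.Agent.Lib.PT

namespace Ad

theorem sz_le_msz {α : Type} [PTCode α] {l : List α} {r : α} (h : r ∈ l) : sz r ≤ msz l := by
  induction l with
  | nil => simp at h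
  | cons a l ih =>
    have e : msz (a :: l) = max (sz a) (msz l) := rfl
    rw [e]
    rcases List.mem_cons.1 h with rfl | h
    · exact le_max_left _ _
    · exact (ih h).trans (le_max_right _ _)

theorem le_two_pow_size (n : ℕ) : n ≤ 2 ^ n.size := (Nat.lt_size_self n).le

theorem pow_le_two_pow_size (n F : ℕ) : n ^ F ≤ 2 ^ (F * n.size) := by
  rw [Nat.mul_comm, pow_mul]
  exact Nat.pow_le_pow_left (le_two_pow_size n) F

theorem size_N_le (L : Lay) : Nat.size L.N + 1 ≤ (sz L + 1) ^ 2 := by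
  have h1 : L.N ≤ 2 ^ (L.Z.size + L.F * L.g.size + L.G2.size + L.F * L.R.size + L.G1.size +
      L.F * L.g.size + L.Pre.size) := by
    have e : L.N = L.Z * L.g ^ L.F * L.G2 * L.R ^ L.F * L.G1 * L.g ^ L.F * L.Pre := rfl
    rw [e]
    simp only [pow_add]
    exact Nat.mul_le_mul (Nat.mul_le_mul (Nat.mul_le_mul (Nat.mul_le_mul (Nat.mul_le_mul
      (Nat.mul_le_mul (le_two_pow_size _) (pow_le_two_pow_size _ _)) (le_two_pow_size _))
      (pow_le_two_pow_size _ _)) (le_two_pow_size _)) (pow_le_two_pow_size _ _))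
      (le_two_pow_size _)
  have h2 := Nat.size_le_size h1
  rw [Nat.size_pow] at h2
  have h3 := sz_lay L
  have h4 : L.F * (2 * L.g.size + L.R.size) ≤ sz L * sz L :=
    Nat.mul_le_mul (by omega) (by omega)
  have h5 : (sz L + 1) ^ 2 = sz L * sz L + 2 * sz L + 1 := by ring
  have h6 : L.F * (2 * L.g.size + L.R.size) = 2 * (L.F * L.g.size) + L.F * L.R.size := by ring
  omega

end Ad

/-- the gadget in the form used by the recursion -/
theorem gadgetStatement_of {τ : ℝ} (h : GadStatement τ) : GadgetStatement τ := by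
  obtain ⟨k, hk⟩ := h
  refine ⟨fun x => if x.2.1.2.2.2.val = 0 then x.2.2 else
    bif x.2.1.1 then xorL [] x.1 x.2.1.2.1.val x.2.1.2.2.1.val x.2.1.2.2.2.val x.2.2
    else flipL [] x.1 x.2.1.2.1.val x.2.1.2.2.2.val x.2.2, 2 * k, ?_, ?_⟩
  · generalize hT : (fun x : Lay × (Bool × Un × Un × Un) × List (List ℕ) =>
      x.1.N * (msz x.2.2 + 1) * pw τ (x.2.1.2.2.2.val * Nat.size x.1.g + 1) +
        x.1.N * (sz x.1 + 1) ^ (2 * k)) = T
    refine TC.ite' (P := GadDom) (T := T)
      (TU.val (TC.fst (TC.snd TC.id)).snd.snd.snd).decide_eq_zero (TC.snd (TC.snd TC.id)) ?_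
    generalize hD : (fun x : Lay × (Bool × Un × Un × Un) × List (List ℕ) =>
      GadDom x ∧ ¬ x.2.1.2.2.2.val = 0) = D
    have hD' : ∀ x, D x → GadDom x ∧ ¬ x.2.1.2.2.2.val = 0 := fun x hx => by rwa [← hD] at hx
    have hL : TC D T (fun x => x.1) := TC.fst TC.id
    have hp : TC D T (fun x => x.2.1) := TC.fst (TC.snd TC.id)
    have hl : TC D T (fun x => x.2.2) := TC.snd (TC.snd TC.id)
    obtain ⟨h1, h2⟩ := hk _ _ D T (fun x => x.1) (fun x => x.2.1.2.1.val)
      (fun x => x.2.1.2.2.1.val) (fun x => x.2.1.2.2.2.val) (fun x => msz x.2.2) []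
      (fun x => x.2.2) (tc_layg hL) (tu_layF hL).toNat (tc_layG1 hL) (tc_layR hL) (tc_layG2 hL)
      (tc_layZ hL) hp.snd.fst.unVal hp.snd.snd.fst.unVal hp.snd.snd.snd.unVal hl
      (fun x hx => by
        obtain ⟨⟨hG, hN, h3, h4, _⟩, h0⟩ := hD' x hx
        exact ⟨hN, Bf.N_pos hG, hG.g, Nat.pos_of_ne_zero h0, h3.trans h4, h4,
          fun _ hr => Ad.sz_le_msz hr⟩)
      (Bud.self.mono fun x hx => by
        rw [← hT, (hD' x hx).1.2.1]
        beta_reduce
        rw [pow_mul]
        exact Nat.add_le_add_left (Nat.mul_le_mul_left _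
          (Nat.pow_le_pow_left (Ad.size_N_le _) _)) _)
    exact TC.cond hp.fst h1 h2
  · rintro L src t s len l ⟨hG, hN, h3, h4, h5⟩
    simp only at hG hN h3 h4 h5
    by_cases h0 : len = 0
    · subst h0
      refine ⟨rfl, fun x hx => hx, fun β _ b => ?_⟩
      have e : gadMap src t s 0 b = b := by
        funext j
        cases src
        · exact if_neg (by omega)
        · exact if_neg (by omega)
      rw [e]
      rfl
    · simp only [if_neg h0]
      cases src
      · exact ⟨length_flipL _ _ _ _ _, fun x hx => mem_flipL hN (h3.trans h4) hx,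
          fun β hβ b => getD_flipL [] [] hG.even hN (h3.trans h4) hβ b⟩
      · exact ⟨length_xorL _ _ _ _ _ _, fun x hx => mem_xorL hN (h3.trans h4) hx,
          fun β hβ b => getD_xorL [] [] hG.even hN h3 (h5 rfl) hβ b⟩

/-- **The gadget**, unconditionally. -/
theorem gadgetStatement : GadgetStatement (1 - 1 / (2 : ℝ) ^ 40) :=
  gadgetStatement_of (gad_of_swap A.tauA_pos.le A.swapStatement)

/-- the field-level program with its exact sizes -/
theorem progStatement :
    ∃ W m : ℕ, W = 2 ^ 63 ∧ m = 2 ^ 18 ∧ ProgStatement W m (1 - 1 / (2 : ℝ) ^ 40) := by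
  obtain ⟨W, m, hW, hm, P, ρ, hP, -, h⟩ := exists_cprog
  exact ⟨W, m, hW, hm, P, ρ, hP, h⟩

/-- part B from its main statement -/
theorem partB_of_main (h : MainB) :
    ∃ W m : ℕ, W = 2 ^ 63 ∧ m = 2 ^ 18 ∧ PartBStatement W m (1 - 1 / (2 : ℝ) ^ 40) := by
  obtain ⟨W, m, hW, hm, hP⟩ := progStatement
  refine ⟨W, m, hW, hm, h W m _ ?_ ?_ A.tauA_pos A.tauA_le_one hP gadgetStatement baseStatement⟩
  · rw [hW]; positivity
  · rw [hm]; norm_num

end Crest.Agent.X326.B3
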