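import Crest.Agent.X326.B3.Cost

/-!
Row 326 (S0503), part M3: the machine computing the recursion.
-/

set_option autoImplicit false

namespace Crest.Agent.X326.B3

open Crest.Agent.Lib.PT

section tc

variable {W m : ℕ} {τ : ℝ}

/-- budget of a step on a state -/
noncomputable def budZ (τ : ℝ) (k : ℕ) (z : ZB) : ℕ :=
  pass k z.1.1.1 z.1.1.2 z.1.2.1 * pw τ (z.1.2.2.2.val * Nat.size z.1.2.1.g + 1)

/-- budget of the local work of a call -/
noncomputable def budX (τ : ℝ) (k m : ℕ) (x : XB) : ℕ :=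
  pass k x.1.1 x.1.2 x.2.1 * pw τ (m ^ x.2.2.1.2.val * (Nat.size x.2.1.g + 1))

theorem pass_le_budZ (k : ℕ) (z : ZB) : pass k z.1.1.1 z.1.1.2 z.1.2.1 ≤ budZ τ k z :=
  Nat.le_mul_of_pos_right _ (one_le_pw τ (Nat.succ_pos _))

theorem pass_le_budX (hm : 0 < m) (k : ℕ) (x : XB) : pass k x.1.1 x.1.2 x.2.1 ≤ budX τ k m x :=
  Nat.le_mul_of_pos_right _ (one_le_pw τ (by positivity))

theorem gad_cost_le {kg k : ℕ} (hk : kg ≤ k) {z : ZB} {l : Arr}
    (hl : WFL z.1.2.1 z.1.1.2 z.1.1.1 l) :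
    z.1.2.1.N * (msz l + 1) * pw τ (z.1.2.2.2.val * Nat.size z.1.2.1.g + 1) +
      z.1.2.1.N * (sz z.1.2.1 + 1) ^ kg ≤ 3 * budZ τ k z := by
  have h1 : msz l + 1 ≤ 2 * unitB k z.1.1.1 z.1.1.2 z.1.2.1 := by
    have := hl.msz_le
    unfold unitB
    nlinarith [Nat.zero_le ((Nat.size z.1.1.1 + Nat.size z.1.1.2 + sz z.1.2.1 + 1) ^ k)]
  have h2 : (sz z.1.2.1 + 1) ^ kg ≤ unitB k z.1.1.1 z.1.1.2 z.1.2.1 :=
    ((Nat.pow_le_pow_left (by omega) kg).trans (Nat.pow_le_pow_right (by omega) hk)).trans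
      (Nat.le_add_left _ _)
  have h3 := pass_le_budZ (τ := τ) k z
  have h4 := Nat.mul_le_mul_right (pw τ (z.1.2.2.2.val * Nat.size z.1.2.1.g + 1))
    (Nat.mul_le_mul_left z.1.2.1.N h1)
  have h5 := Nat.mul_le_mul_left z.1.2.1.N h2
  rw [← pass_eq] at h5
  have h6 : z.1.2.1.N * (2 * unitB k z.1.1.1 z.1.1.2 z.1.2.1) *
      pw τ (z.1.2.2.2.val * Nat.size z.1.2.1.g + 1) = 2 * budZ τ k z := by
    rw [budZ, pass_eq]; ring
  omega

theorem tc_freeB {gad : GadT} {kg k : ℕ} (hk : kg ≤ k)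
    (hg : TC GadDom (fun x => x.1.N * (msz x.2.2 + 1) *
      pw τ (x.2.1.2.2.2.val * Nat.size x.1.g + 1) + x.1.N * (sz x.1 + 1) ^ kg) gad)
    (ins : Ins W m) (hins : ins.ok) : TC (DomZ W m) (budZ τ k) (freeB gad ins) := by
  have hz : TC (DomZ W m) (budZ τ k) (fun z : ZB => z) := TC.id
  have hlo : TU (DomZ W m) (budZ τ k) (fun z : ZB => z.1.2.2.1.1.val) :=
    TU.val hz.fst.snd.snd.fst.fst
  have hf : TU (DomZ W m) (budZ τ k) (fun z : ZB => z.1.2.2.2.val) := TU.val hz.fst.snd.snd.snd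
  have hw : ∀ w : ℕ, TC (DomZ W m) (budZ τ k) (fun z : ZB => z.2.getD w []) := fun w =>
    TC.getD hz.snd (TU.const w) (TC.const [])
  refine TC.prodMk hz.fst ?_
  rcases ins with ⟨w, w', a, e⟩ | ⟨w, t, s⟩ | ⟨w, t⟩ | ⟨w, s⟩
  · refine tc_addSet w w' a e hz.fst.fst.fst hz.snd (fun z => z.1.2.1.N) (fun z => z.1.1.2)
      (fun z h s hs => ⟨(h.2.2.2 s hs).1.le, fun y hy => ((h.2.2.2 s hs).2 y hy).1.le⟩) ?_
    refine Bud.self.mono (fun z _ => le_trans ?_ (pass_le_budZ k z))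
    exact Nat.mul_le_mul_left _ (Nat.le_add_right _ _)
  · refine TC.set hz.snd (TU.const w) (TC.comp hg (hz.fst.snd.fst.prodMk
      (((TC.const true).prodMk ((TC.unMk (hlo.add (hf.const_mul t))).prodMk
        ((TC.unMk (hlo.add (hf.const_mul s))).prodMk (TC.unMk hf)))).prodMk (hw w)))
      (fun z h => gadDom_xor h w hins) ?_)
    exact (Bud.self.const_mul 3).mono (fun z h => gad_cost_le hk (h.2.2.getD w))
  · refine TC.set hz.snd (TU.const w) (TC.comp hg (hz.fst.snd.fst.prodMk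
      (((TC.const false).prodMk ((TC.unMk (hlo.add (hf.const_mul t))).prodMk
        ((TC.unMk ((hlo.add (hf.const_mul t)).add hf)).prodMk (TC.unMk hf)))).prodMk (hw w)))
      (fun z h => gadDom_flip h w t) ?_)
    exact (Bud.self.const_mul 3).mono (fun z h => gad_cost_le hk (h.2.2.getD w))
  · exact TC.set hz.snd (TU.const w) (hw w)

theorem lin_getB (w s : ℕ) : Lin (getB w s) := by
  have hz : Lin (fun z : ZB => z) := TC.id
  exact hz.fst.fst.prodMk (hz.fst.snd.fst.prodMk (((TC.unMk ((TU.val hz.fst.snd.snd.fst.fst).add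
    ((TU.val hz.fst.snd.snd.snd).const_mul s))).prodMk hz.fst.snd.snd.fst.snd).prodMk
      (TC.getD hz.snd (TU.const w) (TC.const []))))

theorem lin_putB (w : ℕ) : Lin (fun p : ZB × Arr => putB w p.1 p.2) := by
  have hz : Lin (fun z : ZB × Arr => z) := TC.id
  exact hz.fst.fst.prodMk (TC.set hz.fst.snd (TU.const w) hz.snd)

theorem sz_XB (x : XB) : sz x = 2 * (2 * Nat.size x.1.1 + 1 + Nat.size x.1.2) + 1 +
    (2 * sz x.2.1 + 1 + (2 * (2 * x.2.2.1.1.val + 1 + x.2.2.1.2.val) + 1 + sz x.2.2.2)) := by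
  simp only [sz_prod, sz_nat, sz_un]

theorem budZ_pre (hW : 0 < W) (hm : 0 < m) (hτ : 0 ≤ τ) (k : ℕ) {x : XB} (h : PartBDom W m x)
    (hj : x.2.2.1.2.val ≠ 0) {z : ZB} (hz : z.1 = (preB W m x).1) :
    budZ τ k z ≤ budX τ k m x := by
  have hd := (dom_pre h hj).1
  rw [budZ, budX, hz, pass_eq, pass_eq]
  refine Nat.mul_le_mul (Nat.mul_le_mul (sub_N_le hd hW) (unitB_sub _ _ _ _ _)) (pw_mono hτ ?_)
  show m ^ (x.2.2.1.2.val - 1) * Nat.size x.2.1.g + 1 ≤ _
  have h1 : m ^ (x.2.2.1.2.val - 1) ≤ m ^ x.2.2.1.2.val := Nat.pow_le_pow_right hm (by omega)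
  have h2 : 1 ≤ m ^ x.2.2.1.2.val := Nat.one_le_pow _ _ hm
  have h3 := Nat.mul_le_mul_right (Nat.size x.2.1.g) h1
  rw [Nat.mul_add, Nat.mul_one]
  omega

theorem sz_le_pass (hm : 2 ≤ m) {k : ℕ} (hk : 1 ≤ k) {x : XB} (h : PartBDom W m x) :
    sz x + 1 ≤ 20 * pass k x.1.1 x.1.2 x.2.1 := by
  have h1 := h.2.2.2.sz_le
  have h2 := F_le_sz x.2.1
  have h3 : x.2.2.1.2.val < m ^ x.2.2.1.2.val := Nat.lt_pow_self (by omega)
  have h4 := h.2.1
  have h5 : Nat.size x.1.1 + Nat.size x.1.2 + sz x.2.1 + 1 ≤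
      (Nat.size x.1.1 + Nat.size x.1.2 + sz x.2.1 + 1) ^ k := Nat.le_self_pow (by omega) _
  have h6 : (Nat.size x.1.1 + Nat.size x.1.2 + sz x.2.1 + 1) ^ k ≤
      x.2.1.N * (Nat.size x.1.1 + Nat.size x.1.2 + sz x.2.1 + 1) ^ k :=
    Nat.le_mul_of_pos_left _ h.1.N_pos
  rw [sz_XB, pass, Nat.mul_add x.2.1.N]
  rw [Nat.mul_left_comm] at h1
  omega

theorem tc_resB {gad : GadT} {bf : BaseT} {P : List (Ins W m)} {ρ : Fin W → Fin W} {kg kb : ℕ}
    (hW : 0 < W) (hm : 2 ≤ m) (hτ : 0 ≤ τ) (hP : ∀ ins ∈ P, ins.ok)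
    (hs : (ncalls P : ℝ) ≤ W * (m : ℝ) ^ τ)
    (hg : TC GadDom (fun x => x.1.N * (msz x.2.2 + 1) *
      pw τ (x.2.1.2.2.2.val * Nat.size x.1.g + 1) + x.1.N * (sz x.1 + 1) ^ kg) gad)
    (hb : TC BaseDom (fun x => pass kb x.1.1 x.1.2 x.2.1) bf) (hgs : GadSpec gad)
    (hwf : ∀ x, PartBDom W m x → WFL x.2.1 x.1.2 x.1.1 (resB gad bf P ρ x)) :
    TC (PartBDom W m) (fun x => pass (kg + kb + 1) x.1.1 x.1.2 x.2.1 * (x.2.2.1.2.val + 1) *
      pw τ (m ^ x.2.2.1.2.val * (Nat.size x.2.1.g + 1))) (resB gad bf P ρ) := by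
  set k := kg + kb + 1 with hk
  have hm0 : 0 < m := by omega
  let B : XB → ℕ := fun x => costB τ W m (ncalls P) (unitB k x.1.1 x.1.2 x.2.1)
    (Nat.size x.2.1.g) x.2.2.1.2.val x.2.1.N
  let I : XB → ZB → Prop := fun x z => z.1 = (preB W m x).1 ∧ DomZ W m z
  have hget : ∀ (w : Fin W) (s : Fin m) (x : XB) (z : ZB), PartBDom W m x →
      x.2.2.1.2.val ≠ 0 → I x z → PartBDom W m (getB w s z) := by
    intro w s x z hx hj hz
    have h1 := grp_le hz.2.2.1 s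
    have h2 : z.1.2.2.2.val = m ^ z.1.2.2.1.2.val := by rw [hz.1]; rfl
    refine ⟨hz.2.1, ?_, ?_, hz.2.2.2.getD w⟩
    · show z.1.2.2.1.1.val + s * z.1.2.2.2.val + m ^ z.1.2.2.1.2.val ≤ z.1.2.1.F
      omega
    · show W ^ z.1.2.2.1.2.val ∣ z.1.2.1.Z
      rw [hz.1]
      exact (dom_pre hx hj).2.2
  have hI : ∀ s ∈ P.map (stageB gad), ∀ x z, PartBDom W m x →
      decide (x.2.2.1.2.val = 0) = false → I x z → I x (s.run (resB gad bf P ρ) z) := by
    intro s hs x z hx hj hz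
    obtain ⟨ins, hins, rfl⟩ := List.mem_map.1 hs
    have hok := hP ins hins
    rcases ins with ⟨w, w', a, e⟩ | ⟨w, t, s⟩ | ⟨w, t⟩ | ⟨w, s⟩
    · exact ⟨hz.1, hz.2.free hgs _ hok⟩
    · exact ⟨hz.1, hz.2.free hgs _ hok⟩
    · exact ⟨hz.1, hz.2.free hgs _ hok⟩
    · exact ⟨hz.1, hz.2.1, hz.2.2.1,
        hz.2.2.2.set' w (hwf _ (hget w s x z hx (by simpa using hj) hz))⟩
  have key : TC (PartBDom W m) B (resB gad bf P ρ) := by
    refine TC.recStages' (P.map (stageB gad)) (V := budX τ k m) (L := budX τ k m)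
      (μ := fun x => x.2.2.1.2.val) (isBase := fun x => decide (x.2.2.1.2.val = 0))
      (base := fun x => bf (x.1, x.2.1, x.2.2.1.1, x.2.2.2)) (pre := preB W m)
      (post := fun z => undealP ρ z.2) I ?_ ?_ ?_ ?_ ?_ hI ?_ ?_ ?_ ?_ ?_ ?_
    · rintro ⟨⟨M, r⟩, L, ⟨⟨lo⟩, ⟨j⟩⟩, l⟩ _
      rcases j with _ | j
      · rfl
      · simp only [Nat.add_eq_zero_iff, one_ne_zero, and_false, decide_false, cond_false]
        rw [runStages_stageB]
        rfl
    · exact TU.decide_eq_zero (TU.val TC.id.snd.snd.fst.snd)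
    · refine TC.comp hb (TC.id.fst.prodMk (TC.id.snd.fst.prodMk
        (TC.id.snd.snd.fst.fst.prodMk TC.id.snd.snd.snd))) ?_ ?_
      · rintro x ⟨hx, hj⟩
        have h1 := hx.2.1
        have h2 : 1 ≤ m ^ x.2.2.1.2.val := Nat.one_le_pow _ _ hm0
        exact ⟨hx.1, by show x.2.2.1.1.val < x.2.1.F; omega, hx.2.2.2⟩
      · refine Bud.self.mono (fun x _ => le_trans ?_ (pass_le_budX hm0 k x))
        exact Nat.mul_le_mul_left _ (unitB_mono (by omega) _ _ _)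
    · have hx : TC (fun x : XB => PartBDom W m x ∧ decide (x.2.2.1.2.val = 0) = false)
          (budX τ k m) (fun x : XB => x) := TC.id
      have hj := (TU.val hx.snd.snd.fst.snd).sub (TU.const 1)
      refine (hx.fst.prodMk ((tc_laySub W hx.snd.fst).prodMk
        ((hx.snd.snd.fst.fst.prodMk (TC.unMk hj)).prodMk
          (TC.unMk (TU.pow (TU.const m) hj ?_))))).prodMk (TC.dealAll W hx.snd.snd.snd)
      refine Bud.sz.mono (fun x h => ?_)
      have h1 := h.1.2.1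
      have h2 := F_le_sz x.2.1
      have h3 : m ^ (x.2.2.1.2.val - 1) ≤ m ^ x.2.2.1.2.val := Nat.pow_le_pow_right hm0 (by omega)
      rw [sz_XB]
      omega
    · intro x hx hj
      exact ⟨rfl, (dom_pre hx (by simpa using hj)).2.1⟩
    · refine ⟨8 * W + 16, fun x z hx hj hz => ?_⟩
      have hj' : x.2.2.1.2.val ≠ 0 := by simpa using hj
      have h1 := sz_streams_le hz.2.2.2.1 hz.2.2.2.2
      have h2 := (pass_le_budZ k z).trans (budZ_pre hW hm0 hτ k hx hj' hz.1)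
      have h3 : z.1.2.1.N * ((z.1.1.2 + 1) * (Nat.size z.1.1.1 + 1)) ≤
          pass k z.1.1.1 z.1.1.2 z.1.2.1 := Nat.mul_le_mul_left _ (Nat.le_add_right _ _)
      have h4 : sz z.1 ≤ 2 * sz x := by
        rw [hz.1, sz_XB]
        have a1 := hx.2.1
        have a2 := F_le_sz x.2.1
        have a3 : m ^ (x.2.2.1.2.val - 1) ≤ m ^ x.2.2.1.2.val :=
          Nat.pow_le_pow_right hm0 (by omega)
        have a4 := sz_laySub_le x.2.1 W
        simp only [preB, sz_prod, sz_nat, sz_un]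
        omega
      have h5 : sz z.2 ≤ W * (8 * budX τ k m x + 1) := by
        refine h1.trans (Nat.mul_le_mul_left _ ?_)
        rw [Nat.mul_left_comm z.1.2.1.N]
        omega
      rw [sz_prod]
      nlinarith
    · intro s hs
      obtain ⟨ins, hins, rfl⟩ := List.mem_map.1 hs
      have hok := hP ins hins
      have hfree : TCG (fun x z => PartBDom W m x ∧ decide (x.2.2.1.2.val = 0) = false ∧ I x z)
          (budX τ k m) (freeB gad ins) :=
        TCG.intro' (tc_freeB (k := k) (by omega) hg ins hok) 1 (fun _ _ h => h.2.2.2)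
          (fun x z h => by
            simpa using budZ_pre hW hm0 hτ k h.1 (by simpa using h.2.1) h.2.2.1)
      rcases ins with ⟨w, w', a, e⟩ | ⟨w, t, s⟩ | ⟨w, t⟩ | ⟨w, s⟩
      · exact Stage.ok_free hfree
      · exact Stage.ok_free hfree
      · exact Stage.ok_free hfree
      · refine Stage.ok_call (TCG.of_lin (lin_getB w s)) (TCG.of_lin (lin_putB w)) ?_
        rintro x z ⟨hx, hj, hz⟩
        have hj' : x.2.2.1.2.val ≠ 0 := by simpa using hj
        refine ⟨hget w s x z hx hj' hz, ?_⟩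
        show z.1.2.2.1.2.val < x.2.2.1.2.val
        rw [hz.1]
        show x.2.2.1.2.val - 1 < _
        omega
    · exact TCG.of_lin (tc_undealP ρ TC.id.snd)
    · refine ⟨21, fun x hx => ?_⟩
      have h1 := sz_le_pass hm (k := k) (by omega) hx
      have h2 := pass_le_budX (τ := τ) hm0 k x
      omega
    · intro x _ hj
      have hj' : x.2.2.1.2.val = 0 := by simpa using hj
      simp only [B, budX, hj', costB, pass_eq]
      exact le_rfl
    · intro x hx hj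
      have hj' : x.2.2.1.2.val ≠ 0 := by simpa using hj
      obtain ⟨hd, hdz, -⟩ := dom_pre hx hj'
      have h1 := callCost_le (f := resB gad bf P ρ) (B := B) (P.map (stageB gad)) (I x)
        (costB τ W m (ncalls P) (unitB k x.1.1 x.1.2 x.2.1) (Nat.size x.2.1.g)
          (x.2.2.1.2.val - 1) (x.2.1.N / W))
        (fun s hs z hz => hI s hs x z hx hj hz) (fun c get put hs z hz _ => by
          obtain ⟨ins, -, e⟩ := List.mem_map.1 hs
          rcases ins with ⟨w, w', a, e'⟩ | ⟨w, t, s⟩ | ⟨w, t⟩ | ⟨w, s⟩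
          · cases e
          · cases e
          · cases e
          · obtain ⟨-, rfl, -⟩ := Stage.callIf.inj e
            show costB τ W m (ncalls P) (unitB k z.1.1.1 z.1.1.2 z.1.2.1) (Nat.size z.1.2.1.g)
              z.1.2.2.1.2.val z.1.2.1.N ≤ _
            rw [hz.1, ← Lay.sub_N' hd hW]
            exact costB_mono (unitB_sub _ _ _ _ _) _ _) (preB W m x) ⟨rfl, hdz⟩
      rw [sum_isCall] at h1
      obtain ⟨j, hj''⟩ : ∃ j, x.2.2.1.2.val = j + 1 := ⟨x.2.2.1.2.val - 1, by omega⟩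
      simp only [B, budX, hj'', costB, pass_eq, Nat.add_sub_cancel] at h1 ⊢
      omega
  refine key.budget ((Bud.self.const_mul 2).mono (fun x _ => ?_))
  exact costB_le hm0 hτ hs _ _ _ _

end tc

/-- part B from the correctness of the recursion -/
theorem mainB_of_rec (h : RecStatement) : MainB := by
  rintro W m τ hW hm hτ - ⟨P, ρ, hP, hs⟩ ⟨gad, kg, hg, hgs⟩ ⟨bf, kb, hb, hbs⟩
  refine ⟨resB gad bf P ρ, kg + kb + 1, tc_resB hW hm hτ.le hP.ok hs hg hb hgs ?_, ?_⟩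
  · rintro ⟨⟨M, r⟩, L, ⟨⟨lo⟩, ⟨j⟩⟩, l⟩ hx
    exact (h W m gad bf P ρ hW hgs hbs hP M r j L lo l hx).1
  · intro M r L lo j l hx
    exact h W m gad bf P ρ hW hgs hbs hP M r j L lo l hx

end Crest.Agent.X326.B3
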