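import Crest.Agent.X326.B3.LayerPT
import Crest.Agent.X326.M4.Main

/-!
Row 326 (S0503), part M3: the cost of the layer; `SpecLayer` from part B.
-/

set_option autoImplicit false

namespace Crest.Agent.X326.B3

open Crest.Agent.Lib.PT M4

/-- the cost of a layer -/
noncomputable def TLay (τ : ℝ) (m : ℕ) (p : Par) : ℕ :=
  p.vol * ((Nat.log m (p.d - 3) + 1) * pw τ ((p.d - 3) * (Nat.size (p.d - 3) + 2)))

namespace Ly

variable {ι : Type} [PTCode ι] {D : Dom ι} {T : Cost ι} {w m : ℕ} {p : ι → Par} {ρ : ι → ℕ}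

/-- the standing assumptions -/
structure Ctx (D : Dom ι) (T : Cost ι) (w m : ℕ) (p : ι → Par) (ρ : ι → ℕ) : Prop where
  hp : TC D T p
  hρ : TU D T ρ
  facts : ∀ x, D x → LFacts w m (p x)
  lt : ∀ x, D x → ρ x < (p x).k
  vol : Bud D T (fun x => (p x).vol)

theorem N_mul_pow_le (c k : ℕ) : ∃ C, ∀ q : Par, q.Ok → q.N * (c * Mn.U q) ^ k ≤ C * q.vol := by
  obtain ⟨C, hC⟩ := Mn.pow_U_le c k
  refine ⟨C, fun q hq => ?_⟩
  calc q.N * (c * Mn.U q) ^ k ≤ q.N * (C * q.r) := Nat.mul_le_mul_left _ (hC q)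
    _ = C * (q.N * q.r) := by ring
    _ ≤ C * q.vol := Nat.mul_le_mul_left _ (Mn.N_mul_r_le hq)

theorem N_le_vol {q : Par} (hq : q.Ok) : q.N ≤ q.vol :=
  (Nat.le_mul_of_pos_right _ q.r_pos).trans (Mn.N_mul_r_le hq)

theorem size_N (q : Par) : q.N.size = q.k * q.d + 1 := by rw [Par.N, Nat.size_pow]

theorem size_M_le (q : Par) : q.M.size ≤ q.P := by
  have := Mn.sz_M_le q
  rwa [sz_nat] at this

theorem size_r (q : Par) : q.r.size = q.lr + 1 := by rw [Par.r, Nat.size_pow]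

theorem size_g {q : Par} (h : LFacts w m q) : (2 ^ fq q + 1).size = fq q + 1 := by
  have h1 : 0 < fq q := Nat.size_pos.2 h.pos
  have h2 : 2 ^ 1 ≤ 2 ^ fq q := Nat.pow_le_pow_right (by norm_num) h1
  apply le_antisymm
  · rw [Nat.size_le, pow_succ]; omega
  · exact Nat.lt_size.2 (Nat.le_succ _)

theorem sz_lay1_le {q : Par} (h : LFacts w m q) {ρ : ℕ} (hρ : ρ < q.k) :
    sz (lay1 q ρ) ≤ 40 * Mn.U q := by
  have h1 := Mn.le_U h.ok
  have h2 := h.room
  have h3 := h.d_eq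
  have h4 : (2 ^ q.k + 2 * (2 ^ fq q + 1)).size ≤ q.k + 1 := by
    have h5 : 2 ^ (fq q + 3) ≤ 2 ^ q.k := Nat.pow_le_pow_right (by norm_num) (by omega)
    have h6 : 0 < 2 ^ fq q := Nat.two_pow_pos _
    rw [Nat.size_le, pow_succ]
    rw [pow_add] at h5
    omega
  rw [sz_lay]
  simp only [lay1, Nat.size_pow, size_g h, Nat.size_one]
  omega

theorem size_lay1_N_le {q : Par} (h : LFacts w m q) {ρ : ℕ} (hρ : ρ < q.k) :
    (lay1 q ρ).N.size ≤ 7 * Mn.U q := by
  have h1 := Mn.le_U h.ok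
  have h2 := lay1_N_le h hρ
  have h3 : (lay1 q ρ).N.size ≤ q.k * q.d + 5 := by
    have h4 : 0 < q.N := q.N_pos
    rw [Nat.size_le, pow_add]
    rw [Par.N] at h2 h4
    omega
  omega

namespace Ctx

theorem budN (h : Ctx D T w m p ρ) (c k : ℕ) :
    Bud D T (fun x => (p x).N * (c * Mn.U (p x)) ^ k) := by
  obtain ⟨C, hC⟩ := N_mul_pow_le c k
  exact (h.vol.const_mul C).mono (fun x hx => hC _ (h.facts x hx).ok)

theorem budN' (h : Ctx D T w m p ρ) (c k : ℕ) :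
    Bud D T (fun x => (p x).N * (c * Mn.U (p x) + 1) ^ k) :=
  (h.budN (c + 1) k).mono (fun x hx => Nat.mul_le_mul_left _ (Nat.pow_le_pow_left (by
    have := (Mn.le_U (h.facts x hx).ok).1
    rw [add_mul]; omega) k))

theorem ctx (h : Ctx D T w m p ρ) : TC D T (fun x => (p x, Un.mk (ρ x))) := h.hp.prodMk h.hρ

theorem sz_ctx (h : Ctx D T w m p ρ) (x : ι) (hx : D x) :
    sz (p x, Un.mk (ρ x)) ≤ 22 * Mn.U (p x) := by
  have h1 := Mn.sz_par_le (h.facts x hx).ok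
  have h2 := Mn.le_U (h.facts x hx).ok
  have h3 := h.lt x hx
  rw [sz_prod, sz_un]
  simp only
  omega

theorem small (h : Ctx D T w m p ρ) : Small D T (fun x => sz (p x, Un.mk (ρ x))) := fun k =>
  (h.budN' 22 k).mono (fun x hx => (Nat.pow_le_pow_left (Nat.succ_le_succ (h.sz_ctx x hx)) k).trans
    (Nat.le_mul_of_pos_left _ (p x).N_pos))

theorem ptf (h : Ctx D T w m p ρ) {β : Type} [PTCode β] {g : Par → ℕ → β}
    (hg : PTF (fun q : Par × Un => g q.1 q.2.val)) : TC D T (fun x => g (p x) (ρ x)) :=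
  TC.ptf hg h.ctx h.small

theorem tc_M (h : Ctx D T w m p ρ) : TC D T (fun x => (p x).M) :=
  h.ptf (g := fun q _ => q.M) (ptf_M PTF.fst)

theorem tc_r (h : Ctx D T w m p ρ) : TC D T (fun x => (p x).r) :=
  h.ptf (g := fun q _ => q.r) (ptf_r PTF.fst)

theorem tu_r (h : Ctx D T w m p ρ) : TU D T (fun x => (p x).r) :=
  TU.ofNat h.tc_r (h.vol.mono (fun x hx => Mn.r_le_vol (h.facts x hx).ok))

theorem tu_fF (h : Ctx D T w m p ρ) : TU D T (fun x => fF (p x)) :=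
  (Mn.tu_d h.hp).sub (TU.const 3)

theorem tc_lay1 (h : Ctx D T w m p ρ) : TC D T (fun x => lay1 (p x) (ρ x)) :=
  h.ptf (g := lay1) (ptf_lay1 PTF.fst (PTU.val PTF.snd))

theorem bud_N1 (h : Ctx D T w m p ρ) {g : ι → ℕ} (hg : Bud D T (fun x => (p x).N * g x)) :
    Bud D T (fun x => (lay1 (p x) (ρ x)).N * g x) :=
  (hg.const_mul 27).mono (fun x hx => by
    rw [← mul_assoc]
    exact Nat.mul_le_mul_right _ (lay1_N_le (h.facts x hx) (h.lt x hx)))

theorem tu_N1 (h : Ctx D T w m p ρ) : TU D T (fun x => (lay1 (p x) (ρ x)).N) :=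
  TU.ofNat (h.ptf (g := fun q r => (lay1 q r).N) (Bf.ptf_layN (ptf_lay1 PTF.fst (PTU.val PTF.snd))))
    ((h.vol.const_mul 27).mono (fun x hx => (lay1_N_le (h.facts x hx) (h.lt x hx)).trans
      (Nat.mul_le_mul_left _ (N_le_vol (h.facts x hx).ok))))

theorem tc_lflags (h : Ctx D T w m p ρ) : TC D T (fun x => lflags (p x) (ρ x)) := by
  have h0 := TC.mapRange_ptf (f := lflag) ptf_lflag h.ctx h.tu_N1 (fun x => 29 * Mn.U (p x))
    (fun x hx => by
      have h1 := h.sz_ctx x hx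
      have h2 := size_lay1_N_le (h.facts x hx) (h.lt x hx)
      omega)
    (fun k => h.bud_N1 (h.budN' 29 k))
  refine h0.of_eq (fun x => ?_)
  unfold lflags flags
  exact List.map_congr_left (fun y _ => by rw [lflag])

theorem tc_stw (h : Ctx D T w m p ρ) {l : ι → RL} (hl : TC D T l)
    (hw : ∀ x, D x → (p x).WF (l x)) :
    TC D T (fun x => stw (p x).M (sE (p x) (ρ x)) (l x)) := by
  have he : PTF (fun q : (Par × Un) × ℕ => (q.1.1.M, sE q.1.1 q.1.2.val q.2)) :=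
    PTF.prodMk (ptf_M (PTF.comp PTF.fst PTF.fst)) (ptf_sE (PTF.comp PTF.fst PTF.fst)
      (PTU.val (f := fun q : (Par × Un) × ℕ => q.1.2) (PTF.comp PTF.snd PTF.fst)) PTF.snd)
  refine TC.idxOp (op := rotOp) (e := fun (c : Par × Un) (n : ℕ) => (c.1.M, sE c.1 c.2.val n))
    Mn.tc_rot he h.ctx hl (fun x => 24 * Mn.U (p x)) (fun x => (p x).r * (p x).P) 0
    (fun x hx => ?_) (fun k => (h.budN' 24 k).mono (fun x hx => by rw [(hw x hx).1]))
    (fun x hx j hj => ?_) (h.vol.mono (fun x hx => ?_))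
  · have h1 := h.sz_ctx x hx
    have h2 := Mn.le_U (h.facts x hx).ok
    rw [(hw x hx).1, size_N]
    omega
  · have hr := ((hw x hx).2 _ (List.getElem_mem hj)).1
    simp only [hr, zero_mul, add_zero]
    exact ⟨sE_le _ _ _, Nat.mul_le_mul_left _ (Mn.sz_M_le _)⟩
  · rw [(hw x hx).1, Par.vol, mul_assoc]

theorem tc_shiftL (h : Ctx D T w m p ρ) {l : ι → RL} (hl : TC D T l)
    (hw : ∀ x, D x → (p x).WF (l x)) :
    TC D T (fun x => (l x).map (recShift (p x).P (fF (p x) / 2))) := by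
  have hsz : ∀ x, D x → sz (Un.mk (p x).P, Un.mk (fF (p x) / 2)) ≤ 4 * (p x).P := fun x hx => by
    have h1 := (h.facts x hx).F_le
    have h2 := (h.facts x hx).ok.P_ge
    simp only [sz_prod, sz_un]
    omega
  refine TC.mapCtx_le (f := fun (c : Un × Un) (a : List ℕ) => recShift c.1.val c.2.val a)
    (c := fun x => (Un.mk (p x).P, Un.mk (fF (p x) / 2))) Mn.tc_shift
    (TC.prodMk (Mn.tu_P h.hp) (h.tu_fF.div (TU.const 2))) hl
    (fun x => (p x).r * (4 * (p x).P)) 0 (fun x hx a ha => ⟨trivial, ?_⟩)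
    ((h.vol.const_mul 4).mono (fun x hx => ?_)) ((h.vol.const_mul 4).mono (fun x hx => ?_))
  · simp only [((hw x hx).2 a ha).1, zero_mul, add_zero]
    exact Nat.mul_le_mul_left _ (hsz x hx)
  · rw [(hw x hx).1, Par.vol]; exact le_of_eq (by ring)
  · have h1 := Mn.N_mul_P_le (p x)
    have h2 := Nat.mul_le_mul_left (p x).N (hsz x hx)
    rw [(hw x hx).1]
    nlinarith

theorem tc_hRec : TC (fun _ : (ℕ × Bool) × List ℕ × List ℕ => True)
    (fun q => (q.2.1.length + q.2.2.length) * sz q.1.1) (fun q => hRec q.1 q.2) :=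
  TC.cond TC.id.fst.snd
    (Bf.tc_recSub TC.id.fst.fst TC.id.snd.snd TC.id.snd.fst
      (Bud.self.mono fun _ _ => Nat.mul_le_mul_right _ (Nat.le_add_left _ _)))
    (St.tc_recAdd TC.id.fst.fst TC.id.snd.fst TC.id.snd.snd
      (Bud.self.mono fun _ _ => Nat.mul_le_mul_right _ (Nat.le_add_right _ _)))

theorem tc_hPass (h : Ctx D T w m p ρ) {j : ι → ℕ} (hj : TU D T j)
    (hlt : ∀ x, D x → j x < (p x).k * (p x).d) {l : ι → RL} (hl : TC D T l)
    (hw : ∀ x, D x → (p x).WF (l x)) :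
    TC D T (fun x => hPass (p x).M (j x) (l x)) := by
  have he : PTF (fun q : (ℕ × Un) × ℕ => (q.1.1, q.2.testBit q.1.2.val)) :=
    PTF.prodMk (PTF.comp PTF.fst PTF.fst) (PTF.natTestBit PTF.snd
      (PTU.val (f := fun q : (ℕ × Un) × ℕ => q.1.2) (PTF.comp PTF.snd PTF.fst)).toPTF)
  have h2 : TU D T (fun x => 2 ^ j x) := TU.twoPow hj (h.vol.mono (fun x hx =>
    (Nat.pow_le_pow_right (by norm_num) (hlt x hx).le).trans (N_le_vol (h.facts x hx).ok)))
  have hlen : ∀ x, D x → ((l x).zip (partner (2 ^ j x) (l x))).length ≤ (p x).N := fun x hx => by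
    rw [List.length_zip, ← (hw x hx).1]; exact min_le_left _ _
  refine TC.idxOp (op := hRec) (e := fun (c : ℕ × Un) (n : ℕ) => (c.1, n.testBit c.2.val))
    (c := fun x => ((p x).M, Un.mk (j x))) tc_hRec he (h.tc_M.prodMk hj)
    (hl.zip (tc_partner h2 hl)) (fun x => 6 * Mn.U (p x)) (fun x => 2 * (p x).r * (p x).P) 0
    (fun x hx => ?_)
    (fun k => (h.budN' 6 k).mono (fun x hx => Nat.mul_le_mul_right _ (hlen x hx)))
    (fun x hx i hi => ⟨trivial, ?_⟩) ((h.vol.const_mul 2).mono (fun x hx => ?_))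
  · have h1 := Mn.le_U (h.facts x hx).ok
    have h3 := Nat.size_le_size (hlen x hx)
    have h4 := size_M_le (p x)
    have h5 := hlt x hx
    rw [size_N] at h3
    simp only [sz_prod, sz_un, sz_nat]
    omega
  · have hm0 := List.getElem_mem hi
    generalize ((l x).zip (partner (2 ^ j x) (l x)))[i] = q at hm0 ⊢
    have hm := List.of_mem_zip (a := q.1) (b := q.2) hm0
    have h1 := ((hw x hx).2 _ hm.1).1
    have h3 := ((hw x hx).2 _ (mem_of_mem_partner hm.2)).1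
    simp only [h1, h3, zero_mul, add_zero]
    rw [← two_mul]
    exact Nat.mul_le_mul_left _ (Mn.sz_M_le _)
  · calc _ ≤ (p x).N * (2 * (p x).r * (p x).P) := Nat.mul_le_mul_right _ (hlen x hx)
      _ = 2 * (p x).vol := by rw [Par.vol]; ring

theorem tc_pbIn (h : Ctx D T w m p ρ) {l : ι → RL} (hl : TC D T l)
    (hw : ∀ x, D x → (p x).WF (l x)) : TC D T (fun x => pbIn m (p x) (ρ x) (l x)) := by
  have h1 := h.tc_stw hl hw
  have h2 : TU D T (fun x => Nat.log m (fF (p x))) :=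
    TU.ofNat (TU.pt (g := fun n => Nat.log m n) (PTF.natLog (PTF.const m) PTF.id) h.tu_fF)
      (h.tu_fF.bud.mono (fun x _ => Nat.log_le_self _ _))
  have h3 : TC D T (fun x => embL (lflags (p x) (ρ x)) (recZero (p x).r)
      (stw (p x).M (sE (p x) (ρ x)) (l x))) := by
    refine TC.mergeBy h.tc_lflags h1 (TC.replicate ((TU.length h.tc_lflags).sub (TU.length h1))
      (TC.replicate_const 0 h.tu_r) ((h.bud_N1 (g := fun x => (p x).r)
        (h.vol.mono (fun x hx => Mn.N_mul_r_le (h.facts x hx).ok))).mono (fun x _ => ?_)))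
    refine Nat.mul_le_mul ?_ ?_
    · rw [lflags, length_flags]; exact Nat.sub_le _ _
    · rw [recZero, sz_replicate, sz_nat]; simp
  exact (h.tc_M.prodMk h.tc_r).prodMk
    (h.tc_lay1.prodMk (((TC.const (Un.mk 0)).prodMk h2).prodMk h3))

end Ctx

theorem pass_le (k : ℕ) : ∃ C, ∀ (q : Par) (ρ : ℕ), LFacts w m q → ρ < q.k →
    pass k q.M q.r (lay1 q ρ) ≤ C * q.vol := by
  obtain ⟨C, hC⟩ := N_mul_pow_le 44 k
  refine ⟨27 * (4 + C), fun q ρ h hρ => ?_⟩
  have h1 := Mn.le_U h.ok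
  have h2 := size_M_le q
  have h3 := sz_lay1_le h hρ
  have h4 : (q.M.size + q.r.size + sz (lay1 q ρ) + 1) ^ k ≤ (44 * Mn.U q) ^ k :=
    Nat.pow_le_pow_left (by rw [size_r]; omega) k
  have h5 : (q.r + 1) * (q.M.size + 1) ≤ (2 * q.r) * (2 * q.P) :=
    Nat.mul_le_mul (by have := q.r_pos; omega) (by have := h.ok.P_ge; omega)
  calc pass k q.M q.r (lay1 q ρ)
      ≤ 27 * q.N * ((2 * q.r) * (2 * q.P) + (44 * Mn.U q) ^ k) :=
        Nat.mul_le_mul (lay1_N_le h hρ) (Nat.add_le_add h5 h4)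
    _ = 27 * (4 * q.vol + q.N * (44 * Mn.U q) ^ k) := by rw [Par.vol]; ring
    _ ≤ 27 * (4 * q.vol + C * q.vol) :=
        Nat.mul_le_mul_left _ (Nat.add_le_add_left (hC q h.ok) _)
    _ = _ := by ring

theorem vol_le_TLay (τ : ℝ) {q : Par} (h : LFacts w m q) : q.vol ≤ TLay τ m q := by
  refine Nat.le_mul_of_pos_right _ (Nat.mul_pos (Nat.succ_pos _) (one_le_pw τ ?_))
  exact Nat.mul_pos h.pos (Nat.succ_pos _)

end Ly

/-- **The layer**: what M4 consumes, from part B. -/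
theorem specLayer_of_partB {w m : ℕ} {τ : ℝ} (hm : 8 ∣ m) (hm0 : 0 < m)
    (h : PartBStatement (2 ^ w) m τ) : SpecLayer (LayerOk w m) (TLay τ m) := by
  obtain ⟨pb, k, htc, hpb⟩ := h
  refine ⟨fun x => layerL m pb x.1 x.2.1.val x.2.2, ?_, fun p ρ l hp hρ hl =>
    ⟨wf_layerL hpb (hp.facts hm hm0) hρ hl, arr_layerL hpb (hp.facts hm hm0) hρ hl⟩⟩
  have c : Ly.Ctx (fun x : Par × Un × List (List ℕ) =>
      LayerOk w m x.1 ∧ x.2.1.val < x.1.k ∧ x.1.WF x.2.2) (fun x => TLay τ m x.1) w m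
      (fun x => x.1) (fun x => x.2.1.val) :=
    ⟨TC.id.fst, TU.val TC.id.snd.fst, fun x hx => hx.1.facts hm hm0, fun x hx => hx.2.1,
      Bud.self.mono (fun x hx => Ly.vol_le_TLay τ (hx.1.facts hm hm0))⟩
  obtain ⟨C, hC⟩ := Ly.pass_le (w := w) (m := m) k
  have h1 := htc.comp (c.tc_pbIn TC.id.snd.snd (fun x hx => hx.2.2))
    (fun x hx => pbIn_dom (c.facts x hx) hx.2.1 hx.2.2) (Bud.of_le_mul C (fun x hx => by
      have hf := c.facts x hx
      have h2 := hC x.1 x.2.1.val hf hx.2.1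
      simp only [pbIn, hf.pow_eq]
      have e : (lay1 x.1 x.2.1.val).g.size + 1 = (x.1.d - 3).size + 2 := by
        rw [show (lay1 x.1 x.2.1.val).g = 2 ^ fq x.1 + 1 from rfl, Ly.size_g hf]; rfl
      rw [e, TLay, mul_assoc, ← mul_assoc C]
      exact Nat.mul_le_mul_right _ h2))
  have w1 := fun x hx => wf_filter_pb hpb (c.facts x hx) hx.2.1 hx.2.2
  have h2 := c.tc_shiftL (c.tc_stw (TC.filterBy c.tc_lflags h1) w1)
    (fun x hx => wfa_stw (w1 x hx) _)
  have hk := Mn.tu_k c.hp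
  have hj : ∀ i, i < 3 → TU (fun x : Par × Un × List (List ℕ) =>
      LayerOk w m x.1 ∧ x.2.1.val < x.1.k ∧ x.1.WF x.2.2) (fun x => TLay τ m x.1)
      (fun x => x.1.k * (fF x.1 + i) + x.2.1.val) := fun i hi =>
    (hk.mul (c.tu_fF.add (TU.const i)) ((Mn.tu_P c.hp).bud.mono (fun x hx => by
      have h3 := (c.facts x hx).pos_lt hx.2.1 (i := fF x.1 + i) (by omega)
      have h4 := (c.facts x hx).ok.kd_le
      omega))).add c.hρ
  have w2 := fun x hx => wf_fastL hpb (c.facts x hx) hx.2.1 hx.2.2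
  have l2 := fun x hx => (c.facts x hx).pos_lt hx.2.1 (i := fF x.1 + 2) (by omega)
  have l1 := fun x hx => (c.facts x hx).pos_lt hx.2.1 (i := fF x.1 + 1) (by omega)
  have h3 := c.tc_hPass (hj 2 (by omega)) l2 h2 w2
  have w3 := fun x hx => wf_hPass_par (l2 x hx) (w2 x hx)
  have h4 := c.tc_hPass (hj 1 (by omega)) l1 h3 w3
  exact c.tc_hPass c.hρ (fun x hx => (c.facts x hx).rho_lt hx.2.1) h4
    (fun x hx => wf_hPass_par (l1 x hx) (w3 x hx))

end Crest.Agent.X326.B3
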