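import Crest.Agent.X326.B3.Alg
import Crest.Agent.X326.B3.StreamsTC

/-!
Row 326 (S0503), part M3: correctness of the list-level recursion.
-/

set_option autoImplicit false

namespace Crest.Agent.X326.B3

open Crest.Agent.Lib.PT Crest.Agent.X326.M4

section Step

variable {W m M r lo f : ℕ} {L : Lay} {gad : GadT} {rc : ℕ → Arr → Arr} {ws : List Arr}

theorem WFS.getDR (h : WFS W L r M ws) (w : Fin W) : WFL L r M (ws.getD w []) :=
  h.2 _ (getD_mem _ (by rw [h.1]; exact w.2))

theorem WFS.setR (h : WFS W L r M ws) (w : ℕ) {s : Arr} (hs : WFL L r M s) :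
    WFS W L r M (ws.set w s) :=
  ⟨by rw [List.length_set, h.1], fun t ht => by
    rcases List.mem_or_eq_of_mem_set ht with h1 | rfl
    · exact h.2 t h1
    · exact hs⟩

theorem group_le (hF : lo + m * f ≤ L.F) (t : Fin m) : lo + t * f + f ≤ L.F := by
  have : (t.val + 1) * f ≤ m * f := Nat.mul_le_mul_right _ t.2
  rw [Nat.add_mul, Nat.one_mul] at this
  omega

theorem gadDom_xorR (hL : L.Good) (hF : lo + m * f ≤ L.F) {t s : Fin m} (hts : t < s) {l : Arr}
    (hl : l.length = L.N) :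
    GadDom (L, (true, ⟨lo + t * f⟩, ⟨lo + s * f⟩, ⟨f⟩), l) := by
  have h1 := group_le hF s
  have h2 : (t.val + 1) * f ≤ s.val * f := Nat.mul_le_mul_right _ hts
  rw [Nat.add_mul, Nat.one_mul] at h2
  refine ⟨hL, hl, ?_, ?_, fun _ => h1⟩
  · show lo + t * f + f ≤ lo + s * f
    omega
  · show lo + s * f ≤ L.F
    omega

theorem gadDom_flipR (hL : L.Good) (hF : lo + m * f ≤ L.F) (t : Fin m) {l : Arr}
    (hl : l.length = L.N) :
    GadDom (L, (false, ⟨lo + t * f⟩, ⟨lo + t * f + f⟩, ⟨f⟩), l) :=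
  ⟨hL, hl, le_rfl, group_le hF t, fun h => by simp at h⟩

theorem wfl_gad (hg : GadSpec gad) {src : Bool} {t s len : ℕ} {l : Arr}
    (hd : GadDom (L, (src, ⟨t⟩, ⟨s⟩, ⟨len⟩), l)) (hl : WFL L r M l) :
    WFL L r M (gad (L, (src, ⟨t⟩, ⟨s⟩, ⟨len⟩), l)) :=
  ⟨(hg L src t s len l hd).1.trans hl.1, fun x hx => hl.2 x ((hg L src t s len l hd).2.1 x hx)⟩

/-- one instruction preserves well-formedness -/
theorem WFS.execL (hg : GadSpec gad) (hL : L.Good) (hF : lo + m * f ≤ L.F)
    (hrc : ∀ (s : Fin m) (l : Arr), WFL L r M l → WFL L r M (rc (lo + s * f) l))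
    (h : WFS W L r M ws) {ins : Ins W m} (hok : ins.ok) :
    WFS W L r M (execL gad M L lo f rc ws ins) := by
  cases ins with
  | add w w' a e => exact h.setR _ ((h.getDR w).addL (h.getDR w') a e)
  | xor w t s => exact h.setR _ (wfl_gad hg (gadDom_xorR hL hF hok (h.getDR w).1) (h.getDR w))
  | flip w t => exact h.setR _ (wfl_gad hg (gadDom_flipR hL hF t (h.getDR w).1) (h.getDR w))
  | call w s => exact h.setR _ (hrc s _ (h.getDR w))

theorem WFS.foldl_execL (hg : GadSpec gad) (hL : L.Good) (hF : lo + m * f ≤ L.F)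
    (hrc : ∀ (s : Fin m) (l : Arr), WFL L r M l → WFL L r M (rc (lo + s * f) l))
    {P : List (Ins W m)} (hok : ∀ ins ∈ P, ins.ok) (h : WFS W L r M ws) :
    WFS W L r M (P.foldl (B3.execL gad M L lo f rc) ws) := by
  induction P generalizing ws with
  | nil => exact h
  | cons ins P ih =>
    exact ih (fun i hi => hok i (by simp [hi])) (h.execL hg hL hF hrc (hok ins (by simp)))

variable {A : Type} [CommRing A] {y hf : A} {β : Base}

/-- the fibres of all the streams -/
def fibS (W : ℕ) (y : A) (L : Lay) (β : Base) (ws : List Arr) : Fin W → Bv → A :=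
  fun w => fib y L β (ws.getD w [])

theorem fibS_set (hW : ws.length = W) (w : Fin W) (s : Arr) :
    fibS W y L β (ws.set w s) = Function.update (fibS W y L β ws) w (fib y L β s) := by
  funext v
  by_cases hv : v = w
  · subst hv
    rw [Function.update_self, fibS, List.getD_eq_getElem?_getD,
      List.getElem?_set_self (by rw [hW]; exact v.2), Option.getD_some]
  · rw [Function.update_of_ne hv, fibS, fibS, List.getD_eq_getElem?_getD,
      List.getElem?_set_ne (fun e => hv (Fin.ext e.symm)), ← List.getD_eq_getElem?_getD]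

theorem fib_gad (hg : GadSpec gad) {src : Bool} {t s len : ℕ} {l : Arr}
    (hd : GadDom (L, (src, ⟨t⟩, ⟨s⟩, ⟨len⟩), l)) (hβ : L.Safe β) :
    fib y L β (gad (L, (src, ⟨t⟩, ⟨s⟩, ⟨len⟩), l)) = fib y L β l ∘ gadMap src t s len := by
  funext b
  simp only [fib, Function.comp_apply, (hg L src t s len l hd).2.2 β hβ b]

theorem fibS_execL (hg : GadSpec gad) (hL : L.Good) (hF : lo + m * f ≤ L.F)
    (hM : (M : A) = 0) (hodd : M % 2 = 1) (h2 : 2 * hf = 1) (hβ : L.Safe β) (i : A)
    (hrc : ∀ (s : Fin m) (l : Arr), WFL L r M l →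
      fib y L β (rc (lo + s * f) l) = Crange i hf (lo + s * f) f (fib y L β l))
    (h : WFS W L r M ws) {ins : Ins W m} (hok : ins.ok) :
    fibS W y L β (execL gad M L lo f rc ws ins) = Ins.exec i hf lo f (fibS W y L β ws) ins := by
  cases ins with
  | add w w' a e =>
    rw [execL, fibS_set h.1, Ins.exec, fib_eq,
      Lay.fib_addL hβ hM hodd h2 a e (h.getDR w).1 (h.getDR w').1 (h.getDR w).2 (h.getDR w').2]
    rfl
  | xor w t s =>
    rw [execL, fibS_set h.1, Ins.exec, fib_gad hg (gadDom_xorR hL hF hok (h.getDR w).1) hβ]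
    rfl
  | flip w t =>
    rw [execL, fibS_set h.1, Ins.exec, fib_gad hg (gadDom_flipR hL hF t (h.getDR w).1) hβ]
    rfl
  | call w s =>
    rw [execL, fibS_set h.1, Ins.exec, hrc s _ (h.getDR w)]
    rfl

theorem fibS_foldl (hg : GadSpec gad) (hL : L.Good) (hF : lo + m * f ≤ L.F)
    (hM : (M : A) = 0) (hodd : M % 2 = 1) (h2 : 2 * hf = 1) (hβ : L.Safe β) (i : A)
    (hrc0 : ∀ (s : Fin m) (l : Arr), WFL L r M l → WFL L r M (rc (lo + s * f) l))
    (hrc : ∀ (s : Fin m) (l : Arr), WFL L r M l →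
      fib y L β (rc (lo + s * f) l) = Crange i hf (lo + s * f) f (fib y L β l))
    {P : List (Ins W m)} (hok : ∀ ins ∈ P, ins.ok) (h : WFS W L r M ws) :
    fibS W y L β (P.foldl (execL gad M L lo f rc) ws) = runIns i hf lo f P (fibS W y L β ws) := by
  induction P generalizing ws with
  | nil => rfl
  | cons ins P ih =>
    rw [List.foldl_cons, ih (fun i hi => hok i (by simp [hi]))
      (h.execL hg hL hF hrc0 (hok ins (by simp))),
      fibS_execL hg hL hF hM hodd h2 hβ i hrc h (hok ins (by simp))]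
    rfl

end Step

theorem partBDom_sub {W m M r j lo : ℕ} {L : Lay} {l : Arr}
    (h : PartBDom W m ((M, r), L, (⟨lo⟩, ⟨j + 1⟩), l)) (s : Fin m) {l' : Arr}
    (hl : WFL (L.sub W) r M l') :
    PartBDom W m ((M, r), L.sub W, (⟨lo + s * m ^ j⟩, ⟨j⟩), l') := by
  obtain ⟨h1, h2, h3, _⟩ := h
  have h2' : lo + m * m ^ j ≤ L.F := by rw [← pow_succ']; exact h2
  have h3' : W ^ (j + 1) ∣ L.Z := h3
  have hW : W ∣ L.Z := (dvd_pow_self W (Nat.succ_ne_zero j)).trans h3'
  refine ⟨h1.sub hW, group_le (L := L) h2' s, ?_, hl⟩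
  show W ^ j ∣ L.Z / W
  rw [pow_succ'] at h3'
  exact Nat.dvd_div_of_mul_dvd h3'

theorem mul_self_half {A : Type} [CommRing A] {y : A} {r : ℕ} (hy : y ^ r = -1) (hr : r % 2 = 0) :
    y ^ (r / 2) * y ^ (r / 2) = -1 := by
  rw [← pow_add, ← hy]
  congr 1
  omega

/-- correctness of the recursion -/
theorem recStatement : RecStatement := by
  intro W m gad bf P ρ hW0 hg hb hP M r j
  induction j with
  | zero =>
    intro L lo l h
    have hd : BaseDom ((M, r), L, ⟨lo⟩, l) := ⟨h.1, by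
      have := h.2.1
      simp only [pow_zero] at this
      exact this, h.2.2.2⟩
    refine ⟨(hb M r L lo l hd).1, fun A _ y hf hM hodd hy _ h2 β hβ => ?_⟩
    exact (hb M r L lo l hd).2 A y hf hM hodd hy h2 β hβ
  | succ j ih =>
    intro L lo l h
    have h3' : W ^ (j + 1) ∣ L.Z := h.2.2.1
    have hW : W ∣ L.Z := (dvd_pow_self W (Nat.succ_ne_zero j)).trans h3'
    have hG : (L.sub W).Good := h.1.sub hW
    have hF : lo + m * m ^ j ≤ (L.sub W).F := by rw [← pow_succ']; exact h.2.1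
    have hl : WFL L r M l := h.2.2.2
    have h0 : WFS W (L.sub W) r M (dealAll W l) := ⟨length_dealAll _ _, WFL.dealAll hW hl⟩
    have hrc0 : ∀ (s : Fin m) (l' : Arr), WFL (L.sub W) r M l' →
        WFL (L.sub W) r M (pbL gad bf P ρ M r j (L.sub W) (lo + s * m ^ j) l') :=
      fun s l' hl' => (ih _ _ _ (partBDom_sub h s hl')).1
    have h1 := WFS.foldl_execL (rc := fun lo' l' => pbL gad bf P ρ M r j (L.sub W) lo' l')
      hg hG hF hrc0 hP.ok h0
    refine ⟨WFL.undealP hW ρ h1.1 h1.2, fun A _ y hf hM hodd hy hr h2 β hβ => ?_⟩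
    have hβ' : (L.sub W).Safe (β.down W) := Lay.Ok.down hW hβ
    have h4 := fibS_foldl (y := y) (rc := fun lo' l' => pbL gad bf P ρ M r j (L.sub W) lo' l')
      hg hG hF hM hodd h2 hβ' (y ^ (r / 2)) hrc0
      (fun s l' hl' => (ih _ _ _ (partBDom_sub h s hl')).2 A y hf hM hodd hy hr h2 _ hβ')
      hP.ok h0
    have h5 := congrFun h4 (ρ ⟨β.z % W, Nat.mod_lt _ hW0⟩)
    rw [hP.spec A A _ hf (mul_self_half hy hr) h2, ← pow_succ'] at h5
    rw [pbL, fib_eq, Lay.fib_undealP' hW hW0 _ ρ h1.1 (fun s hs => (h1.2 s hs).1)]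
    refine h5.trans ?_
    congr 1
    rw [fibS, fib_eq, Lay.fib_dealAll hW _ hl.1 _ (Nat.mod_lt _ hW0), Base.up_down, fib_eq]

end Crest.Agent.X326.B3
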