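import Crest.Agent.X326.B3.GadgetTC
import Crest.Agent.X326.B3.BaseTC
import Crest.Agent.X326.B3.Prog
import Crest.Agent.X326.A.Main

/-!
Row 326 (S0503), part M3: the gadget and the field-level program in the form of `B3/Spec`.
-/

set_option autoImplicit false

namespace Crest.Agent.X326.B3.Ad

open Crest.Agent.Lib.PT

/-- input of the gadget -/
abbrev GIn : Type := Lay × (Bool × Un × Un × Un) × List (List ℕ)

/-- the gadget on lists of records -/
def gad (x : GIn) : List (List ℕ) :=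
  if x.2.1.2.2.2.val = 0 then x.2.2 else
    bif x.2.1.1 then xorL [] x.1 x.2.1.2.1.val x.2.1.2.2.1.val x.2.1.2.2.2.val x.2.2
    else flipL [] x.1 x.2.1.2.1.val x.2.1.2.2.2.val x.2.2

theorem sz_le_msz {α : Type} [PTCode α] {l : List α} {r : α} (h : r ∈ l) : sz r ≤ msz l := by
  induction l with
  | nil => cases h
  | cons a l ih =>
    simp only [msz, List.map_cons, List.foldr_cons]
    rcases List.mem_cons.1 h with rfl | h
    · exact le_max_left _ _
    · exact (ih h).trans (le_max_right _ _)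

theorem size_N_le : ∃ C j : ℕ, ∀ L : Lay, Nat.size L.N + 1 ≤ C * (sz L + 1) ^ j := by
  obtain ⟨k, hk⟩ := exists_tc_of_ptf (Bf.ptf_layN (PTF.id (α := Lay)))
  obtain ⟨C, hC⟩ := hk.sz
  refine ⟨2 * C + 1, k + 1, fun L => ?_⟩
  have h1 := hC L trivial
  simp only [sz_nat] at h1
  have h2 : (sz L + 1) ^ k ≤ (sz L + 1) ^ (k + 1) := Nat.pow_le_pow_right (by omega) (by omega)
  have h3 : sz L + 1 ≤ (sz L + 1) ^ (k + 1) := Nat.le_self_pow (by omega) _
  have h4 : C * ((sz L + 1) ^ k + sz L + 1) ≤ C * (2 * (sz L + 1) ^ (k + 1)) :=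
    Nat.mul_le_mul_left _ (by omega)
  nlinarith

theorem gadMap_zero (src : Bool) (t s : ℕ) (b : Bv) : gadMap src t s 0 b = b := by
  funext k
  cases src <;> simp only [gadMap, cond, xorMap, flipMap] <;> rw [if_neg (by omega)]

theorem gadget_of_gad {τ : ℝ} (h : GadStatement τ) : GadgetStatement τ := by
  obtain ⟨k, hk⟩ := h
  obtain ⟨C, j, hC⟩ := size_N_le
  refine ⟨gad, j * k, ?_, ?_⟩
  · set T : GIn → ℕ := fun x => x.1.N * (msz x.2.2 + 1) *
      pw τ (x.2.1.2.2.2.val * Nat.size x.1.g + 1) + x.1.N * (sz x.1 + 1) ^ (j * k) with hT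
    have hlen : TU GadDom T (fun x => x.2.1.2.2.2.val) := TU.val (by fun_prop)
    refine TC.ite' hlen.decide_eq_zero (by fun_prop) ?_
    set P : GIn → Prop := fun x => GadDom x ∧ ¬ x.2.1.2.2.2.val = 0 with hP
    have hL : TC P T (fun x : GIn =>
        (x.1.Pre, x.1.g, Un.mk x.1.F, x.1.G1, x.1.R, x.1.G2, x.1.Z)) :=
      TC.recode (TC.fst TC.id) (fun _ _ => rfl)
    have h2 := hk GIn (List ℕ) P T (fun x => x.1) (fun x => x.2.1.2.1.val)
      (fun x => x.2.1.2.2.1.val) (fun x => x.2.1.2.2.2.val) (fun x => msz x.2.2) []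
      (fun x => x.2.2) hL.snd.fst (TC.unVal hL.snd.snd.fst) hL.snd.snd.snd.fst
      hL.snd.snd.snd.snd.fst hL.snd.snd.snd.snd.snd.fst hL.snd.snd.snd.snd.snd.snd
      (TC.unVal (by fun_prop)) (TC.unVal (by fun_prop)) (TC.unVal (by fun_prop)) (by fun_prop)
      (by
        rintro x ⟨⟨hG, hl, h1, h2, -⟩, h0⟩
        exact ⟨hl, Bf.N_pos hG, hG.g, Nat.pos_of_ne_zero h0, h1.trans h2, h2,
          fun r hr => sz_le_msz hr⟩)
      (Bud.of_le_mul (C ^ k + 1) (by
        rintro x ⟨⟨-, hl, -⟩, -⟩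
        rw [hl, hT]
        have h1 : (Nat.size x.1.N + 1) ^ k ≤ C ^ k * (sz x.1 + 1) ^ (j * k) := by
          rw [pow_mul, ← mul_pow]
          exact Nat.pow_le_pow_left (hC _) k
        have h2 := Nat.mul_le_mul_left x.1.N h1
        beta_reduce
        nlinarith [Nat.zero_le (C ^ k * (x.1.N * (msz x.2.2 + 1) *
          pw τ (x.2.1.2.2.2.val * Nat.size x.1.g + 1))),
          Nat.zero_le (x.1.N * (sz x.1 + 1) ^ (j * k))]))
    exact TC.cond (by fun_prop) h2.1 h2.2
  · rintro L src t s len l ⟨hG, hl, h1, h2, h3⟩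
    simp only at hG hl h1 h2 h3
    by_cases h0 : len = 0
    · subst h0
      simp only [gad, if_true, gadMap_zero]
      exact ⟨trivial, fun _ hx => hx, fun _ _ _ => trivial⟩
    · simp only [gad, if_neg h0]
      cases src
      · simp only [cond, gadMap]
        exact ⟨length_flipL _ _ _ _ _, fun _ hx => mem_flipL hl (h1.trans h2) hx,
          fun β hβ b => getD_flipL _ _ hG.even hl (h1.trans h2) hβ b⟩
      · simp only [cond, gadMap]
        exact ⟨length_xorL _ _ _ _ _ _, fun _ hx => mem_xorL hl (h1.trans h2) hx,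
          fun β hβ b => getD_xorL _ _ hG.even hl h1 (h3 rfl) hβ b⟩

/-- **The xor gadget**, unconditionally. -/
theorem gadgetStatement : GadgetStatement A.tauA :=
  gadget_of_gad (gad_of_swap A.tauA_pos.le A.swapStatement)

/-- **The field-level program.** -/
theorem progStatement : ProgStatement (2 ^ 63) (2 ^ 18) A.tauA := by
  obtain ⟨W, m, rfl, rfl, P, ρ, h1, -, h2⟩ := exists_cprog
  exact ⟨P, ρ, h1, h2⟩

/-- part B from its main statement -/
theorem partB_of_mainB (h : MainB) : PartBStatement (2 ^ 63) (2 ^ 18) A.tauA :=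
  h _ _ _ (by positivity) (by norm_num) A.tauA_pos A.tauA_le_one progStatement gadgetStatement
    baseStatement

end Crest.Agent.X326.B3.Ad
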