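import Crest.Agent.X326.B3.Partner
import Crest.Agent.X326.TC.Deal
import Crest.Agent.X326.M4.Rec

/-!
Row 326 (S0503), part M3: the `W` streams dealt from the suffix of the layout, address
arithmetic of the flat layout, and the list version of the instruction `add`.
-/

set_option autoImplicit false

namespace Crest.Agent.X326.B3

open Crest.Agent.X326.M4

/-! ### dealing and interleaving -/

theorem mul_add_lt {a A b B : ℕ} (h1 : a < A) (h2 : b < B) : a * B + b < A * B := by
  have : (a + 1) * B ≤ A * B := Nat.mul_le_mul_right _ h1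
  rw [Nat.add_mul, Nat.one_mul] at this
  omega

theorem mul_add_div' {a b B : ℕ} (h : b < B) : (a * B + b) / B = a := by
  rw [Nat.add_comm, Nat.add_mul_div_right _ _ (by omega), Nat.div_eq_of_lt h, Nat.zero_add]

theorem mul_add_mod' {a b B : ℕ} (h : b < B) : (a * B + b) % B = b := by
  rw [Nat.add_comm, Nat.add_mul_mod_self_right, Nat.mod_eq_of_lt h]

section Deal

variable {α : Type}

theorem getD_mem {l : List α} {j : ℕ} (d : α) (hj : j < l.length) : l.getD j d ∈ l := by
  rw [List.getD_eq_getElem _ _ hj]; exact List.getElem_mem hj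

/-- the streams in the order `ρ 0, …, ρ (W - 1)` -/
def pick {W : ℕ} (ρ : Fin W → Fin W) (ws : List (List α)) : List (List α) :=
  (List.finRange W).map fun w => ws.getD (ρ w) []

/-- interleave the streams in the order `ρ 0, …, ρ (W - 1)` -/
def undealP {W : ℕ} (ρ : Fin W → Fin W) (ws : List (List α)) : List α := undeal (pick ρ ws)

variable {W n : ℕ} {ρ : Fin W → Fin W} {ws : List (List α)}

@[simp] theorem length_pick : (pick ρ ws).length = W := by simp [pick]

theorem getD_pick (w : Fin W) : (pick ρ ws).getD w [] = ws.getD (ρ w) [] := by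
  simp [pick, List.getD_eq_getElem?_getD]

theorem mem_of_mem_pick (hW : ws.length = W) {s : List α} (h : s ∈ pick ρ ws) : s ∈ ws := by
  obtain ⟨w, _, rfl⟩ := List.mem_map.1 h
  exact getD_mem _ (by rw [hW]; exact (ρ w).2)

theorem length_undealP (hW : ws.length = W) (hn : ∀ s ∈ ws, s.length = n) :
    (undealP ρ ws).length = n * W := by
  rw [undealP, length_undeal (fun s hs => hn s (mem_of_mem_pick hW hs)), length_pick]

theorem getD_undealP (hW : ws.length = W) (hn : ∀ s ∈ ws, s.length = n) (i : ℕ) (w : Fin W)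
    (d : α) : (undealP ρ ws).getD (i * W + w) d = (ws.getD (ρ w) []).getD i d := by
  rw [undealP, getD_undeal length_pick (fun s hs => hn s (mem_of_mem_pick hW hs)) i w.2, getD_pick]

theorem mem_of_mem_undealP (hW : ws.length = W) {a : α} (h : a ∈ undealP ρ ws) :
    ∃ s ∈ ws, a ∈ s := by
  obtain ⟨s, h1, h2⟩ := mem_of_mem_undeal h
  exact ⟨s, mem_of_mem_pick hW h1, h2⟩

end Deal

/-! ### digit sums -/

@[simp] theorem ds_zero (q : ℕ) (d : ℕ → ℕ) : ds q d 0 = 0 := rfl

theorem ds_succ_l (q : ℕ) (d : ℕ → ℕ) (n : ℕ) : ds q d (n + 1) = d n * q ^ n + ds q d n := by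
  rw [ds, Finset.sum_range_succ, add_comm]; rfl

theorem ds_congr {q : ℕ} {d d' : ℕ → ℕ} {n : ℕ} (h : ∀ j < n, d j = d' j) :
    ds q d n = ds q d' n :=
  Finset.sum_congr rfl fun j hj => by rw [h j (Finset.mem_range.1 hj)]

theorem ds_lt {q : ℕ} {d : ℕ → ℕ} {n : ℕ} (h : ∀ j < n, d j < q) : ds q d n < q ^ n := by
  induction n with
  | zero => simp
  | succ n ih =>
    rw [ds_succ_l, pow_succ']
    exact mul_add_lt (h n (by omega)) (ih fun j hj => h j (by omega))

theorem ds_inj {q : ℕ} {d d' : ℕ → ℕ} {n : ℕ} (h : ∀ j < n, d j < q) (h' : ∀ j < n, d' j < q)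
    (e : ds q d n = ds q d' n) : ∀ j < n, d j = d' j := by
  induction n with
  | zero => intro j hj; omega
  | succ n ih =>
    have l1 : ds q d n < q ^ n := ds_lt fun j hj => h j (by omega)
    have l2 : ds q d' n < q ^ n := ds_lt fun j hj => h' j (by omega)
    rw [ds_succ_l, ds_succ_l] at e
    have e1 : d n = d' n := by rw [← mul_add_div' (a := d n) l1, e, mul_add_div' l2]
    have e2 : ds q d n = ds q d' n := by rw [e1] at e; omega
    intro j hj
    rcases Nat.lt_succ_iff_lt_or_eq.1 hj with hj | rfl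
    · exact ih (fun j hj => h j (by omega)) (fun j hj => h' j (by omega)) e2 j hj
    · exact e1

theorem ds_add (q : ℕ) (d : ℕ → ℕ) (n k : ℕ) :
    ds q d (n + k) = ds q (fun j => d (n + j)) k * q ^ n + ds q d n := by
  induction k with
  | zero => simp
  | succ k ih =>
    rw [← Nat.add_assoc, ds_succ_l, ih, ds_succ_l, pow_add]
    ring

/-- digit `j` of a digit sum -/
theorem ds_digit {q : ℕ} {d : ℕ → ℕ} {n : ℕ} (h : ∀ j < n, d j < q) (hi : ℕ) {j : ℕ}
    (hj : j < n) : (hi * q ^ n + ds q d n) / q ^ j % q = d j := by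
  obtain ⟨k, rfl⟩ : ∃ k, n = j + (1 + k) := ⟨n - j - 1, by omega⟩
  have l1 : ds q d j < q ^ j := ds_lt fun i hi => h i (by omega)
  have e : hi * q ^ (j + (1 + k)) + ds q d (j + (1 + k)) =
      ((hi * q ^ k + ds q (fun i => d (j + (1 + i))) k) * q + d j) * q ^ j + ds q d j := by
    rw [ds_add, ds_add, ds_succ_l]
    simp only [ds_zero, pow_add, pow_zero, pow_one, Nat.add_zero, Nat.mul_one]
    ring
  rw [e, mul_add_div' l1, mul_add_mod' (h j (by omega))]

/-! ### the layout of the streams -/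

/-- spectators in the parent layout from spectators in stream `w` -/
def Base.up (β : Base) (W w : ℕ) : Base := { β with z := β.z * W + w }

/-- spectators in the stream from spectators in the parent layout -/
def Base.down (β : Base) (W : ℕ) : Base := { β with z := β.z / W }

theorem Base.up_down (β : Base) (W : ℕ) : (β.down W).up W (β.z % W) = β := by
  cases β
  simp only [Base.up, Base.down, Base.mk.injEq, true_and]
  exact Nat.div_add_mod' _ _

theorem Base.down_up (β : Base) {W w : ℕ} (hw : w < W) : (β.up W w).down W = β := by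
  cases β
  simp only [Base.up, Base.down, Base.mk.injEq, true_and]
  exact mul_add_div' hw

namespace Lay

/-- the layout of each of the `W` streams -/
def sub (L : Lay) (W : ℕ) : Lay := { L with Z := L.Z / W }

variable {L : Lay} {W : ℕ}

@[simp] theorem sub_Pre : (L.sub W).Pre = L.Pre := rfl
@[simp] theorem sub_g : (L.sub W).g = L.g := rfl
@[simp] theorem sub_F : (L.sub W).F = L.F := rfl
@[simp] theorem sub_G1 : (L.sub W).G1 = L.G1 := rfl
@[simp] theorem sub_R : (L.sub W).R = L.R := rfl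
@[simp] theorem sub_G2 : (L.sub W).G2 = L.G2 := rfl
@[simp] theorem sub_Z : (L.sub W).Z = L.Z / W := rfl

theorem sub_wy (h : W ∣ L.Z) : (L.sub W).wy * W = L.wy := by
  simp only [wy, sub_Z, sub_g, sub_F, sub_G2]
  conv_rhs => rw [← Nat.div_mul_cancel h]
  ring

theorem sub_wh (h : W ∣ L.Z) : (L.sub W).wh * W = L.wh := by
  simp only [wh, sub_R, sub_F, sub_G1]
  rw [← sub_wy h]
  ring

theorem sub_N (h : W ∣ L.Z) : (L.sub W).N * W = L.N := by
  simp only [N, sub_g, sub_F, sub_Pre]
  rw [← sub_wh h]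
  ring

theorem sub_N' (h : W ∣ L.Z) (hW : 0 < W) : (L.sub W).N = L.N / W := by
  rw [← sub_N h, Nat.mul_div_cancel _ hW]

theorem addr_up (h : W ∣ L.Z) (β : Base) (w : ℕ) (b : Bv) :
    L.addr (β.up W w) b = (L.sub W).addr β b * W + w := by
  simp only [addr, Base.up, sub_R, sub_F, sub_g, sub_Z]
  rw [← sub_wy h]
  conv_lhs => rw [← Nat.div_mul_cancel h]
  ring

theorem addr_down (h : W ∣ L.Z) (β : Base) (b : Bv) :
    L.addr β b = (L.sub W).addr (β.down W) b * W + β.z % W := by
  rw [← addr_up h, Base.up_down]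

variable {sy sa : ℕ} {β : Base}

theorem Ok.up (h : W ∣ L.Z) (hβ : (L.sub W).Ok sy sa β) {w : ℕ} (hw : w < W) :
    L.Ok sy sa (β.up W w) :=
  ⟨hβ.hi, hβ.h, hβ.p, hβ.a, by
    have := mul_add_lt hβ.z hw
    rwa [sub_Z, Nat.div_mul_cancel h] at this⟩

theorem Ok.down (h : W ∣ L.Z) (hβ : L.Ok sy sa β) : (L.sub W).Ok sy sa (β.down W) :=
  ⟨hβ.hi, hβ.h, hβ.p, hβ.a, by
    have := hβ.z
    rw [← Nat.div_mul_cancel h, Nat.mul_comm] at this
    exact Nat.div_lt_of_lt_mul this⟩

theorem Ok.mono {sy' sa' : ℕ} (hβ : L.Ok sy sa β) (h1 : sy' ≤ sy) (h2 : sa' ≤ sa) :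
    L.Ok sy' sa' β :=
  ⟨hβ.hi, fun j hj => by have := hβ.h j hj; omega, hβ.p,
    fun j hj => by have := hβ.a j hj; omega, hβ.z⟩

theorem bit_lt (b : Bv) (j : ℕ) : (b j).val < 2 := ZMod.val_lt _

theorem Ok.chunk_lt (hβ : L.Ok sy sa β) (b : Bv) : ∀ j < L.F, 2 * β.h j + (b j).val < L.R := by
  intro j hj
  have := hβ.h j hj
  have := bit_lt b j
  omega

theorem Ok.slot_lt (hβ : L.Ok sy sa β) : ∀ j < L.F, β.a j < L.g := by
  intro j hj
  have := hβ.a j hj
  omega

/-- the part of the address below the chunks -/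
theorem Ok.low_lt (hβ : L.Ok sy sa β) :
    (β.p * L.g ^ L.F + ds L.g β.a L.F) * L.Z + β.z < L.wy := by
  have h := mul_add_lt (mul_add_lt hβ.p (ds_lt hβ.slot_lt)) hβ.z
  have e : L.G2 * L.g ^ L.F * L.Z = L.wy := by rw [wy]; ring
  rwa [e] at h

theorem Ok.addr_lt (hβ : L.Ok sy sa β) (b : Bv) : L.addr β b < L.N := by
  have h := mul_add_lt (mul_add_lt hβ.hi (ds_lt (hβ.chunk_lt b))) hβ.low_lt
  have e : L.G1 * L.g ^ L.F * L.Pre * L.R ^ L.F * L.wy = L.N := by rw [N, wh]; ring
  rw [e] at h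
  rw [addr, Nat.add_assoc]
  exact h

theorem Ok.addr_div_wy (hβ : L.Ok sy sa β) (b : Bv) :
    L.addr β b / L.wy = β.hi * L.R ^ L.F + ds L.R (fun j => 2 * β.h j + (b j).val) L.F := by
  rw [addr, Nat.add_assoc, mul_add_div' hβ.low_lt]

theorem Ok.addr_mod_wy (hβ : L.Ok sy sa β) (b : Bv) :
    L.addr β b % L.wy = (β.p * L.g ^ L.F + ds L.g β.a L.F) * L.Z + β.z := by
  rw [addr, Nat.add_assoc, mul_add_mod' hβ.low_lt]

/-- chunk `j` of an address -/
theorem Ok.addr_chunk (hβ : L.Ok sy sa β) (b : Bv) {j : ℕ} (hj : j < L.F) :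
    L.addr β b / L.wy / L.R ^ j % L.R = 2 * β.h j + (b j).val := by
  rw [hβ.addr_div_wy, ds_digit (hβ.chunk_lt b) _ hj]

/-- the address depends only on the first `F` selected bits -/
theorem addr_congr (β : Base) {b b' : Bv} (h : ∀ j < L.F, b j = b' j) :
    L.addr β b = L.addr β b' := by
  rw [addr, addr, ds_congr (d' := fun j => 2 * β.h j + (b' j).val) fun j hj => by rw [h j hj]]

/-- an address determines its spectators and its selected bits -/
theorem Ok.addr_inj {sy' sa' : ℕ} {β' : Base} (hβ : L.Ok sy sa β) (hβ' : L.Ok sy' sa' β')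
    {b b' : Bv} (e : L.addr β b = L.addr β' b') :
    β.hi = β'.hi ∧ (∀ j < L.F, β.h j = β'.h j ∧ b j = b' j) ∧ β.p = β'.p ∧
      (∀ j < L.F, β.a j = β'.a j) ∧ β.z = β'.z := by
  have e1 := hβ.addr_div_wy b
  rw [e, hβ'.addr_div_wy] at e1
  have e2 := hβ.addr_mod_wy b
  rw [e, hβ'.addr_mod_wy] at e2
  have l1 := ds_lt (hβ.chunk_lt b)
  have l1' := ds_lt (hβ'.chunk_lt b')
  have l2 := ds_lt hβ.slot_lt
  have l2' := ds_lt hβ'.slot_lt
  have f1 : β.hi = β'.hi := by rw [← mul_add_div' (a := β.hi) l1, ← e1, mul_add_div' l1']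
  have f2 : β.z = β'.z := by
    rw [← mul_add_mod' (a := β.p * L.g ^ L.F + ds L.g β.a L.F) hβ.z, ← e2, mul_add_mod' hβ'.z]
  have f3 : β.p * L.g ^ L.F + ds L.g β.a L.F = β'.p * L.g ^ L.F + ds L.g β'.a L.F := by
    rw [← mul_add_div' (a := β.p * L.g ^ L.F + ds L.g β.a L.F) hβ.z, ← e2, mul_add_div' hβ'.z]
  have f4 : β.p = β'.p := by rw [← mul_add_div' (a := β.p) l2, f3, mul_add_div' l2']
  refine ⟨f1, fun j hj => ?_, f4, ds_inj hβ.slot_lt hβ'.slot_lt (by rw [f4] at f3; omega), f2⟩
  have f5 := ds_inj (hβ.chunk_lt b) (hβ'.chunk_lt b') (by rw [f1] at e1; omega) j hj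
  have := bit_lt b j
  have := bit_lt b' j
  exact ⟨by omega, ZMod.val_injective 2 (by omega)⟩

/-! ### fibres -/

section Fib

variable {α V : Type}

/-- the fibre of the array `l` over the spectators `β`, read through `e` -/
def fib (L : Lay) (e : List α → V) (l : List (List α)) (β : Base) : Bv → V :=
  fun b => e (l.getD (L.addr β b) [])

theorem fib_deal (h : W ∣ L.Z) (e : List α → V) {l : List (List α)} (hl : l.length = L.N)
    (β : Base) {w : ℕ} (hw : w < W) :
    (L.sub W).fib e (deal W w l) β = L.fib e l (β.up W w) := by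
  funext b
  rw [fib, fib, getD_deal hw (hl.trans (sub_N h).symm), addr_up h]

theorem fib_dealAll (h : W ∣ L.Z) (e : List α → V) {l : List (List α)} (hl : l.length = L.N)
    (β : Base) {w : ℕ} (hw : w < W) :
    (L.sub W).fib e ((dealAll W l).getD w []) β = L.fib e l (β.up W w) := by
  rw [getD_dealAll hw, fib_deal h e hl β hw]

theorem length_of_mem_dealAll (h : W ∣ L.Z) {l s : List α} (hl : l.length = L.N)
    (hs : s ∈ dealAll W l) : s.length = (L.sub W).N :=
  X326.length_of_mem_dealAll (hl.trans (sub_N h).symm) hs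

theorem length_undealP (h : W ∣ L.Z) (ρ : Fin W → Fin W) {ws : List (List α)}
    (hW : ws.length = W) (hn : ∀ s ∈ ws, s.length = (L.sub W).N) :
    (undealP ρ ws).length = L.N := by
  rw [B3.length_undealP hW hn, sub_N h]

theorem fib_undealP (h : W ∣ L.Z) (e : List α → V) (ρ : Fin W → Fin W)
    {ws : List (List (List α))} (hW : ws.length = W) (hn : ∀ s ∈ ws, s.length = (L.sub W).N)
    (β : Base) (w : Fin W) :
    L.fib e (undealP ρ ws) (β.up W w) = (L.sub W).fib e (ws.getD (ρ w) []) β := by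
  funext b
  rw [fib, fib, addr_up h, getD_undealP hW hn]

/-- the form used at the end of a recursion step: `β` is in the parent layout -/
theorem fib_undealP' (h : W ∣ L.Z) (h0 : 0 < W) (e : List α → V) (ρ : Fin W → Fin W)
    {ws : List (List (List α))} (hW : ws.length = W) (hn : ∀ s ∈ ws, s.length = (L.sub W).N)
    (β : Base) :
    L.fib e (undealP ρ ws) β =
      (L.sub W).fib e (ws.getD (ρ ⟨β.z % W, Nat.mod_lt _ h0⟩) []) (β.down W) := by
  rw [← fib_undealP h e ρ hW hn, Base.up_down]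

end Fib

end Lay

/-! ### the instruction `add` on lists of records -/

/-- `n • y` -/
def recNsmul (M : ℕ) (y : List ℕ) : ℕ → List ℕ
  | 0 => y.map fun _ => 0
  | n + 1 => recAdd M (recNsmul M y n) y

/-- `a • y` for an integer `a` -/
def recZsmul (M : ℕ) (a : ℤ) (y : List ℕ) : List ℕ :=
  if a < 0 then recNeg M (recNsmul M y a.natAbs) else recNsmul M y a.natAbs

/-- `(a / 2 ^ j) • y` -/
def recSmul (M : ℕ) (a : ℤ) (j : ℕ) (y : List ℕ) : List ℕ := (recHalf M)^[j] (recZsmul M a y)

/-- `x + (a / 2 ^ j) • y` -/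
def recAxpy (M : ℕ) (a : ℤ) (j : ℕ) (x y : List ℕ) : List ℕ := recAdd M x (recSmul M a j y)

/-- the instruction `add` on two streams -/
def addL (M : ℕ) (a : ℤ) (j : ℕ) (s t : List (List ℕ)) : List (List ℕ) :=
  List.zipWith (recAxpy M a j) s t

section Add

variable {r M : ℕ} {x y : List ℕ}

theorem wf_nsmul (hy : WF r M y) (n : ℕ) : WF r M (recNsmul M y n) := by
  induction n with
  | zero => exact hy.map fun c hc => by omega
  | succ n ih => exact ih.add hy

theorem wf_zsmul (hy : WF r M y) (a : ℤ) : WF r M (recZsmul M a y) := by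
  unfold recZsmul
  split_ifs
  · exact (wf_nsmul hy _).neg
  · exact wf_nsmul hy _

theorem wf_iterate_half (hy : WF r M y) (j : ℕ) : WF r M ((recHalf M)^[j] y) := by
  induction j with
  | zero => exact hy
  | succ j ih => rw [Function.iterate_succ_apply']; exact ih.half

theorem wf_smul (hy : WF r M y) (a : ℤ) (j : ℕ) : WF r M (recSmul M a j y) :=
  wf_iterate_half (wf_zsmul hy a) j

theorem wf_axpy (hx : WF r M x) (hy : WF r M y) (a : ℤ) (j : ℕ) : WF r M (recAxpy M a j x y) :=
  hx.add (wf_smul hy a j)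

variable {A : Type} [CommRing A] {u : A}

theorem ev_nsmul (hM : (M : A) = 0) (hy : WF r M y) (n : ℕ) :
    ev u (recNsmul M y n) = n * ev u y := by
  induction n with
  | zero => exact ev_map_of_mul (by simp)
  | succ n ih =>
    rw [recNsmul, ev_add hM (wf_nsmul hy n) hy, ih]
    push_cast
    ring

theorem ev_zsmul (hM : (M : A) = 0) (hy : WF r M y) (a : ℤ) :
    ev u (recZsmul M a y) = a * ev u y := by
  unfold recZsmul
  split_ifs with h
  · rw [ev_neg hM (wf_nsmul hy _), ev_nsmul hM hy]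
    have : (a : A) = -(a.natAbs : A) := by
      have e : a = -(a.natAbs : ℤ) := by omega
      conv_lhs => rw [e]
      simp only [Int.cast_neg, Int.cast_natCast]
    rw [this]
    ring
  · rw [ev_nsmul hM hy]
    have : (a : A) = (a.natAbs : A) := by
      have e : a = (a.natAbs : ℤ) := by omega
      conv_lhs => rw [e]
      simp only [Int.cast_natCast]
    rw [this]

theorem ev_iterate_half (hM : (M : A) = 0) (hodd : M % 2 = 1) {hf : A} (hhf : 2 * hf = 1)
    (y : List ℕ) (j : ℕ) : ev u ((recHalf M)^[j] y) = hf ^ j * ev u y := by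
  induction j with
  | zero => simp
  | succ j ih => rw [Function.iterate_succ_apply', ev_half hM hodd hhf, ih]; ring

theorem ev_smul (hM : (M : A) = 0) (hodd : M % 2 = 1) {hf : A} (hhf : 2 * hf = 1)
    (hy : WF r M y) (a : ℤ) (j : ℕ) : ev u (recSmul M a j y) = (a * hf ^ j) * ev u y := by
  rw [recSmul, ev_iterate_half hM hodd hhf, ev_zsmul hM hy]
  ring

theorem ev_axpy (hM : (M : A) = 0) (hodd : M % 2 = 1) {hf : A} (hhf : 2 * hf = 1)
    (hx : WF r M x) (hy : WF r M y) (a : ℤ) (j : ℕ) :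
    ev u (recAxpy M a j x y) = ev u x + (a * hf ^ j) * ev u y := by
  rw [recAxpy, ev_add hM hx (wf_smul hy a j), ev_smul hM hodd hhf hy]

variable {s t : List (List ℕ)} {n : ℕ}

theorem length_addL (a : ℤ) (j : ℕ) (hs : s.length = n) (ht : t.length = n) :
    (addL M a j s t).length = n := by simp [addL, hs, ht]

theorem getD_addL (a : ℤ) (j : ℕ) (hs : s.length = n) (ht : t.length = n) {i : ℕ} (hi : i < n) :
    (addL M a j s t).getD i [] = recAxpy M a j (s.getD i []) (t.getD i []) := by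
  simp [addL, List.getD_eq_getElem?_getD, List.getElem?_zipWith,
    List.getElem?_eq_getElem (hs ▸ hi), List.getElem?_eq_getElem (ht ▸ hi)]

theorem wf_of_mem_addL (a : ℤ) (j : ℕ) (hs : ∀ x ∈ s, WF r M x) (ht : ∀ x ∈ t, WF r M x) :
    ∀ x ∈ addL M a j s t, WF r M x := by
  intro x hx
  obtain ⟨i, hi, rfl⟩ := List.getElem_of_mem hx
  simp only [addL, List.getElem_zipWith]
  exact wf_axpy (hs _ (List.getElem_mem _)) (ht _ (List.getElem_mem _)) a j

theorem ev_getD_addL (hM : (M : A) = 0) (hodd : M % 2 = 1) {hf : A} (hhf : 2 * hf = 1)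
    (a : ℤ) (j : ℕ) (hs : s.length = n) (ht : t.length = n) (hs' : ∀ x ∈ s, WF r M x)
    (ht' : ∀ x ∈ t, WF r M x) {i : ℕ} (hi : i < n) :
    ev u ((addL M a j s t).getD i []) =
      ev u (s.getD i []) + (a * hf ^ j) * ev u (t.getD i []) := by
  rw [getD_addL a j hs ht hi, ev_axpy hM hodd hhf (hs' _ (getD_mem _ (hs ▸ hi)))
    (ht' _ (getD_mem _ (ht ▸ hi)))]

theorem Lay.fib_addL {L : Lay} {sy sa : ℕ} {β : Base} (hβ : L.Ok sy sa β) (hM : (M : A) = 0)
    (hodd : M % 2 = 1) {hf : A} (hhf : 2 * hf = 1) (a : ℤ) (j : ℕ) (hs : s.length = L.N)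
    (ht : t.length = L.N) (hs' : ∀ x ∈ s, WF r M x) (ht' : ∀ x ∈ t, WF r M x) :
    L.fib (ev u) (addL M a j s t) β =
      L.fib (ev u) s β + ((a : A) * hf ^ j) • L.fib (ev u) t β := by
  funext b
  exact ev_getD_addL hM hodd hhf a j hs ht hs' ht' (hβ.addr_lt b)

end Add

end Crest.Agent.X326.B3
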