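import Crest.Agent.X326.B3.Spec
import Crest.Agent.X326.B3.Streams

/-!
Row 326 (S0503), part M3: the list-level recursion (definitions and statements).
-/

set_option autoImplicit false

namespace Crest.Agent.X326.B3

open Crest.Agent.Lib.PT

/-- arrays of records -/
abbrev Arr : Type := List (List ℕ)

/-- type of the gadget -/
abbrev GadT : Type := Lay × (Bool × Un × Un × Un) × Arr → Arr

/-- type of the base butterfly -/
abbrev BaseT : Type := (ℕ × ℕ) × Lay × Un × Arr → Arr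

/-- list-level semantics of one instruction; `L` is the layout of the streams, the groups have
`f` chunks and start at chunk `lo`, `rc lo' l` is the child call at chunk `lo'` -/
def execL {W m : ℕ} (gad : GadT) (M : ℕ) (L : Lay) (lo f : ℕ) (rc : ℕ → Arr → Arr)
    (ws : List Arr) : Ins W m → List Arr
  | .add w w' a e => ws.set w (addL M a e (ws.getD w []) (ws.getD w' []))
  | .xor w t s => ws.set w (gad (L, (true, ⟨lo + t * f⟩, ⟨lo + s * f⟩, ⟨f⟩), ws.getD w []))
  | .flip w t => ws.set w (gad (L, (false, ⟨lo + t * f⟩, ⟨lo + t * f + f⟩, ⟨f⟩), ws.getD w []))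
  | .call w s => ws.set w (rc (lo + s * f) (ws.getD w []))

/-- the recursion: level `j` treats the `m ^ j` chunks starting at chunk `lo` -/
def pbL {W m : ℕ} (gad : GadT) (bf : BaseT) (P : List (Ins W m)) (ρ : Fin W → Fin W) (M r : ℕ) :
    ℕ → Lay → ℕ → Arr → Arr
  | 0, L, lo, l => bf ((M, r), L, ⟨lo⟩, l)
  | j + 1, L, lo, l => undealP ρ (P.foldl (execL gad M (L.sub W) lo (m ^ j)
      (fun lo' l' => pbL gad bf P ρ M r j (L.sub W) lo' l')) (dealAll W l))

/-- the specification of the gadget (second half of `GadgetStatement`) -/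
def GadSpec (gad : GadT) : Prop :=
  ∀ (L : Lay) (src : Bool) (t s len : ℕ) (l : Arr),
    GadDom (L, (src, ⟨t⟩, ⟨s⟩, ⟨len⟩), l) →
      (gad (L, (src, ⟨t⟩, ⟨s⟩, ⟨len⟩), l)).length = l.length ∧
      (∀ x ∈ gad (L, (src, ⟨t⟩, ⟨s⟩, ⟨len⟩), l), x ∈ l) ∧
      ∀ β, L.Safe β → ∀ b, (gad (L, (src, ⟨t⟩, ⟨s⟩, ⟨len⟩), l)).getD (L.addr β b) [] =
        l.getD (L.addr β (gadMap src t s len b)) []

/-- the specification of the base butterfly (second half of `BaseStatement`) -/
def BaseSpec (bf : BaseT) : Prop :=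
  ∀ (M r : ℕ) (L : Lay) (j : ℕ) (l : Arr), BaseDom ((M, r), L, ⟨j⟩, l) →
    WFL L r M (bf ((M, r), L, ⟨j⟩, l)) ∧
    ∀ (A : Type) [CommRing A] (y hf : A), (M : A) = 0 → M % 2 = 1 → y ^ r = -1 →
      2 * hf = 1 → ∀ β, L.Safe β →
        fib y L β (bf ((M, r), L, ⟨j⟩, l)) = Cop (y ^ (r / 2)) hf j (fib y L β l)

/-- `W` well-formed streams -/
def WFS (W : ℕ) (L : Lay) (r M : ℕ) (ws : List Arr) : Prop :=
  ws.length = W ∧ ∀ s ∈ ws, WFL L r M s

/-- correctness of the recursion (proved in `B3/Rec.lean`) -/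
def RecStatement : Prop :=
  ∀ (W m : ℕ) (gad : GadT) (bf : BaseT) (P : List (Ins W m)) (ρ : Fin W ≃ Fin W),
    0 < W → GadSpec gad → BaseSpec bf → CProg P ρ →
    ∀ (M r j : ℕ) (L : Lay) (lo : ℕ) (l : Arr),
      PartBDom W m ((M, r), L, (⟨lo⟩, ⟨j⟩), l) →
      WFL L r M (pbL gad bf P ρ M r j L lo l) ∧
      ∀ (A : Type) [CommRing A] (y hf : A), (M : A) = 0 → M % 2 = 1 → y ^ r = -1 →
        r % 2 = 0 → 2 * hf = 1 → ∀ β, L.Safe β →
          fib y L β (pbL gad bf P ρ M r j L lo l) =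
            Crange (y ^ (r / 2)) hf lo (m ^ j) (fib y L β l)

end Crest.Agent.X326.B3
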