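import Crest.Agent.X326.B3.CostTC

/-!
Row 326 (S0503), part M3: correctness of the recursion.
-/

set_option autoImplicit false

namespace Crest.Agent.X326.B3.Corr

open Crest.Agent.Lib.PT

variable {W m : ℕ} {gad : GadT} {M r : ℕ} {L : Lay} {lo f : ℕ} {rc : ℕ → Arr → Arr}

theorem domZ (hL : L.Good) (hlo : lo + m * f ≤ L.F) {ws : List Arr} (h : WFS W L r M ws) :
    DomZ W m (((M, r), L, (⟨lo⟩, ⟨0⟩), ⟨f⟩), ws) := ⟨hL, hlo, h⟩

theorem wfs_exec (hg : GadSpec gad) (hL : L.Good) (hlo : lo + m * f ≤ L.F)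
    (hrc : ∀ lo' l, lo' + f ≤ L.F → WFL L r M l → WFL L r M (rc lo' l)) {ws : List Arr}
    (h : WFS W L r M ws) (ins : Ins W m) (hins : ins.ok) :
    WFS W L r M (execL gad M L lo f rc ws ins) := by
  rcases ins with ⟨w, w', a, e⟩ | ⟨w, t, s⟩ | ⟨w, t⟩ | ⟨w, s⟩
  · exact ((domZ hL hlo h).free hg _ hins).2.2
  · exact ((domZ hL hlo h).free hg _ hins).2.2
  · exact ((domZ hL hlo h).free hg _ hins).2.2
  · exact h.set' w (hrc _ _ (grp_le hlo s) (h.getD w))

theorem wfs_foldl (hg : GadSpec gad) (hL : L.Good) (hlo : lo + m * f ≤ L.F)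
    (hrc : ∀ lo' l, lo' + f ≤ L.F → WFL L r M l → WFL L r M (rc lo' l)) (P : List (Ins W m))
    (hP : ∀ ins ∈ P, ins.ok) {ws : List Arr} (h : WFS W L r M ws) :
    WFS W L r M (P.foldl (execL gad M L lo f rc) ws) := by
  induction P generalizing ws with
  | nil => exact h
  | cons ins P ih =>
    exact ih (fun i hi => hP i (List.mem_cons_of_mem _ hi))
      (wfs_exec hg hL hlo hrc h ins (hP ins List.mem_cons_self))

variable {A : Type} [CommRing A] {y hf : A} {β : Base}

theorem sem_set {ws : List Arr} (h : ws.length = W) (w : Fin W) (s : Arr) :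
    (fun v : Fin W => fib y L β ((ws.set w s).getD v [])) =
      Function.update (fun v : Fin W => fib y L β (ws.getD v [])) w (fib y L β s) := by
  funext v
  by_cases hv : v = w
  · subst hv
    have : (ws.set v s).getD v [] = s := by
      simp [List.getD_eq_getElem?_getD, h]
    rw [this, Function.update_self]
  · have : (ws.set w s).getD v [] = ws.getD v [] := by
      have : (w : ℕ) ≠ v := fun e => hv (Fin.ext e.symm)
      simp [List.getD_eq_getElem?_getD, List.getElem?_set_ne this]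
    rw [this, Function.update_of_ne hv]

theorem fib_gad (hg : GadSpec gad) {src : Bool} {t s len : ℕ} {l : Arr}
    (hd : GadDom (L, (src, ⟨t⟩, ⟨s⟩, ⟨len⟩), l)) (hβ : L.Safe β) :
    fib y L β (gad (L, (src, ⟨t⟩, ⟨s⟩, ⟨len⟩), l)) = fib y L β l ∘ gadMap src t s len := by
  funext b
  simp only [fib, Function.comp_apply, (hg L src t s len l hd).2.2 β hβ b]

theorem sem_exec (hg : GadSpec gad) (hL : L.Good) (hlo : lo + m * f ≤ L.F) (hM : (M : A) = 0)
    (hodd : M % 2 = 1) (hhf : 2 * hf = 1) (hβ : L.Safe β) {i : A}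
    (hrc : ∀ lo' l, lo' + f ≤ L.F → WFL L r M l →
      fib y L β (rc lo' l) = Crange i hf lo' f (fib y L β l)) {ws : List Arr}
    (h : WFS W L r M ws) (ins : Ins W m) (hins : ins.ok) :
    (fun v : Fin W => fib y L β ((execL gad M L lo f rc ws ins).getD v [])) =
      Ins.exec i hf lo f (fun v : Fin W => fib y L β (ws.getD v [])) ins := by
  rcases ins with ⟨w, w', a, e⟩ | ⟨w, t, s⟩ | ⟨w, t⟩ | ⟨w, s⟩
  · simp only [execL, Ins.exec, sem_set h.1]
    rw [fib_eq, Lay.fib_addL hβ hM hodd hhf a e (h.getD w).1 (h.getD w').1 (h.getD w).2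
      (h.getD w').2]
    rfl
  · simp only [execL, Ins.exec, sem_set h.1]
    rw [fib_gad hg (gadDom_xor (domZ hL hlo h) w hins) hβ]
    rfl
  · simp only [execL, Ins.exec, sem_set h.1]
    rw [fib_gad hg (gadDom_flip (domZ hL hlo h) w t) hβ]
    rfl
  · simp only [execL, Ins.exec, sem_set h.1]
    rw [hrc _ _ (grp_le hlo s) (h.getD w)]

theorem sem_foldl (hg : GadSpec gad) (hL : L.Good) (hlo : lo + m * f ≤ L.F) (hM : (M : A) = 0)
    (hodd : M % 2 = 1) (hhf : 2 * hf = 1) (hβ : L.Safe β) {i : A}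
    (hrc0 : ∀ lo' l, lo' + f ≤ L.F → WFL L r M l → WFL L r M (rc lo' l))
    (hrc : ∀ lo' l, lo' + f ≤ L.F → WFL L r M l →
      fib y L β (rc lo' l) = Crange i hf lo' f (fib y L β l)) (P : List (Ins W m))
    (hP : ∀ ins ∈ P, ins.ok) {ws : List Arr} (h : WFS W L r M ws) :
    (fun v : Fin W => fib y L β ((P.foldl (execL gad M L lo f rc) ws).getD v [])) =
      runIns i hf lo f P (fun v : Fin W => fib y L β (ws.getD v [])) := by
  induction P generalizing ws with
  | nil => rfl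
  | cons ins P ih =>
    have h1 := hP ins List.mem_cons_self
    rw [List.foldl_cons, ih (fun i hi => hP i (List.mem_cons_of_mem _ hi))
      (wfs_exec hg hL hlo hrc0 h ins h1), sem_exec hg hL hlo hM hodd hhf hβ hrc h ins h1]
    rfl

/-- correctness of the recursion -/
theorem recB : RecStatement := by
  intro W m gad bf P ρ hW hg hb hP M r j
  induction j with
  | zero =>
    intro L lo l hx
    have hd : BaseDom ((M, r), L, ⟨lo⟩, l) :=
      ⟨hx.1, by have := hx.2.1; simp only [pow_zero] at this; exact this, hx.2.2.2⟩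
    refine ⟨(hb M r L lo l hd).1, fun A _ y hf hM hodd hy _ hhf β hβ => ?_⟩
    exact (hb M r L lo l hd).2 A y hf hM hodd hy hhf β hβ
  | succ j ih =>
    intro L lo l hx
    obtain ⟨hd, hz, hdv⟩ := dom_pre hx (Nat.succ_ne_zero j)
    have hL : (L.sub W).Good := hz.1
    have hlo : lo + m * m ^ j ≤ (L.sub W).F := hz.2.1
    have hws : WFS W (L.sub W) r M (dealAll W l) := hz.2.2
    have hdom : ∀ lo' l', lo' + m ^ j ≤ (L.sub W).F → WFL (L.sub W) r M l' →
        PartBDom W m ((M, r), L.sub W, (⟨lo'⟩, ⟨j⟩), l') := fun lo' l' h1 h2 => ⟨hL, h1, hdv, h2⟩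
    have hrc0 := fun lo' l' h1 h2 => (ih (L.sub W) lo' l' (hdom lo' l' h1 h2)).1
    have hfin := wfs_foldl hg hL hlo hrc0 P hP.ok hws
    refine ⟨WFL.undealP hd ρ hfin.1 hfin.2, fun A _ y hf hM hodd hy hr hhf β hβ => ?_⟩
    have hβ' : (L.sub W).Safe (β.down W) := Lay.Ok.down hd hβ
    have h1 := sem_foldl hg hL hlo hM hodd hhf hβ' hrc0
      (fun lo' l' h1 h2 => (ih (L.sub W) lo' l' (hdom lo' l' h1 h2)).2 A y hf hM hodd hy hr hhf
        _ hβ') P hP.ok hws
    have h2 := congrFun h1 (ρ ⟨β.z % W, Nat.mod_lt _ hW⟩)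
    rw [hP.spec A A _ hf (M4.pow_half_sq hy hr) hhf] at h2
    simp only [pbL]
    rw [fib_eq, Lay.fib_undealP' hd hW _ ρ hfin.1 (fun s hs => (hfin.2 s hs).1), ← fib_eq, h2,
      fib_eq, Lay.fib_dealAll hd _ hx.2.2.2.1 _ (Nat.mod_lt _ hW), Base.up_down, pow_succ']
    rfl

end Crest.Agent.X326.B3.Corr

namespace Crest.Agent.X326.B3

/-- **Part B** from the field-level program, the gadget and the base butterfly. -/
theorem mainB : MainB := mainB_of_rec Corr.recB

end Crest.Agent.X326.B3
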