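import Crest.Agent.X326.B3.Alg
import Crest.Agent.X326.B3.StreamsTC
import Crest.Agent.X326.TC.RecStage
import Crest.Agent.X326.TC.Un

/-!
Row 326 (S0503), part M3: the cost of the recursion.
-/

set_option autoImplicit false

namespace Crest.Agent.X326.B3

open Crest.Agent.Lib.PT

/-- inputs of a call: `((M, r), L, (lo, j), l)` -/
abbrev XB : Type := (ℕ × ℕ) × Lay × (Un × Un) × Arr

/-- states: `(((M, r), L', (lo, j'), f), streams)` -/
abbrev ZB : Type := ((ℕ × ℕ) × Lay × (Un × Un) × Un) × List Arr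

section defs

variable {W m : ℕ}

/-- the recursion on coded inputs -/
def resB (gad : GadT) (bf : BaseT) (P : List (Ins W m)) (ρ : Fin W → Fin W) (x : XB) : Arr :=
  pbL gad bf P ρ x.1.1 x.1.2 x.2.2.1.2.val x.2.1 x.2.2.1.1.val x.2.2.2

/-- first stage: deal the streams -/
def preB (W m : ℕ) (x : XB) : ZB :=
  ((x.1, x.2.1.sub W, (x.2.2.1.1, ⟨x.2.2.1.2.val - 1⟩), ⟨m ^ (x.2.2.1.2.val - 1)⟩),
    dealAll W x.2.2.2)

/-- an instruction without call on a state -/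
def freeB (gad : GadT) (ins : Ins W m) (z : ZB) : ZB :=
  (z.1, execL gad z.1.1.1 z.1.2.1 z.1.2.2.1.1.val z.1.2.2.2.val (fun _ l => l) z.2 ins)

/-- the input of a child call -/
def getB (w s : ℕ) (z : ZB) : XB :=
  (z.1.1, z.1.2.1, (⟨z.1.2.2.1.1.val + s * z.1.2.2.2.val⟩, z.1.2.2.1.2), z.2.getD w [])

/-- store the result of a child call -/
def putB (w : ℕ) (z : ZB) (y : Arr) : ZB := (z.1, z.2.set w y)

/-- the stage of an instruction -/
def stageB (gad : GadT) : Ins W m → Stage XB Arr ZB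
  | .add w w' a e => .free (freeB gad (Ins.add w w' a e : Ins W m))
  | .xor w t s => .free (freeB gad (Ins.xor w t s))
  | .flip w t => .free (freeB gad (Ins.flip w t))
  | .call w s => Stage.call (getB w s) (putB w)

/-- per-record unit -/
def unitB (k M r : ℕ) (L : Lay) : ℕ :=
  (r + 1) * (Nat.size M + 1) + (Nat.size M + Nat.size r + sz L + 1) ^ k

/-- the total cost of the recursion -/
noncomputable def costB (τ : ℝ) (W m s : ℕ) (U q : ℕ) : ℕ → ℕ → ℕ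
  | 0, N => N * U * pw τ (m ^ 0 * (q + 1))
  | j + 1, N => N * U * pw τ (m ^ (j + 1) * (q + 1)) + s * costB τ W m s U q j (N / W)

/-- domain of the states -/
def DomZ (W m : ℕ) (z : ZB) : Prop :=
  z.1.2.1.Good ∧ z.1.2.2.1.1.val + m * z.1.2.2.2.val ≤ z.1.2.1.F ∧
    WFS W z.1.2.1 z.1.1.2 z.1.1.1 z.2

end defs

section pure

variable {W m : ℕ} {τ : ℝ}

theorem pass_eq (k M r : ℕ) (L : Lay) : pass k M r L = L.N * unitB k M r L := rfl

theorem costB_mono {s U U' q : ℕ} (h : U ≤ U') (j N : ℕ) :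
    costB τ W m s U q j N ≤ costB τ W m s U' q j N := by
  induction j generalizing N with
  | zero => exact Nat.mul_le_mul_right _ (Nat.mul_le_mul_left _ h)
  | succ j ih =>
    exact Nat.add_le_add (Nat.mul_le_mul_right _ (Nat.mul_le_mul_left _ h))
      (Nat.mul_le_mul_left _ (ih _))

theorem costB_le_real (hm : 0 < m) (hτ : 0 ≤ τ) {s : ℕ} (hs : (s : ℝ) ≤ W * (m : ℝ) ^ τ)
    (U q j N : ℕ) :
    (costB τ W m s U q j N : ℝ) ≤ 2 * (j + 1) * (N * U) * ((m ^ j * (q + 1) : ℕ) : ℝ) ^ τ := by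
  induction j generalizing N with
  | zero =>
    have h := pw_le_two_mul hτ (x := m ^ 0 * (q + 1)) (by positivity)
    have h0 : (0 : ℝ) ≤ (N : ℝ) * U := by positivity
    have h1 := mul_le_mul_of_nonneg_left h h0
    simp only [costB, Nat.cast_mul, Nat.cast_zero, zero_add] at h1 ⊢
    linarith
  | succ j ih =>
    have h := pw_le_two_mul hτ (x := m ^ (j + 1) * (q + 1)) (by positivity)
    have h0 : (0 : ℝ) ≤ (N : ℝ) * U := by positivity
    have h1 := mul_le_mul_of_nonneg_left h h0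
    have h2 := ih (N / W)
    have h3 : (W : ℝ) * ((N / W : ℕ) : ℝ) ≤ N := by exact_mod_cast Nat.mul_div_le N W
    have h4 : ((m ^ (j + 1) * (q + 1) : ℕ) : ℝ) ^ τ =
        (m : ℝ) ^ τ * ((m ^ j * (q + 1) : ℕ) : ℝ) ^ τ := by
      rw [← Real.mul_rpow (by positivity) (by positivity)]
      congr 1
      push_cast
      ring
    set E : ℝ := ((m ^ j * (q + 1) : ℕ) : ℝ) ^ τ with hE
    have hE0 : 0 ≤ E := Real.rpow_nonneg (by positivity) _
    have hm0 : (0 : ℝ) ≤ (m : ℝ) ^ τ := Real.rpow_nonneg (by positivity) _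
    have h5 : (s : ℝ) * (costB τ W m s U q j (N / W) : ℝ) ≤
        (W * (m : ℝ) ^ τ) * (2 * (j + 1) * (((N / W : ℕ) : ℝ) * U) * E) :=
      mul_le_mul hs h2 (by positivity) (by positivity)
    have h6 : (W * (m : ℝ) ^ τ) * (2 * (j + 1) * (((N / W : ℕ) : ℝ) * U) * E) =
        (2 * (j + 1) * U * ((m : ℝ) ^ τ * E)) * (W * ((N / W : ℕ) : ℝ)) := by ring
    have h7 : (2 * (j + 1) * U * ((m : ℝ) ^ τ * E)) * (W * ((N / W : ℕ) : ℝ)) ≤
        (2 * (j + 1) * U * ((m : ℝ) ^ τ * E)) * N :=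
      mul_le_mul_of_nonneg_left h3 (by positivity)
    rw [h4] at h1 ⊢
    simp only [costB, Nat.cast_add, Nat.cast_mul, Nat.cast_one] at h1 ⊢
    nlinarith

theorem costB_le (hm : 0 < m) (hτ : 0 ≤ τ) {s : ℕ} (hs : (s : ℝ) ≤ W * (m : ℝ) ^ τ)
    (U q j N : ℕ) :
    costB τ W m s U q j N ≤ 2 * (N * U * (j + 1) * pw τ (m ^ j * (q + 1))) := by
  have h1 := costB_le_real hm hτ hs U q j N
  have h2 := le_pw τ (m ^ j * (q + 1))
  have h3 := mul_le_mul_of_nonneg_left h2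
    (by positivity : (0 : ℝ) ≤ 2 * (j + 1) * ((N : ℝ) * U))
  have h4 : (costB τ W m s U q j N : ℝ) ≤
      ((2 * (N * U * (j + 1) * pw τ (m ^ j * (q + 1))) : ℕ) : ℝ) := by
    push_cast at h1 h3 ⊢
    linarith
  exact_mod_cast h4

theorem Lay.Good.N_pos {L : Lay} (h : L.Good) : 0 < L.N := by
  have := h.Pre
  have := h.G1
  have := h.R
  have := h.G2
  have := h.Z
  have : 0 < L.g := by have := h.g; omega
  unfold Lay.N Lay.wh Lay.wy
  positivity

theorem F_le_sz (L : Lay) : L.F ≤ sz L := by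
  rw [sz_lay]; omega

theorem unitB_sub (k M r : ℕ) (L : Lay) (W : ℕ) : unitB k M r (L.sub W) ≤ unitB k M r L :=
  Nat.add_le_add_left (Nat.pow_le_pow_left (by have := sz_laySub_le L W; omega) k) _

theorem unitB_mono {k k' : ℕ} (h : k ≤ k') (M r : ℕ) (L : Lay) :
    unitB k M r L ≤ unitB k' M r L :=
  Nat.add_le_add_left (Nat.pow_le_pow_right (by omega) h) _

theorem sub_N_le {L : Lay} (h : W ∣ L.Z) (hW : 0 < W) : (L.sub W).N ≤ L.N := by
  rw [Lay.sub_N' h hW]; exact Nat.div_le_self _ _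

theorem WFS.getD {L : Lay} {r M : ℕ} {ws : List Arr} (h : WFS W L r M ws) (w : Fin W) :
    WFL L r M (ws.getD w []) := h.2 _ (getD_mem _ (h.1 ▸ w.2))

theorem WFS.set' {L : Lay} {r M : ℕ} {ws : List Arr} (h : WFS W L r M ws) (w : ℕ) {s : Arr}
    (hs : WFL L r M s) : WFS W L r M (ws.set w s) :=
  ⟨by simpa using h.1, fun t ht => (List.mem_or_eq_of_mem_set ht).elim (h.2 t) (fun e => e ▸ hs)⟩

theorem grp_le {lo f F : ℕ} (h : lo + m * f ≤ F) (s : Fin m) : lo + s * f + f ≤ F := by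
  have : (s + 1) * f ≤ m * f := Nat.mul_le_mul_right _ s.2
  rw [Nat.add_mul, Nat.one_mul] at this
  omega

theorem gadDom_xor {z : ZB} (h : DomZ W m z) (w : Fin W) {t s : Fin m} (hts : t < s) :
    GadDom (z.1.2.1, (true, ⟨z.1.2.2.1.1.val + t * z.1.2.2.2.val⟩,
      ⟨z.1.2.2.1.1.val + s * z.1.2.2.2.val⟩, ⟨z.1.2.2.2.val⟩), z.2.getD w []) := by
  have h1 := grp_le h.2.1 s
  have h2 : ((t : ℕ) + 1) * z.1.2.2.2.val ≤ s * z.1.2.2.2.val := Nat.mul_le_mul_right _ hts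
  rw [Nat.add_mul, Nat.one_mul] at h2
  refine ⟨h.1, (h.2.2.getD w).1, ?_, ?_, fun _ => h1⟩
  · show z.1.2.2.1.1.val + t * z.1.2.2.2.val + z.1.2.2.2.val ≤
      z.1.2.2.1.1.val + s * z.1.2.2.2.val
    omega
  · show z.1.2.2.1.1.val + s * z.1.2.2.2.val ≤ z.1.2.1.F
    omega

theorem gadDom_flip {z : ZB} (h : DomZ W m z) (w : Fin W) (t : Fin m) :
    GadDom (z.1.2.1, (false, ⟨z.1.2.2.1.1.val + t * z.1.2.2.2.val⟩,
      ⟨z.1.2.2.1.1.val + t * z.1.2.2.2.val + z.1.2.2.2.val⟩, ⟨z.1.2.2.2.val⟩), z.2.getD w []) :=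
  ⟨h.1, (h.2.2.getD w).1, le_rfl, grp_le h.2.1 t, fun e => absurd e (by simp)⟩

theorem WFL.gad {gad : GadT} (hg : GadSpec gad) {L : Lay} {src : Bool} {t s len r M : ℕ}
    {l : Arr} (hd : GadDom (L, (src, ⟨t⟩, ⟨s⟩, ⟨len⟩), l)) (hl : WFL L r M l) :
    WFL L r M (gad (L, (src, ⟨t⟩, ⟨s⟩, ⟨len⟩), l)) :=
  ⟨(hg L src t s len l hd).1.trans hl.1, fun x hx => hl.2 x ((hg L src t s len l hd).2.1 x hx)⟩

theorem DomZ.free {gad : GadT} (hg : GadSpec gad) {z : ZB} (h : DomZ W m z) (ins : Ins W m)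
    (hins : ins.ok) : DomZ W m (freeB gad ins z) := by
  refine ⟨h.1, h.2.1, ?_⟩
  rcases ins with ⟨w, w', a, e⟩ | ⟨w, t, s⟩ | ⟨w, t⟩ | ⟨w, s⟩
  · exact h.2.2.set' w ((h.2.2.getD w).addL (h.2.2.getD w') a e)
  · exact h.2.2.set' w (WFL.gad hg (gadDom_xor h w hins) (h.2.2.getD w))
  · exact h.2.2.set' w (WFL.gad hg (gadDom_flip h w t) (h.2.2.getD w))
  · exact h.2.2.set' w (h.2.2.getD w)

theorem runStages_stageB (gad : GadT) (f : XB → Arr) (P : List (Ins W m)) (z : ZB) :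
    (runStages f (P.map (stageB gad)) z).2 =
      P.foldl (execL gad z.1.1.1 z.1.2.1 z.1.2.2.1.1.val z.1.2.2.2.val
        (fun lo' l' => f (z.1.1, z.1.2.1, (⟨lo'⟩, z.1.2.2.1.2), l'))) z.2 := by
  induction P generalizing z with
  | nil => rfl
  | cons ins P ih =>
    rw [List.map_cons, runStages_cons, ih, List.foldl_cons]
    rcases ins with ⟨w, w', a, e⟩ | ⟨w, t, s⟩ | ⟨w, t⟩ | ⟨w, s⟩ <;> rfl

theorem sum_isCall (gad : GadT) (P : List (Ins W m)) :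
    ((P.map (stageB gad)).map Stage.isCall).sum = ncalls P := by
  induction P with
  | nil => rfl
  | cons ins P ih =>
    rw [List.map_cons, List.map_cons, List.sum_cons, ih]
    rcases ins with ⟨w, w', a, e⟩ | ⟨w, t, s⟩ | ⟨w, t⟩ | ⟨w, s⟩ <;>
      simp [ncalls, List.countP_cons, Ins.isCall, stageB, Nat.add_comm]

theorem dom_pre {x : XB} (h : PartBDom W m x) (hj : x.2.2.1.2.val ≠ 0) :
    W ∣ x.2.1.Z ∧ DomZ W m (preB W m x) ∧ W ^ (x.2.2.1.2.val - 1) ∣ (x.2.1.sub W).Z := by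
  obtain ⟨⟨M, r⟩, L, ⟨⟨lo⟩, ⟨j⟩⟩, l⟩ := x
  obtain ⟨h1, h2, h3, h4⟩ := h
  simp only at h1 h2 h3 h4 hj ⊢
  obtain ⟨j, rfl⟩ : ∃ j', j = j' + 1 := ⟨j - 1, by omega⟩
  have hW : W ∣ L.Z := (Dvd.intro_left _ (pow_succ W j).symm).trans h3
  refine ⟨hW, ⟨h1.sub hW, ?_, length_dealAll _ _, h4.dealAll hW⟩, ?_⟩
  · simpa [preB, pow_succ'] using h2
  · simp only [Nat.add_sub_cancel, Lay.sub_Z]
    exact Nat.dvd_div_of_mul_dvd (by rwa [← pow_succ'])

end pure

end Crest.Agent.X326.B3
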