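import Mathlib

/-!
Row 326 (S0503), part M3: `C^{⊗ f}` on `f` selected address bits. Definitions.

Abstract level: the selected bits of an address form a bit vector `b : Bv` (bit `j` belongs to
chunk `j`; chunk `0` is the fastest one).  A wire carries a function `Bv → V`.  A call on `m * f`
chunks starting at chunk `lo` has `m` groups, group `γ` being the chunks
`lo + γ * f, …, lo + γ * f + f - 1`.  All address operations act by PULL-BACK.

Flat level: `Lay.addr β b` is the flat index of the safe address with spectators `β` and selected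
bits `b` in the layout `[Pre] × [g]^F × [G1] × [R]^F × [G2] × [g]^F × [Z]`.
-/

set_option autoImplicit false

namespace Crest.Agent.X326.B3

/-- bit vectors -/
abbrev Bv : Type := ℕ → ZMod 2

/-- bits `t, …, t + len - 1` receive the bits `s, …, s + len - 1` -/
def xorMap (t s len : ℕ) (b : Bv) : Bv :=
  fun k => if t ≤ k ∧ k < t + len then b k + b (k - t + s) else b k

/-- bits `t, …, t + len - 1` are flipped -/
def flipMap (t len : ℕ) (b : Bv) : Bv :=
  fun k => if t ≤ k ∧ k < t + len then b k + 1 else b k

section Abstract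

variable {Λ V : Type} [CommRing Λ] [AddCommGroup V] [Module Λ V]

/-- the butterfly `C = ((1 + i) + (1 - i) X) / 2` on bit `j` -/
def Cop (i hf : Λ) (j : ℕ) (y : Bv → V) : Bv → V :=
  fun b => (hf * (1 + i)) • y b + (hf * (1 - i)) • y (b + Pi.single j 1)

/-- `C` on the bits `lo, …, lo + n - 1` -/
def Crange (i hf : Λ) (lo : ℕ) : ℕ → (Bv → V) → Bv → V
  | 0, y => y
  | n + 1, y => Cop i hf (lo + n) (Crange i hf lo n y)

end Abstract

/-- instructions on `W` wires, the call having `m` groups -/
inductive Ins (W m : ℕ) : Type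
  /-- wire `w` receives `x w + (a / 2 ^ j) • x w'` -/
  | add (w w' : Fin W) (a : ℤ) (j : ℕ) : Ins W m
  /-- on wire `w`, the bits of group `t` receive the bits of group `s` (an earlier group) -/
  | xor (w : Fin W) (t s : Fin m) : Ins W m
  /-- on wire `w`, the bits of group `t` are flipped -/
  | flip (w : Fin W) (t : Fin m) : Ins W m
  /-- child call on group `s` of wire `w` -/
  | call (w : Fin W) (s : Fin m) : Ins W m

/-- side condition: the source of a `xor` is a slower group than its target -/
def Ins.ok {W m : ℕ} : Ins W m → Prop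
  | .xor _ t s => t < s
  | _ => True

/-- is the instruction a child call? -/
def Ins.isCall {W m : ℕ} : Ins W m → Bool
  | .call _ _ => true
  | _ => false

/-- number of child calls -/
def ncalls {W m : ℕ} (P : List (Ins W m)) : ℕ := P.countP Ins.isCall

section Sem

variable {Λ V : Type} [CommRing Λ] [AddCommGroup V] [Module Λ V]

/-- semantics of one instruction (groups of `f` chunks, starting at chunk `lo`) -/
def Ins.exec {W m : ℕ} (i hf : Λ) (lo f : ℕ) (x : Fin W → Bv → V) : Ins W m → Fin W → Bv → V
  | .add w w' a j => Function.update x w (x w + ((a : Λ) * hf ^ j) • x w')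
  | .xor w t s => Function.update x w (x w ∘ xorMap (lo + t * f) (lo + s * f) f)
  | .flip w t => Function.update x w (x w ∘ flipMap (lo + t * f) f)
  | .call w s => Function.update x w (Crange i hf (lo + s * f) f (x w))

/-- semantics of a program -/
def runIns {W m : ℕ} (i hf : Λ) (lo f : ℕ) (P : List (Ins W m)) (x : Fin W → Bv → V) :
    Fin W → Bv → V :=
  P.foldl (Ins.exec i hf lo f) x

end Sem

/-- The program `P` applies `C` to all `m * f` bits on all wires at once (the content of wire `w`
ends on wire `ρ w`). -/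
structure CProg {W m : ℕ} (P : List (Ins W m)) (ρ : Fin W ≃ Fin W) : Prop where
  ok : ∀ ins ∈ P, ins.ok
  spec : ∀ (Λ V : Type) [CommRing Λ] [AddCommGroup V] [Module Λ V] (i hf : Λ),
    i * i = -1 → 2 * hf = 1 → ∀ (lo f : ℕ) (x : Fin W → Bv → V) (w : Fin W),
      runIns i hf lo f P x (ρ w) = Crange i hf lo (m * f) (x w)

/-! ### the flat layout -/

/-- the layout `[Pre] × [g]^F × [G1] × [R]^F × [G2] × [g]^F × [Z]` (slowest first) -/
structure Lay where
  Pre : ℕ
  g : ℕ
  F : ℕ
  G1 : ℕ
  R : ℕ
  G2 : ℕ
  Z : ℕ

/-- the spectators of an address: `hi` = everything above the chunks, `h j` = upper part of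
chunk `j`, `p` = the field `G2`, `a j` = slot `j` of the lower ancilla, `z` = the suffix -/
structure Base where
  hi : ℕ
  h : ℕ → ℕ
  p : ℕ
  a : ℕ → ℕ
  z : ℕ

/-- the number with digits `d 0, …, d (n-1)` in base `q` -/
def ds (q : ℕ) (d : ℕ → ℕ) (n : ℕ) : ℕ := ∑ j ∈ Finset.range n, d j * q ^ j

namespace Lay

variable (L : Lay)

/-- weight of chunk `0` -/
def wy : ℕ := L.Z * L.g ^ L.F * L.G2

/-- weight of slot `0` of the upper ancilla -/
def wh : ℕ := L.wy * L.R ^ L.F * L.G1

/-- number of addresses -/
def N : ℕ := L.wh * L.g ^ L.F * L.Pre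

/-- the flat index of the address with spectators `β` and selected bits `b` -/
def addr (β : Base) (b : Bv) : ℕ :=
  (β.hi * L.R ^ L.F + ds L.R (fun j => 2 * β.h j + (b j).val) L.F) * L.wy +
    (β.p * L.g ^ L.F + ds L.g β.a L.F) * L.Z + β.z

/-- the spectators are in range, with slack `sy` in the chunks and `sa` in the slots -/
structure Ok (sy sa : ℕ) (β : Base) : Prop where
  hi : β.hi < L.G1 * L.g ^ L.F * L.Pre
  h : ∀ j < L.F, 2 * β.h j + 2 + sy ≤ L.R
  p : β.p < L.G2
  a : ∀ j < L.F, β.a j + 1 + sa ≤ L.g
  z : β.z < L.Z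

/-- safe spectators: slack `2 g` in the chunks, `1` in the slots -/
abbrev Safe (β : Base) : Prop := L.Ok (2 * L.g) 1 β

end Lay

end Crest.Agent.X326.B3
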