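import Crest.Agent.X326.B3.Corr
import Crest.Agent.X326.B3.Adapt
import Crest.Agent.X326.B3.Layer

/-!
Row 326 (S0503), part M3: the unconditional statements.
-/

set_option autoImplicit false

namespace Crest.Agent.X326.B3

/-- **Part B.** -/
theorem partB :
    ∃ W m : ℕ, W = 2 ^ 63 ∧ m = 2 ^ 18 ∧ PartBStatement W m (1 - 1 / (2 : ℝ) ^ 40) :=
  partB_of_main mainB

/-- **The layer oracle of M4.** -/
theorem specLayer :
    M4.SpecLayer (LayerOk 63 (2 ^ 18)) (TLay (1 - 1 / (2 : ℝ) ^ 40) (2 ^ 18)) := by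
  obtain ⟨W, m, hW, hm, h⟩ := partB
  subst hW hm
  exact specLayer_of_partB (by norm_num) (by norm_num) h

end Crest.Agent.X326.B3
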