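import Crest.Agent.X326.B3.Partner

/-!
Row 326 (S0503), part M3: change of radix.  A shape is a list of pairs `(s, s')` with `s ≤ s'`
(innermost field first); `rb S x` rewrites the mixed-radix digits of `x` for the radices `s` with
the radices `s'`.  `embL` spreads a list along `rb S`, `resL` reads it back.
-/

set_option autoImplicit false

namespace Crest.Agent.X326.B3

/-- change of radix (the part above the listed fields is kept) -/
def rb : List (ℕ × ℕ) → ℕ → ℕ
  | [], x => x
  | p :: S, x => x % p.1 + p.2 * rb S (x / p.1)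

/-- the image of `[0, prod s * H)` under `rb S` -/
def Inb : List (ℕ × ℕ) → ℕ → ℕ → Prop
  | [], H, y => y < H
  | p :: S, H, y => y % p.2 < p.1 ∧ Inb S H (y / p.2)

/-- one step of the membership test -/
def inbStep (st : ℕ × Bool) (p : ℕ × ℕ) : ℕ × Bool :=
  (st.1 / p.2, st.2 && decide (st.1 % p.2 < p.1))

/-- the membership test -/
def inb (S : List (ℕ × ℕ)) (H y : ℕ) : Bool :=
  (S.foldl inbStep (y, true)).2 && decide ((S.foldl inbStep (y, true)).1 < H)

/-- product of the source radices -/
def prodS (S : List (ℕ × ℕ)) : ℕ := (S.map Prod.fst).prod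

/-- product of the target radices -/
def prodT (S : List (ℕ × ℕ)) : ℕ := (S.map Prod.snd).prod

/-- a shape of positive, growing radices -/
def Grow (S : List (ℕ × ℕ)) : Prop := ∀ p ∈ S, 0 < p.1 ∧ p.1 ≤ p.2

theorem foldl_inbStep (S : List (ℕ × ℕ)) (H y : ℕ) (c : Bool) :
    ((S.foldl inbStep (y, c)).2 && decide ((S.foldl inbStep (y, c)).1 < H)) = true ↔
      c = true ∧ Inb S H y := by
  induction S generalizing y c with
  | nil =>
    simp only [List.foldl_nil, Inb, Bool.and_eq_true]
    exact and_congr_right (fun _ => decide_eq_true_iff)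
  | cons p S ih => rw [List.foldl_cons, inbStep, ih]; simp [Inb, and_assoc]

theorem inb_iff (S : List (ℕ × ℕ)) (H y : ℕ) : inb S H y = true ↔ Inb S H y := by
  rw [inb, foldl_inbStep]; simp

theorem Grow.tail {p : ℕ × ℕ} {S : List (ℕ × ℕ)} (h : Grow (p :: S)) : Grow S :=
  fun q hq => h q (List.mem_cons_of_mem _ hq)

theorem rb_strictMono {S : List (ℕ × ℕ)} (h : Grow S) : StrictMono (rb S) := by
  induction S with
  | nil => exact strictMono_id
  | cons p S ih =>
    intro x y hxy
    obtain ⟨h0, h1⟩ := h p (by simp)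
    have hx := Nat.mod_lt x h0
    simp only [rb]
    rcases (Nat.div_le_div_right (c := p.1) hxy.le).eq_or_lt with e | e
    · have h2 := Nat.div_add_mod x p.1
      have h3 := Nat.div_add_mod y p.1
      rw [e] at h2 ⊢
      omega
    · have h2 : p.2 * (rb S (x / p.1) + 1) ≤ p.2 * rb S (y / p.1) :=
        Nat.mul_le_mul_left _ (ih h.tail e)
      rw [mul_add] at h2
      omega

theorem inb_rb {S : List (ℕ × ℕ)} (h : Grow S) (H x : ℕ) :
    Inb S H (rb S x) ↔ x < prodS S * H := by
  induction S generalizing x with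
  | nil => simp [Inb, rb, prodS]
  | cons p S ih =>
    obtain ⟨h0, h1⟩ := h p (by simp)
    have hx := Nat.mod_lt x h0
    have e1 : (x % p.1 + p.2 * rb S (x / p.1)) % p.2 = x % p.1 := by
      rw [Nat.add_mul_mod_self_left, Nat.mod_eq_of_lt (by omega)]
    have e2 : (x % p.1 + p.2 * rb S (x / p.1)) / p.2 = rb S (x / p.1) := by
      rw [Nat.add_mul_div_left _ _ (by omega), Nat.div_eq_of_lt (by omega), zero_add]
    have e3 : prodS (p :: S) * H = prodS S * H * p.1 := by simp [prodS]; ring
    simp only [Inb, rb]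
    rw [e1, e2, ih h.tail, e3, Nat.div_lt_iff_lt_mul h0]
    simp [hx]

theorem exists_rb_of_inb {S : List (ℕ × ℕ)} {H y : ℕ} (hy : Inb S H y) : ∃ x, rb S x = y := by
  induction S generalizing y with
  | nil => exact ⟨y, rfl⟩
  | cons p S ih =>
    obtain ⟨h1, h2⟩ := hy
    obtain ⟨u, hu⟩ := ih h2
    refine ⟨y % p.2 + p.1 * u, ?_⟩
    simp only [rb]
    rw [Nat.add_mul_mod_self_left, Nat.mod_eq_of_lt h1, Nat.add_mul_div_left _ _ (by omega),
      Nat.div_eq_of_lt h1, zero_add, hu, Nat.mod_add_div]

theorem rb_lt {S : List (ℕ × ℕ)} (h : Grow S) {H x : ℕ} (hx : x < prodS S * H) :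
    rb S x < prodT S * H := by
  induction S generalizing x with
  | nil => simpa [rb, prodS, prodT] using hx
  | cons p S ih =>
    obtain ⟨h0, h1⟩ := h p (by simp)
    have hx' := Nat.mod_lt x h0
    have e3 : prodS (p :: S) * H = prodS S * H * p.1 := by simp [prodS]; ring
    have e4 : prodT (p :: S) * H = p.2 * (prodT S * H) := by simp [prodT]; ring
    rw [e3, ← Nat.div_lt_iff_lt_mul h0] at hx
    have h2 : p.2 * (rb S (x / p.1) + 1) ≤ p.2 * (prodT S * H) :=
      Nat.mul_le_mul_left _ (ih h.tail hx)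
    rw [mul_add] at h2
    simp only [rb]
    omega

theorem filter_inb {S : List (ℕ × ℕ)} (h : Grow S) {H N' : ℕ} (hN : prodT S * H ≤ N') :
    (List.range N').filter (inb S H) = (List.range (prodS S * H)).map (rb S) := by
  refine List.Pairwise.eq_of_mem_iff (r := (· < ·)) (List.pairwise_lt_range.filter _)
    (List.pairwise_lt_range.map _ (fun a b hab => rb_strictMono h hab)) (fun y => ?_)
  simp only [List.mem_filter, List.mem_range, List.mem_map, inb_iff]
  constructor
  · rintro ⟨_, hy⟩
    obtain ⟨x, rfl⟩ := exists_rb_of_inb hy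
    exact ⟨x, (inb_rb h H x).1 hy, rfl⟩
  · rintro ⟨x, hx, rfl⟩
    exact ⟨(rb_lt h hx).trans_le hN, (inb_rb h H x).2 hx⟩

/-! ### spreading a list and reading it back -/

section Lists

variable {α : Type}

/-- the flags of the image -/
def flags (S : List (ℕ × ℕ)) (H N' : ℕ) : List Bool := (List.range N').map (inb S H)

/-- spread `l` along the flags `fl`, the other places receive `z` -/
def embL (fl : List Bool) (z : α) (l : List α) : List α :=
  mergeBy fl l (List.replicate (fl.length - l.length) z)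

variable {S : List (ℕ × ℕ)} {H N' : ℕ}

@[simp] theorem length_flags : (flags S H N').length = N' := by simp [flags]

theorem embL_eq (h : Grow S) (hN : prodT S * H ≤ N') (z d : α) {l : List α}
    (hl : l.length = prodS S * H) :
    embL (flags S H N') z l = (List.range N').map
      (fun y => if inb S H y then l.getD (Function.invFun (rb S) y) d else z) := by
  have hinv := Function.leftInverse_invFun (rb_strictMono h).injective
  have e1 : l = ((List.range N').filter (inb S H)).map
      (fun y => l.getD (Function.invFun (rb S) y) d) := by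
    rw [filter_inb h hN, List.map_map]
    conv_lhs => rw [← map_getD_range l d, hl]
    exact List.map_congr_left (fun x _ => by simp only [Function.comp, hinv x])
  have e2 : List.replicate (N' - l.length) z =
      ((List.range N').filter (fun y => !inb S H y)).map (fun _ => z) := by
    rw [List.map_const']
    congr 1
    have h1 := List.length_eq_length_filter_add (l := List.range N') (inb S H)
    rw [filter_inb h hN] at h1
    simp only [List.length_range, List.length_map] at h1
    omega
  rw [embL, length_flags, e2]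
  conv_lhs => rw [e1]
  exact mergeBy_map _ _ _ _

theorem length_embL (h : Grow S) (hN : prodT S * H ≤ N') (z : α) {l : List α}
    (hl : l.length = prodS S * H) : (embL (flags S H N') z l).length = N' := by
  rw [embL_eq h hN z z hl]; simp

theorem getD_embL (h : Grow S) (hN : prodT S * H ≤ N') (z d : α) {l : List α}
    (hl : l.length = prodS S * H) {x : ℕ} (hx : x < prodS S * H) :
    (embL (flags S H N') z l).getD (rb S x) d = l.getD x d := by
  rw [embL_eq h hN z d hl, getD_map_range _ ((rb_lt h hx).trans_le hN),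
    if_pos ((inb_iff _ _ _).2 ((inb_rb h H x).2 hx)),
    Function.leftInverse_invFun (rb_strictMono h).injective x]

theorem mem_of_mem_embL {fl : List Bool} {z a : α} {l : List α} (h : a ∈ embL fl z l) :
    a ∈ l ∨ a = z :=
  (mem_of_mem_mergeBy h).imp_right List.eq_of_mem_replicate

theorem filterBy_flags (h : Grow S) (hN : prodT S * H ≤ N') (d : α) {l : List α}
    (hl : l.length = N') :
    filterBy (flags S H N') l = (List.range (prodS S * H)).map (fun x => l.getD (rb S x) d) := by
  conv_lhs => rw [← map_getD_range l d, hl]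
  rw [flags, filterBy_map, filter_inb h hN, List.map_map]
  rfl

end Lists

/-! ### the change of radix between two layouts -/

theorem rb_cons {s s' u : ℕ} (hu : u < s) (S : List (ℕ × ℕ)) (v : ℕ) :
    rb ((s, s') :: S) (u + s * v) = u + s' * rb S v := by
  simp only [rb]
  rw [Nat.add_mul_mod_self_left, Nat.mod_eq_of_lt hu, Nat.add_mul_div_left _ _ (by omega),
    Nat.div_eq_of_lt hu, zero_add]

theorem rb_replicate {s s' n : ℕ} {d : ℕ → ℕ} (hd : ∀ j < n, d j < s) (S : List (ℕ × ℕ))
    (v : ℕ) : rb (List.replicate n (s, s') ++ S) (ds s d n + s ^ n * v) =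
      ds s' d n + s' ^ n * rb S v := by
  induction n generalizing d with
  | zero => simp [ds]
  | succ n ih =>
    have e : ds s d (n + 1) + s ^ (n + 1) * v =
        d 0 + s * (ds s (fun j => d (j + 1)) n + s ^ n * v) := by
      rw [ds_succ']; ring
    rw [List.replicate_succ, List.cons_append, e, rb_cons (hd 0 (by omega)),
      ih (fun j hj => hd (j + 1) (by omega)), ds_succ']
    ring

/-- the shape that turns the layout `L0` into the layout `L` -/
def shape (L0 L : Lay) : List (ℕ × ℕ) :=
  (L0.Z, L.Z) :: (List.replicate L0.F (L0.g, L.g) ++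
    (L0.G2, L.G2) :: List.replicate L0.F (L0.R, L.R))

theorem prodS_shape (L0 L : Lay) : prodS (shape L0 L) = L0.wy * L0.R ^ L0.F := by
  simp [prodS, shape, Lay.wy]; ring

theorem prodT_shape {L0 L : Lay} (hF : L.F = L0.F) : prodT (shape L0 L) = L.wy * L.R ^ L.F := by
  simp [prodT, shape, Lay.wy, hF]; ring

theorem addr_horner (L : Lay) (β : Base) (b : Bv) :
    L.addr β b = β.z + L.Z * (ds L.g β.a L.F + L.g ^ L.F *
      (β.p + L.G2 * (ds L.R (Lay.ydig β b) L.F + L.R ^ L.F * β.hi))) := by
  rw [Lay.addr_eq, Lay.low, Lay.wy]; ring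

theorem rb_addr {L0 L : Lay} (hF : L.F = L0.F) {β : Base} {sy sa : ℕ} (h : L0.Ok sy sa β)
    (b : Bv) : rb (shape L0 L) (L0.addr β b) = L.addr β b := by
  rw [addr_horner, addr_horner, shape, rb_cons h.z,
    rb_replicate (fun j hj => by have := h.a j hj; omega), rb_cons h.p,
    ← List.append_nil (List.replicate L0.F (L0.R, L.R)),
    rb_replicate (fun j hj => Lay.ydig_lt h b hj), hF]
  rfl

/-! ### every index is an address -/

theorem ds_digits (q u n : ℕ) : ds q (fun j => u / q ^ j % q) n = u % q ^ n := by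
  induction n with
  | zero => simp [ds, Nat.mod_one]
  | succ n ih => rw [ds_succ, ih, Nat.mod_pow_succ]; ring

theorem exists_addr (L : Lay) (hR : 2 ∣ L.R) {x : ℕ} (hx : x < L.N) :
    ∃ (β : Base) (b : Bv), L.Ok 0 0 β ∧ L.addr β b = x := by
  have hN : L.N = L.Z * (L.g ^ L.F * (L.G2 * (L.R ^ L.F * (L.G1 * L.g ^ L.F * L.Pre)))) := by
    unfold Lay.N Lay.wh Lay.wy; ring
  have hpos : 0 < L.N := by omega
  rw [hN] at hx hpos
  have hZ : 0 < L.Z := Nat.pos_of_mul_pos_right hpos
  have h1 := Nat.pos_of_mul_pos_left hpos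
  have hg : 0 < L.g ^ L.F := Nat.pos_of_mul_pos_right h1
  have h2 := Nat.pos_of_mul_pos_left h1
  have hG : 0 < L.G2 := Nat.pos_of_mul_pos_right h2
  have h3 := Nat.pos_of_mul_pos_left h2
  have hRF : 0 < L.R ^ L.F := Nat.pos_of_mul_pos_right h3
  set x1 := x / L.Z with hx1
  set x2 := x1 / L.g ^ L.F with hx2
  set x3 := x2 / L.G2 with hx3
  have hb : ∀ c : ℕ, ((c : ZMod 2)).val = c % 2 := fun c => ZMod.val_natCast 2 c
  refine ⟨⟨x3 / L.R ^ L.F, fun j => x3 / L.R ^ j % L.R / 2, x2 % L.G2,
    fun j => x1 / L.g ^ j % L.g, x % L.Z⟩, fun j => ((x3 / L.R ^ j % L.R : ℕ) : ZMod 2),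
    ⟨?_, fun j hj => ?_, Nat.mod_lt _ hG, fun j hj => ?_, Nat.mod_lt _ hZ⟩, ?_⟩
  · refine Nat.div_lt_of_lt_mul (Nat.div_lt_of_lt_mul (Nat.div_lt_of_lt_mul
      (Nat.div_lt_of_lt_mul hx)))
  · have : 0 < L.R := Nat.pos_of_ne_zero (fun e => by
      rw [e, zero_pow (by omega)] at hRF; omega)
    have := Nat.mod_lt (x3 / L.R ^ j) this
    simp only
    omega
  · have : 0 < L.g := Nat.pos_of_ne_zero (fun e => by
      rw [e, zero_pow (by omega)] at hg; omega)
    have := Nat.mod_lt (x1 / L.g ^ j) this
    simp only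
    omega
  · rw [addr_horner]
    have e : ds L.R (Lay.ydig ⟨x3 / L.R ^ L.F, fun j => x3 / L.R ^ j % L.R / 2, x2 % L.G2,
        fun j => x1 / L.g ^ j % L.g, x % L.Z⟩ (fun j => ((x3 / L.R ^ j % L.R : ℕ) : ZMod 2))) L.F =
        x3 % L.R ^ L.F := by
      rw [← ds_digits]
      refine ds_congr' (fun j _ => ?_)
      simp only [Lay.ydig, hb]
      omega
    rw [e]
    simp only [ds_digits]
    rw [Nat.mod_add_div, Nat.mod_add_div, Nat.mod_add_div, Nat.mod_add_div]

/-! ### the blow-up -/

theorem add_pow_le_three_mul {a b n : ℕ} (h : n * b ≤ a) : (a + b) ^ n ≤ 3 * a ^ n := by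
  rcases Nat.eq_zero_or_pos a with rfl | ha
  · rcases Nat.eq_zero_or_pos n with rfl | hn
    · simp
    · have : b = 0 := by nlinarith
      subst this
      simp [zero_pow hn.ne']
  have ha' : (0 : ℝ) < a := by exact_mod_cast ha
  have h1 : ((a : ℝ) + b) = a * (b / a + 1) := by field_simp; ring
  have h2 : ((b : ℝ) / a + 1) ^ n ≤ Real.exp (b / a) ^ n :=
    pow_le_pow_left₀ (by positivity) (Real.add_one_le_exp _) n
  have h3 : Real.exp (b / a) ^ n ≤ Real.exp 1 := by
    rw [← Real.exp_nat_mul]
    apply Real.exp_le_exp.2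
    rw [← mul_div_assoc, div_le_one ha']
    exact_mod_cast h
  have h4 : Real.exp 1 ≤ 3 := Real.exp_one_lt_three.le
  have h5 : (((a + b) ^ n : ℕ) : ℝ) ≤ ((3 * a ^ n : ℕ) : ℝ) := by
    push_cast
    rw [h1, mul_pow, mul_comm]
    exact mul_le_mul_of_nonneg_right (h2.trans (h3.trans h4)) (by positivity)
  exact_mod_cast h5

end Crest.Agent.X326.B3
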