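import Mathlib

/-!
Row 326 (S0503), part M3: Fourier multipliers for a finite `F₂`-space acting by commuting
involutions on a module, and the quadratic phases `i ^ (ξᵀ e ξ)`.
-/

set_option autoImplicit false
set_option linter.unusedSectionVars false

namespace Crest.Agent.X326.B3

open Matrix

section Sign

variable (Λ : Type) [CommRing Λ]

/-- the sign `(-1) ^ z` -/
def sg (z : ZMod 2) : Λ := if z = 0 then 1 else -1

variable {Λ}

@[simp] theorem sg_zero : sg Λ 0 = 1 := by simp [sg]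

@[simp] theorem sg_one : sg Λ 1 = -1 := by simp [sg]

theorem zmod2_cases (z : ZMod 2) : z = 0 ∨ z = 1 := by
  revert z; decide

theorem sg_add (a b : ZMod 2) : sg Λ (a + b) = sg Λ a * sg Λ b := by
  have h11 : (1 : ZMod 2) + 1 = 0 := by decide
  rcases zmod2_cases a with rfl | rfl <;> rcases zmod2_cases b with rfl | rfl <;> simp [h11]

theorem sg_sum {β : Type} (s : Finset β) (z : β → ZMod 2) :
    sg Λ (∑ b ∈ s, z b) = ∏ b ∈ s, sg Λ (z b) := by
  classical
  induction s using Finset.induction_on with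
  | empty => simp
  | insert a s ha ih => rw [Finset.sum_insert ha, Finset.prod_insert ha, sg_add, ih]

variable {α : Type} [Fintype α] [DecidableEq α]

/-- orthogonality of the characters -/
theorem sum_sg_dot (g : α → ZMod 2) :
    ∑ ξ : α → ZMod 2, sg Λ (ξ ⬝ᵥ g) = if g = 0 then 2 ^ Fintype.card α else 0 := by
  have h1 : ∀ ξ : α → ZMod 2, sg Λ (ξ ⬝ᵥ g) = ∏ a, sg Λ (ξ a * g a) := fun ξ => sg_sum _ _
  simp only [h1]
  rw [← Fintype.piFinset_univ, ← Finset.prod_univ_sum (fun _ => Finset.univ)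
    (fun a (z : ZMod 2) => sg Λ (z * g a))]
  have h2 : ∀ a, ∑ z : ZMod 2, sg Λ (z * g a) = if g a = 0 then 2 else 0 := by
    intro a
    have hu : (Finset.univ : Finset (ZMod 2)) = {0, 1} := by decide
    rw [hu, Finset.sum_pair (by decide)]
    rcases zmod2_cases (g a) with h | h <;> simp [h]
    norm_num
  simp only [h2]
  split_ifs with h
  · subst h
    simp
  · obtain ⟨a, ha⟩ := Function.ne_iff.1 h
    exact Finset.prod_eq_zero (Finset.mem_univ a) (if_neg ha)

end Sign

section Mult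

variable {Λ M : Type} [CommRing Λ] [AddCommGroup M] [Module Λ M]
variable {α : Type} [Fintype α] [DecidableEq α]

/-- the convolution kernel of a multiplier -/
def kern (hf : Λ) (φ : (α → ZMod 2) → Λ) (g : α → ZMod 2) : Λ :=
  hf ^ Fintype.card α * ∑ ξ, φ ξ * sg Λ (ξ ⬝ᵥ g)

theorem add_self_pi (g : α → ZMod 2) : g + g = 0 := by
  ext a
  exact CharTwo.add_self_eq_zero _

/-- Fourier inversion -/
theorem sum_kern_sg {hf : Λ} (h2 : 2 * hf = 1) (φ : (α → ZMod 2) → Λ) (ζ : α → ZMod 2) :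
    ∑ g, kern hf φ g * sg Λ (ζ ⬝ᵥ g) = φ ζ := by
  unfold kern
  simp only [mul_assoc, Finset.sum_mul]
  rw [← Finset.mul_sum, Finset.sum_comm]
  have h1 : ∀ ξ : α → ZMod 2, ∑ g : α → ZMod 2, φ ξ * (sg Λ (ξ ⬝ᵥ g) * sg Λ (ζ ⬝ᵥ g)) =
      φ ξ * if ξ + ζ = 0 then 2 ^ Fintype.card α else 0 := by
    intro ξ
    rw [← Finset.mul_sum, ← sum_sg_dot]
    congr 1
    refine Finset.sum_congr rfl fun g _ => ?_
    rw [← sg_add, ← add_dotProduct, dotProduct_comm]
  simp only [h1]
  rw [Finset.sum_eq_single ζ]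
  · rw [if_pos (add_self_pi ζ), mul_left_comm, ← mul_pow, mul_comm hf, h2, one_pow, mul_one]
  · intro ξ _ hξ
    rw [if_neg, mul_zero]
    intro h
    apply hξ
    rw [← add_zero ξ, ← add_self_pi ζ, ← add_assoc, h, zero_add]
  · simp

/-- the operator with multiplier `φ` -/
def mult (hf : Λ) (τ : (α → ZMod 2) → Module.End Λ M) (φ : (α → ZMod 2) → Λ) :
    Module.End Λ M :=
  ∑ g, kern hf φ g • τ g

variable {hf : Λ} {τ : (α → ZMod 2) → Module.End Λ M}

theorem mult_add (φ ψ : (α → ZMod 2) → Λ) :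
    mult hf τ (fun ξ => φ ξ + ψ ξ) = mult hf τ φ + mult hf τ ψ := by
  unfold mult kern
  rw [← Finset.sum_add_distrib]
  refine Finset.sum_congr rfl fun g _ => ?_
  rw [← add_smul, ← mul_add, ← Finset.sum_add_distrib]
  simp only [add_mul]

theorem mult_smul (c : Λ) (φ : (α → ZMod 2) → Λ) :
    mult hf τ (fun ξ => c * φ ξ) = c • mult hf τ φ := by
  unfold mult kern
  rw [Finset.smul_sum]
  refine Finset.sum_congr rfl fun g _ => ?_
  rw [smul_smul, mul_left_comm, Finset.mul_sum _ _ c]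
  simp only [mul_assoc]

theorem mult_zero : mult hf τ (fun _ => 0) = 0 := by
  simp [mult, kern]

theorem mult_sum {β : Type} (s : Finset β) (φ : β → (α → ZMod 2) → Λ) :
    mult hf τ (fun ξ => ∑ b ∈ s, φ b ξ) = ∑ b ∈ s, mult hf τ (φ b) := by
  classical
  induction s using Finset.induction_on with
  | empty => simpa using mult_zero
  | insert a s ha ih =>
    simp only [Finset.sum_insert ha]
    rw [mult_add, ih]

theorem mult_one (h2 : 2 * hf = 1) (h0 : τ 0 = 1) : mult hf τ (fun _ => 1) = 1 := by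
  unfold mult kern
  rw [Finset.sum_eq_single 0]
  · simp only [one_mul, sum_sg_dot, if_true]
    rw [← mul_pow, mul_comm hf, h2, one_pow, one_smul, h0]
  · intro g _ hg
    simp only [one_mul, sum_sg_dot, if_neg hg, mul_zero, zero_smul]
  · simp

theorem tau_mul_mult (hτ : ∀ a b, τ (a + b) = τ a * τ b) (t : α → ZMod 2)
    (φ : (α → ZMod 2) → Λ) :
    τ t * mult hf τ φ = mult hf τ (fun ξ => sg Λ (ξ ⬝ᵥ t) * φ ξ) := by
  unfold mult
  rw [Finset.mul_sum, ← Equiv.sum_comp (Equiv.addLeft t)]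
  refine Finset.sum_congr rfl fun g _ => ?_
  simp only [Equiv.coe_addLeft]
  rw [mul_smul_comm, ← hτ, ← add_assoc, add_self_pi, zero_add]
  congr 1
  unfold kern
  congr 1
  refine Finset.sum_congr rfl fun ξ _ => ?_
  rw [dotProduct_add, sg_add]
  ring

theorem mult_mul_mult (h2 : 2 * hf = 1) (hτ : ∀ a b, τ (a + b) = τ a * τ b)
    (φ ψ : (α → ZMod 2) → Λ) :
    mult hf τ φ * mult hf τ ψ = mult hf τ (fun ξ => φ ξ * ψ ξ) := by
  conv_lhs => rw [mult, Finset.sum_mul]
  simp only [smul_mul_assoc, tau_mul_mult hτ, ← mult_smul]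
  rw [← mult_sum]
  congr 1
  funext ξ
  simp only [← mul_assoc]
  rw [← Finset.sum_mul, sum_kern_sg h2]

end Mult

/-! ### quadratic phases -/

section Phase

/-- the lift `ZMod 2 → ZMod 4` with values `0`, `1` -/
def lf (z : ZMod 2) : ZMod 4 := (z.val : ZMod 4)

theorem lf_zero : lf 0 = 0 := by decide

theorem lf_add (a b : ZMod 2) : lf (a + b) = lf a + lf b + 2 * (lf a * lf b) := by
  revert a b; decide

theorem lf_mul (a b : ZMod 2) : lf (a * b) = lf a * lf b := by
  revert a b; decide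

theorem lf_mul_self (a : ZMod 2) : lf a * lf a = lf a := by
  revert a; decide

theorem two_mul_lf_add (a b : ZMod 2) : 2 * lf (a + b) = 2 * lf a + 2 * lf b := by
  revert a b; decide

theorem two_mul_lf_sum {β : Type} (s : Finset β) (z : β → ZMod 2) :
    2 * lf (∑ b ∈ s, z b) = 2 * ∑ b ∈ s, lf (z b) := by
  classical
  induction s using Finset.induction_on with
  | empty => simp [lf_zero]
  | insert a s ha ih =>
    rw [Finset.sum_insert ha, Finset.sum_insert ha, two_mul_lf_add, ih, mul_add]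

theorem lf_sum {β : Type} (s : Finset β) (z : β → ZMod 2) :
    lf (∑ b ∈ s, z b) = (∑ b ∈ s, lf (z b)) ^ 2 := by
  classical
  induction s using Finset.induction_on with
  | empty => simp [lf_zero]
  | insert a s ha ih =>
    rw [Finset.sum_insert ha, Finset.sum_insert ha, lf_add]
    have h1 := two_mul_lf_sum s z
    have h2 := lf_mul_self (z a)
    linear_combination ih + lf (z a) * h1 - h2

variable {ι : Type} [Fintype ι] [DecidableEq ι]

theorem two_mul_sum_symm (S : ι → ι → ZMod 4) (hS : ∀ a b, S a b = S b a) :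
    2 * ∑ a, ∑ b, S a b = 2 * ∑ a, S a a := by
  have h1 : ∑ p ∈ (Finset.univ : Finset ι).offDiag, 2 * S p.1 p.2 = 0 := by
    refine Finset.sum_involution (fun p _ => p.swap) (fun p _ => ?_) (fun p hp _ => ?_)
      (fun p hp => ?_) (fun p _ => rfl)
    · simp only [Prod.fst_swap, Prod.snd_swap]
      rw [hS p.2 p.1]
      have : (4 : ZMod 4) = 0 := by decide
      linear_combination S p.1 p.2 * this
    · intro h
      exact (Finset.mem_offDiag.1 hp).2.2 (congrArg Prod.snd h)
    · simp only [Finset.mem_offDiag, Finset.mem_univ, true_and] at hp ⊢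
      exact Ne.symm hp
  rw [← Finset.sum_product' (f := S), ← Finset.diag_union_offDiag,
    Finset.sum_union (Finset.disjoint_diag_offDiag _), mul_add, Finset.mul_sum _ _ 2,
    Finset.mul_sum _ _ 2, h1, add_zero, Finset.sum_diag, Finset.mul_sum]

/-- the quadratic form with values in `ZMod 4` attached to a matrix over `ZMod 2` -/
def Qf (e : Matrix ι ι (ZMod 2)) (ξ : ι → ZMod 2) : ZMod 4 :=
  ∑ a, ∑ b, lf (e a b) * lf (ξ a) * lf (ξ b)

theorem Qf_add {e e' : Matrix ι ι (ZMod 2)} (he : e.IsSymm) (he' : e'.IsSymm)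
    (ξ : ι → ZMod 2) :
    Qf (e + e') ξ = Qf e ξ + Qf e' ξ + 2 * lf (ξ ⬝ᵥ fun a => e a a * e' a a) := by
  have h1 := two_mul_sum_symm (fun a b => lf (e a b) * lf (e' a b) * lf (ξ a) * lf (ξ b))
    (fun a b => by rw [he.apply a b, he'.apply a b]; ring)
  have h2 : ∑ a, lf (e a a) * lf (e' a a) * lf (ξ a) * lf (ξ a) =
      ∑ a, lf (ξ a * (e a a * e' a a)) := by
    refine Finset.sum_congr rfl fun a _ => ?_
    rw [lf_mul, lf_mul, mul_assoc, lf_mul_self]
    ring
  unfold dotProduct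
  rw [two_mul_lf_sum, ← h2, ← h1]
  unfold Qf
  simp only [Finset.mul_sum, ← Finset.sum_add_distrib, Matrix.add_apply, lf_add]
  refine Finset.sum_congr rfl fun a _ => Finset.sum_congr rfl fun b _ => ?_
  ring

theorem Qf_vecMulVec (u ξ : ι → ZMod 2) : Qf (vecMulVec u u) ξ = lf (ξ ⬝ᵥ u) := by
  unfold dotProduct Qf
  rw [lf_sum, sq, Finset.sum_mul_sum]
  refine Finset.sum_congr rfl fun a _ => Finset.sum_congr rfl fun b _ => ?_
  rw [vecMulVec_apply, lf_mul, lf_mul, lf_mul]
  ring

theorem Qf_one (ξ : ι → ZMod 2) : Qf (1 : Matrix ι ι (ZMod 2)) ξ = ∑ a, lf (ξ a) := by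
  unfold Qf
  refine Finset.sum_congr rfl fun a _ => ?_
  rw [Finset.sum_eq_single a]
  · have : lf 1 = 1 := by decide
    rw [Matrix.one_apply_eq, this, one_mul, lf_mul_self]
  · intro b _ hb
    rw [Matrix.one_apply_ne (Ne.symm hb), lf_zero, zero_mul, zero_mul]
  · simp

variable {Λ : Type} [CommRing Λ]

/-- the power `i ^ n` for `n` modulo four -/
def ipw (i : Λ) (n : ZMod 4) : Λ := i ^ n.val

variable {i : Λ}

theorem ipw_zero : ipw i 0 = 1 := by simp [ipw]

theorem ipw_add (hi : i * i = -1) (a b : ZMod 4) : ipw i (a + b) = ipw i a * ipw i b := by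
  have h4 : i ^ 4 = 1 := by
    calc i ^ 4 = (i * i) * (i * i) := by ring
      _ = 1 := by rw [hi]; ring
  unfold ipw
  rw [ZMod.val_add, ← pow_add]
  conv_rhs => rw [← Nat.mod_add_div (a.val + b.val) 4, pow_add, pow_mul, h4, one_pow, mul_one]

theorem ipw_sum (hi : i * i = -1) {β : Type} (s : Finset β) (z : β → ZMod 4) :
    ipw i (∑ b ∈ s, z b) = ∏ b ∈ s, ipw i (z b) := by
  classical
  induction s using Finset.induction_on with
  | empty => simp [ipw_zero]
  | insert a s ha ih => rw [Finset.sum_insert ha, Finset.prod_insert ha, ipw_add hi, ih]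

theorem ipw_two_mul_lf (hi : i * i = -1) (z : ZMod 2) : ipw i (2 * lf z) = sg Λ z := by
  rcases zmod2_cases z with rfl | rfl
  · simp [lf_zero, ipw_zero]
  · have : (2 * lf 1).val = 2 := by decide
    rw [ipw, this, sg_one, sq, hi]

theorem ipw_lf {hf : Λ} (h2 : 2 * hf = 1) (z : ZMod 2) :
    ipw i (lf z) = hf * (1 + i) + hf * (1 - i) * sg Λ z := by
  rcases zmod2_cases z with rfl | rfl
  · rw [lf_zero, ipw_zero, sg_zero]
    linear_combination -h2
  · have : (lf 1).val = 1 := by decide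
    rw [ipw, this, sg_one]
    linear_combination (-i) * h2

end Phase

end Crest.Agent.X326.B3
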