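import Crest.Agent.X326.B3.Defs
import Crest.Agent.X326.B3.Walsh
import Crest.Agent.X326.Net.Frame

/-!
Row 326 (S0503), part M3: the frames of the butterfly network on functions `Bv → V`.
`Phi e` is the operator with multiplier `∏ c, i ^ (ξ_cᵀ e ξ_c)` (one factor per column `c`);
an atom `u uᵀ` acts as `C` along the vectors `u ⊗ c` followed by a translation.
-/

set_option autoImplicit false
set_option linter.unusedSectionVars false

namespace Crest.Agent.X326.B3

open Matrix

section Ops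

variable {Λ V : Type} [CommRing Λ] [AddCommGroup V] [Module Λ V]

/-- translation by the vector `z` -/
def trE (Λ : Type) [CommRing Λ] {V : Type} [AddCommGroup V] [Module Λ V] (z : Bv) :
    Module.End Λ (Bv → V) where
  toFun y := fun b => y (b + z)
  map_add' _ _ := rfl
  map_smul' _ _ := rfl

theorem trE_apply (z : Bv) (y : Bv → V) (b : Bv) : trE Λ z y b = y (b + z) := rfl

theorem trE_zero : (trE Λ 0 : Module.End Λ (Bv → V)) = 1 := by
  ext y b
  simp [trE_apply]

theorem trE_add (z z' : Bv) :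
    (trE Λ (z + z') : Module.End Λ (Bv → V)) = trE Λ z * trE Λ z' := by
  refine LinearMap.ext fun y => funext fun b => ?_
  simp [trE_apply, add_assoc]

/-- the butterfly along the vector `z` -/
def Cv (i hf : Λ) (z : Bv) : Module.End Λ (Bv → V) :=
  (hf * (1 + i)) • 1 + (hf * (1 - i)) • trE Λ z

theorem Cv_apply (i hf : Λ) (z : Bv) (y : Bv → V) (b : Bv) :
    Cv i hf z y b = (hf * (1 + i)) • y b + (hf * (1 - i)) • y (b + z) := rfl

/-- the butterflies along the vectors `zs 0, …, zs (n - 1)` -/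
def Cvs (i hf : Λ) (zs : ℕ → Bv) : ℕ → Module.End Λ (Bv → V)
  | 0 => 1
  | n + 1 => Cv i hf (zs n) * Cvs i hf zs n

theorem Crange_eq (i hf : Λ) (lo n : ℕ) (y : Bv → V) :
    Crange i hf lo n y = Cvs i hf (fun c => Pi.single (lo + c) 1) n y := by
  induction n with
  | zero => rfl
  | succ n ih =>
    simp only [Crange, Cvs, Module.End.mul_apply, ih]
    rfl

theorem Cvs_congr (i hf : Λ) {zs zs' : ℕ → Bv} {n : ℕ} (h : ∀ c < n, zs c = zs' c) :
    (Cvs i hf zs n : Module.End Λ (Bv → V)) = Cvs i hf zs' n := by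
  induction n with
  | zero => rfl
  | succ n ih =>
    simp only [Cvs]
    rw [h n (Nat.lt_succ_self n), ih fun c hc => h c (Nat.lt_succ_of_lt hc)]

theorem Cvs_zero {i hf : Λ} (h2 : 2 * hf = 1) (n : ℕ) :
    (Cvs i hf (fun _ => 0) n : Module.End Λ (Bv → V)) = 1 := by
  induction n with
  | zero => rfl
  | succ n ih =>
    simp only [Cvs, ih, mul_one, Cv, trE_zero, ← add_smul]
    have : hf * (1 + i) + hf * (1 - i) = 1 := by linear_combination h2
    rw [this, one_smul]

/-- conjugation by an additive involution of the addresses -/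
theorem Cvs_conj (i hf : Λ) (X : Bv → Bv) (hadd : ∀ a b, X (a + b) = X a + X b)
    (hinv : ∀ a, X (X a) = a) (zs : ℕ → Bv) (n : ℕ) (y : Bv → V) :
    (Cvs i hf zs n (y ∘ X)) ∘ X = Cvs i hf (fun c => X (zs c)) n y := by
  induction n with
  | zero =>
    funext b
    simp [Cvs, hinv]
  | succ n ih =>
    funext b
    simp only [Cvs, Module.End.mul_apply, Function.comp, Cv_apply, ← ih]
    rw [hadd, hinv]

theorem xorMap_add (t s len : ℕ) (a b : Bv) :
    xorMap t s len (a + b) = xorMap t s len a + xorMap t s len b := by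
  funext k
  simp only [xorMap, Pi.add_apply]
  split_ifs
  · ring
  · rfl

theorem xorMap_xorMap {t s len : ℕ} (h : t + len ≤ s) (a : Bv) :
    xorMap t s len (xorMap t s len a) = a := by
  funext k
  simp only [xorMap]
  split_ifs with h1 h2
  · omega
  · rw [add_assoc, CharTwo.add_self_eq_zero, add_zero]
  · rfl

end Ops

section Groups

variable {m : ℕ}

theorem pos_inj {f a b c c' : ℕ} (hc : c < f) (hc' : c' < f) (h : a * f + c = b * f + c') :
    a = b ∧ c = c' := by
  have hf : 0 < f := by omega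
  have h1 : (a * f + c) / f = a := by
    rw [Nat.add_comm, Nat.add_mul_div_right _ _ hf, Nat.div_eq_of_lt hc, zero_add]
  have h2 : (b * f + c') / f = b := by
    rw [Nat.add_comm, Nat.add_mul_div_right _ _ hf, Nat.div_eq_of_lt hc', zero_add]
  have hab : a = b := by rw [← h1, h, h2]
  subst hab
  exact ⟨rfl, by omega⟩

/-- the address vector of a family of bits indexed by (group, column) -/
def emb (lo f : ℕ) (g : Fin m × Fin f → ZMod 2) : Bv :=
  ∑ p : Fin m × Fin f, Pi.single (lo + p.1 * f + p.2) (g p)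

theorem emb_add (lo f : ℕ) (g g' : Fin m × Fin f → ZMod 2) :
    emb lo f (g + g') = emb lo f g + emb lo f g' := by
  simp only [emb, Pi.add_apply, Pi.single_add, Finset.sum_add_distrib]

theorem emb_zero (lo f : ℕ) : emb lo f (0 : Fin m × Fin f → ZMod 2) = 0 := by
  simp [emb]

theorem emb_apply_pos (lo f : ℕ) (g : Fin m × Fin f → ZMod 2) (p : Fin m × Fin f) :
    emb lo f g (lo + p.1 * f + p.2) = g p := by
  unfold emb
  rw [Finset.sum_apply, Finset.sum_eq_single p]
  · simp
  · intro q _ hq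
    rw [Pi.single_eq_of_ne]
    intro h
    have := pos_inj p.2.2 q.2.2 (a := p.1) (b := q.1) (by omega)
    exact hq (Prod.ext (Fin.ext this.1.symm) (Fin.ext this.2.symm))
  · simp

theorem emb_apply_of_ne (lo f : ℕ) (g : Fin m × Fin f → ZMod 2) {k : ℕ}
    (h : ∀ p : Fin m × Fin f, lo + p.1 * f + p.2 ≠ k) : emb lo f g k = 0 := by
  unfold emb
  rw [Finset.sum_apply]
  exact Finset.sum_eq_zero fun p _ => Pi.single_eq_of_ne (h p).symm _

/-- two address vectors supported on the groups are compared on the groups -/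
theorem eq_emb (lo f : ℕ) (g : Fin m × Fin f → ZMod 2) (z : Bv)
    (h1 : ∀ p : Fin m × Fin f, z (lo + p.1 * f + p.2) = g p)
    (h2 : ∀ k, (∀ p : Fin m × Fin f, lo + p.1 * f + p.2 ≠ k) → z k = 0) : z = emb lo f g := by
  funext k
  by_cases hk : ∃ p : Fin m × Fin f, lo + p.1 * f + p.2 = k
  · obtain ⟨p, rfl⟩ := hk
    rw [h1, emb_apply_pos]
  · push Not at hk
    rw [h2 k hk, emb_apply_of_ne _ _ _ hk]

/-- the vector `u` placed in column `c` -/
def col (f : ℕ) (u : Fin m → ZMod 2) (c : ℕ) : Fin m × Fin f → ZMod 2 :=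
  fun p => if p.2.val = c then u p.1 else 0

/-- the vector `t` placed in all columns -/
def allc (f : ℕ) (t : Fin m → ZMod 2) : Fin m × Fin f → ZMod 2 := fun p => t p.1

theorem dot_col {f : ℕ} (ξ : Fin m × Fin f → ZMod 2) (u : Fin m → ZMod 2) (c : Fin f) :
    ξ ⬝ᵥ col f u c = (fun γ => ξ (γ, c)) ⬝ᵥ u := by
  unfold dotProduct col
  rw [Fintype.sum_prod_type]
  refine Finset.sum_congr rfl fun γ _ => ?_
  rw [Finset.sum_eq_single c]
  · simp
  · intro c' _ hc'
    rw [if_neg (fun h => hc' (Fin.ext h)), mul_zero]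
  · simp

theorem dot_allc {f : ℕ} (ξ : Fin m × Fin f → ZMod 2) (t : Fin m → ZMod 2) :
    ξ ⬝ᵥ allc f t = ∑ c : Fin f, (fun γ => ξ (γ, c)) ⬝ᵥ t := by
  unfold dotProduct allc
  rw [Fintype.sum_prod_type, Finset.sum_comm]

theorem single_eq_emb_col (lo : ℕ) {f : ℕ} (s : Fin m) {c : ℕ} (hc : c < f) :
    (Pi.single (lo + s * f + c) 1 : Bv) = emb lo f (col f (Pi.single s 1) c) := by
  refine eq_emb lo f _ _ (fun p => ?_) (fun k hk => ?_)
  · simp only [col, Pi.single_apply]
    by_cases h : lo + p.1 * f + p.2 = lo + s * f + c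
    · have := pos_inj p.2.2 hc (a := p.1) (b := s) (by omega)
      rw [if_pos h, if_pos this.2, if_pos (Fin.ext this.1)]
    · rw [if_neg h]
      split_ifs with h1 h2
      · exact absurd (by rw [h1, h2]) h
      · rfl
      · rfl
  · exact Pi.single_eq_of_ne (hk (s, ⟨c, hc⟩)).symm _

theorem xorMap_emb_col (lo : ℕ) {f : ℕ} (t s : Fin m) (u : Fin m → ZMod 2) (c : ℕ) :
    xorMap (lo + t * f) (lo + s * f) f (emb lo f (col f u c)) =
      emb lo f (col f (u + Pi.single t (u s)) c) := by
  refine eq_emb lo f _ _ (fun p => ?_) (fun k hk => ?_)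
  · simp only [xorMap]
    split_ifs with h
    · have h1 : (p.1 : ℕ) = t ∧ (p.2 : ℕ) = p.1 * f + p.2 - t * f :=
        pos_inj p.2.2 (by omega) (by omega)
      have h2 : lo + p.1 * f + p.2 - (lo + t * f) + (lo + s * f) = lo + s * f + p.2 := by
        rw [h1.1]; omega
      have h3 := emb_apply_pos lo f (col f u c) (s, p.2)
      simp only at h3
      rw [h2, h3, emb_apply_pos]
      simp only [col, Pi.add_apply, Pi.single_apply, if_pos (Fin.ext h1.1 : p.1 = t)]
      split_ifs <;> simp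
    · have h1 : p.1 ≠ t := by
        rintro rfl
        have := p.2.2
        omega
      rw [emb_apply_pos]
      simp only [col, Pi.add_apply, Pi.single_eq_of_ne h1, add_zero]
  · simp only [xorMap]
    split_ifs with h
    · exact absurd (by simp only; omega) (hk (t, ⟨k - (lo + t * f), by omega⟩))
    · exact emb_apply_of_ne _ _ _ hk

theorem flipMap_eq (lo f : ℕ) (t : Fin m) (b : Bv) :
    flipMap (lo + t * f) f b = b + emb lo f (allc f (Pi.single t 1)) := by
  have : (fun k => if lo + t * f ≤ k ∧ k < lo + t * f + f then (1 : ZMod 2) else 0) =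
      emb lo f (allc f (Pi.single t (1 : ZMod 2))) := by
    refine eq_emb lo f _ _ (fun p => ?_) (fun k hk => ?_)
    · simp only [allc, Pi.single_apply]
      by_cases h : p.1 = t
      · have := p.2.2
        rw [if_pos h, if_pos (by rw [h]; omega)]
      · rw [if_neg h, if_neg]
        intro h1
        have h2 : (p.1 : ℕ) = t ∧ (p.2 : ℕ) = p.1 * f + p.2 - t * f :=
          pos_inj p.2.2 (by omega) (by omega)
        exact h (Fin.ext h2.1)
    · rw [if_neg]
      intro h
      exact absurd (by simp only; omega) (hk (t, ⟨k - (lo + t * f), by omega⟩))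
  rw [← this]
  funext k
  simp only [flipMap, Pi.add_apply]
  split_ifs <;> simp

end Groups

section Frames

variable {Λ V : Type} [CommRing Λ] [AddCommGroup V] [Module Λ V] {m : ℕ}

/-- the translations along the groups -/
def tau (Λ : Type) [CommRing Λ] (V : Type) [AddCommGroup V] [Module Λ V] (lo f : ℕ)
    (g : Fin m × Fin f → ZMod 2) : Module.End Λ (Bv → V) :=
  trE Λ (emb lo f g)

theorem tau_zero (lo f : ℕ) : tau Λ V lo f (0 : Fin m × Fin f → ZMod 2) = 1 := by
  rw [tau, emb_zero, trE_zero]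

theorem tau_add (lo f : ℕ) (a b : Fin m × Fin f → ZMod 2) :
    tau Λ V lo f (a + b) = tau Λ V lo f a * tau Λ V lo f b := by
  rw [tau, emb_add, trE_add]
  rfl

variable {i hf : Λ}

theorem Cvs_mul_mult (h2 : 2 * hf = 1) (lo f : ℕ) (gs : ℕ → Fin m × Fin f → ZMod 2) (n : ℕ)
    (φ : (Fin m × Fin f → ZMod 2) → Λ) :
    Cvs i hf (fun c => emb lo f (gs c)) n * mult hf (tau Λ V lo f) φ =
      mult hf (tau Λ V lo f)
        (fun ξ => (∏ c ∈ Finset.range n, ipw i (lf (ξ ⬝ᵥ gs c))) * φ ξ) := by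
  induction n with
  | zero => simp [Cvs]
  | succ n ih =>
    simp only [Cvs]
    rw [mul_assoc, ih, Cv, add_mul, smul_mul_assoc, smul_mul_assoc, one_mul]
    have := tau_mul_mult (hf := hf) (tau_add (Λ := Λ) (V := V) lo f) (gs n)
    rw [tau] at this
    rw [this, ← mult_smul, ← mult_smul, ← mult_add]
    congr 1
    funext ξ
    rw [Finset.prod_range_succ, ipw_lf h2 (ξ ⬝ᵥ gs n)]
    ring

/-- the phase of a label -/
def phase (i : Λ) (f : ℕ) (e : Matrix (Fin m) (Fin m) (ZMod 2))
    (ξ : Fin m × Fin f → ZMod 2) : Λ :=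
  ipw i (∑ c : Fin f, Qf e (fun γ => ξ (γ, c)))

/-- the frame of a label -/
def Phi (V : Type) [AddCommGroup V] [Module Λ V] (i hf : Λ) (lo f : ℕ)
    (e : Matrix (Fin m) (Fin m) (ZMod 2)) : Module.End Λ (Bv → V) :=
  mult hf (tau Λ V lo f) (phase i f e)

theorem phase_add (hi : i * i = -1) (f : ℕ) {e e' : Matrix (Fin m) (Fin m) (ZMod 2)}
    (he : e.IsSymm) (he' : e'.IsSymm) (ξ : Fin m × Fin f → ZMod 2) :
    phase i f (e + e') ξ =
      sg Λ (ξ ⬝ᵥ allc f fun a => e a a * e' a a) * (phase i f e' ξ * phase i f e ξ) := by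
  unfold phase
  simp only [Qf_add he he', Finset.sum_add_distrib]
  rw [ipw_add hi, ipw_add hi, ← Finset.mul_sum, ← two_mul_lf_sum, ipw_two_mul_lf hi, dot_allc]
  ring

/-- the operator of an atom `u uᵀ` started at the label `e` -/
def actB (V : Type) [AddCommGroup V] [Module Λ V] (i hf : Λ) (lo f : ℕ)
    (e : Matrix (Fin m) (Fin m) (ZMod 2)) (u : Fin m → ZMod 2) : Module.End Λ (Bv → V) :=
  tau Λ V lo f (allc f fun a => e a a * u a) * Cvs i hf (fun c => emb lo f (col f u c)) f

theorem actB_mul_Phi (hi : i * i = -1) (h2 : 2 * hf = 1) (lo f : ℕ)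
    {e : Matrix (Fin m) (Fin m) (ZMod 2)} (he : e.IsSymm) (u : Fin m → ZMod 2) :
    actB V i hf lo f e u * Phi V i hf lo f e = Phi V i hf lo f (e + vecMulVec u u) := by
  have hu : (vecMulVec u u).IsSymm := by
    ext a b
    simp [vecMulVec_apply, mul_comm]
  unfold actB Phi
  rw [mul_assoc, Cvs_mul_mult h2, tau_mul_mult (tau_add lo f)]
  congr 1
  funext ξ
  rw [phase_add hi f he hu]
  have h1 : ∀ a, vecMulVec u u a a = u a := fun a => by
    rw [vecMulVec_apply]
    rcases zmod2_cases (u a) with h | h <;> simp [h]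
  simp only [h1]
  congr 2
  unfold phase
  rw [ipw_sum hi, Finset.prod_range]
  refine Finset.prod_congr rfl fun c _ => ?_
  rw [Qf_vecMulVec, dot_col]

theorem Crange_full_mul_Phi (hi : i * i = -1) (h2 : 2 * hf = 1) (lo f : ℕ)
    {e : Matrix (Fin m) (Fin m) (ZMod 2)} (he : e.IsSymm) :
    tau Λ V lo f (allc f fun a => e a a) * Phi V i hf lo f (e + 1) =
      Cvs i hf (fun c => Pi.single (lo + c) 1) (m * f) * Phi V i hf lo f e := by
  let gs : ℕ → Fin m × Fin f → ZMod 2 := fun j p => if p.1 * f + p.2 = j then 1 else 0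
  have h1 : (Cvs i hf (fun c => Pi.single (lo + c) 1) (m * f) : Module.End Λ (Bv → V)) =
      Cvs i hf (fun c => emb lo f (gs c)) (m * f) := by
    refine Cvs_congr i hf fun j hj => eq_emb lo f _ _ (fun p => ?_) (fun k hk => ?_)
    · simp only [gs, Pi.single_apply, add_assoc, Nat.add_left_cancel_iff]
    · have hf0 : 0 < f := Nat.pos_of_ne_zero (by rintro rfl; simp at hj)
      refine Pi.single_eq_of_ne (fun h => hk (⟨j / f, ?_⟩, ⟨j % f, Nat.mod_lt _ hf0⟩) ?_) _
      · rwa [Nat.div_lt_iff_lt_mul hf0]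
      · simp only [h, add_assoc, Nat.div_add_mod']
  unfold Phi
  rw [h1, Cvs_mul_mult h2, tau_mul_mult (tau_add lo f)]
  congr 1
  funext ξ
  rw [phase_add hi f he Matrix.isSymm_one]
  simp only [Matrix.one_apply_eq, mul_one]
  rw [← mul_assoc, ← sg_add, CharTwo.add_self_eq_zero, sg_zero, one_mul]
  congr 1
  unfold phase
  simp only [Qf_one]
  rw [Finset.sum_comm, ← Fintype.sum_prod_type (f := fun p : Fin m × Fin f => lf (ξ p)),
    ipw_sum hi, Finset.prod_range, ← Equiv.prod_comp finProdFinEquiv]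
  refine Finset.prod_congr rfl fun p _ => ?_
  congr 2
  unfold dotProduct
  rw [Finset.sum_eq_single p]
  · simp [gs, finProdFinEquiv, mul_comm, add_comm]
  · intro q _ hq
    simp only [gs]
    rw [if_neg, mul_zero]
    intro h
    have : (q.1 : ℕ) = p.1 ∧ (q.2 : ℕ) = p.2 := pos_inj q.2.2 p.2.2 (by
      rw [h]; simp [finProdFinEquiv, mul_comm, add_comm])
    exact hq (Prod.ext (Fin.ext this.1) (Fin.ext this.2))
  · simp

theorem Phi_surjective (hi : i * i = -1) (h2 : 2 * hf = 1) (lo f : ℕ)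
    (e : Matrix (Fin m) (Fin m) (ZMod 2)) (y : Bv → V) : ∃ x, Phi V i hf lo f e x = y := by
  refine ⟨mult hf (tau Λ V lo f) (fun ξ => ipw i (-∑ c : Fin f, Qf e (fun γ => ξ (γ, c)))) y, ?_⟩
  rw [← Module.End.mul_apply, Phi, mult_mul_mult h2 (tau_add lo f)]
  simp only [phase, ← ipw_add hi, add_neg_cancel, ipw_zero]
  rw [mult_one h2 (tau_zero lo f)]
  rfl

end Frames

end Crest.Agent.X326.B3
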