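import Crest.Agent.X326.A.Perm

/-!
Row 326 (S0503), part M3: address arithmetic of the xor gadget.

`dsum B n f` is the number with little-endian digits `f 0, …, f (n-1)` in base `B`.  The gadget
changes the digits `y i` (base `R`) of a target field into `y i xor z i` by four additions that use
the digits `b i` (base `g`) of an ancilla field; on safe addresses no carry occurs.
-/

set_option autoImplicit false

namespace Crest.Agent.X326.B3.Gad

open Crest.Agent.X326.A Finset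

/-- the number with the little-endian digits `f 0, …, f (n-1)` in base `B` -/
def dsum (B n : ℕ) (f : ℕ → ℕ) : ℕ := ∑ i ∈ range n, f i * B ^ i

section dsum

variable {B n x : ℕ} {f f' : ℕ → ℕ}

@[simp] theorem dsum_zero (B : ℕ) (f : ℕ → ℕ) : dsum B 0 f = 0 := by simp [dsum]

theorem dsum_succ (B n : ℕ) (f : ℕ → ℕ) : dsum B (n + 1) f = dsum B n f + f n * B ^ n := by
  simp [dsum, sum_range_succ]

theorem dsum_congr (h : ∀ i < n, f i = f' i) : dsum B n f = dsum B n f' :=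
  sum_congr rfl fun i hi => by rw [h i (mem_range.1 hi)]

theorem dsum_add (B n : ℕ) (f f' : ℕ → ℕ) :
    dsum B n (fun i => f i + f' i) = dsum B n f + dsum B n f' := by
  simp [dsum, add_mul, sum_add_distrib]

theorem dsum_mono (h : ∀ i < n, f i ≤ f' i) : dsum B n f ≤ dsum B n f' :=
  sum_le_sum fun i hi => Nat.mul_le_mul_right _ (h i (mem_range.1 hi))

theorem dsum_lt (h : ∀ i < n, f i < B) : dsum B n f < B ^ n := by
  induction n with
  | zero => simp
  | succ n ih =>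
    have h1 := ih fun i hi => h i (by omega)
    have h2 : (f n + 1) * B ^ n ≤ B * B ^ n := Nat.mul_le_mul_right _ (h n (by omega))
    rw [dsum_succ, pow_succ']
    rw [add_mul, one_mul] at h2
    omega

theorem dsum_dig (B n x : ℕ) : dsum B n (fun i => dig (B ^ i) B x) = x % B ^ n := by
  induction n with
  | zero => simp [Nat.mod_one]
  | succ n ih => rw [dsum_succ, ih, pow_succ, Nat.mod_mul, dig, mul_comm]

theorem dig_dsum (h : ∀ i < n, f i < B) {i : ℕ} (hi : i < n) :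
    dig (B ^ i) B (dsum B n f) = f i := by
  induction n with
  | zero => omega
  | succ n ih =>
    have hB : 0 < B := by have := h 0 (by omega); omega
    have h1 : dsum B n f < B ^ n := dsum_lt fun i hi => h i (by omega)
    rw [dsum_succ]
    rcases Nat.lt_succ_iff_lt_or_eq.1 hi with hi | rfl
    · rw [← ih (fun i hi => h i (by omega)) hi]
      refine dig_eq_of_mod (w := B ^ n) (by rw [← pow_succ]; exact pow_dvd_pow _ hi) ?_
      rw [Nat.add_mul_mod_self_right]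
    · rw [dig, Nat.add_mul_div_right _ _ (pow_pos hB i), Nat.div_eq_of_lt h1, zero_add,
        Nat.mod_eq_of_lt (h i (by omega))]

/-- carry-free addition: the sum in split form -/
theorem add_dsum_eq (B n x : ℕ) (e : ℕ → ℕ) :
    x + dsum B n e = x / B ^ n * B ^ n + dsum B n (fun i => dig (B ^ i) B x + e i) := by
  rw [dsum_add, dsum_dig]
  have := Nat.div_add_mod x (B ^ n)
  rw [mul_comm] at this
  omega

/-- carry-free addition: the high part does not change -/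
theorem add_dsum_div {e : ℕ → ℕ} (hB : 0 < B) (h : ∀ i < n, dig (B ^ i) B x + e i < B) :
    (x + dsum B n e) / B ^ n = x / B ^ n := by
  rw [add_dsum_eq, mul_comm, Nat.mul_add_div (pow_pos hB n), Nat.div_eq_of_lt (dsum_lt h),
    add_zero]

/-- carry-free addition: the digits add -/
theorem dig_add_dsum {e : ℕ → ℕ} (h : ∀ i < n, dig (B ^ i) B x + e i < B) {i : ℕ} (hi : i < n) :
    dig (B ^ i) B (x + dsum B n e) = dig (B ^ i) B x + e i := by
  rw [← dig_dsum h hi, add_dsum_eq]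
  refine dig_eq_of_mod (w := B ^ n) (by rw [← pow_succ]; exact pow_dvd_pow _ hi) ?_
  rw [Nat.mul_add_mod_self_right]

theorem add_dsum_lt {e : ℕ → ℕ} {m : ℕ} (hB : 0 < B) (h : ∀ i < n, dig (B ^ i) B x + e i < B)
    (hnm : n ≤ m) (hx : x < B ^ m) : x + dsum B n e < B ^ m :=
  lt_of_div_eq (pow_dvd_pow B hnm) (add_dsum_div hB h) hx

end dsum

/-- the parity of a digit in an even base -/
theorem dig_two {R : ℕ} (hR : 2 ∣ R) (w x : ℕ) : dig w 2 x = dig w R x % 2 := by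
  rw [dig, dig, Nat.mod_mod_of_dvd _ hR]

/-- `xb y z` is `y` with its last bit flipped when `z = 1` -/
def xb (y z : ℕ) : ℕ := 2 * (y / 2) + (y + z) % 2

theorem xb_lt {R y z : ℕ} (hR : 2 ∣ R) (hy : y < R) : xb y z < R := by
  obtain ⟨c, rfl⟩ := hR
  unfold xb
  omega

@[simp] theorem xb_div (y z : ℕ) : xb y z / 2 = y / 2 := by unfold xb; omega

@[simp] theorem xb_mod (y z : ℕ) : xb y z % 2 = (y + z) % 2 := by unfold xb; omega

/-- the target field after the xor with the mask `z` -/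
def xorFld (R n' : ℕ) (z : ℕ → ℕ) (y : ℕ) : ℕ := dsum R n' (fun i => xb (dig (R ^ i) R y) (z i))

theorem xorFld_lt {R : ℕ} (hR : 2 ∣ R) (hR0 : 0 < R) (n' : ℕ) (z : ℕ → ℕ) (y : ℕ) :
    xorFld R n' z y < R ^ n' := dsum_lt fun _ _ => xb_lt hR (dig_lt hR0)

theorem dig_xorFld {R : ℕ} (hR : 2 ∣ R) (hR0 : 0 < R) {n' : ℕ} (z : ℕ → ℕ) (y : ℕ) {i : ℕ}
    (hi : i < n') : dig (R ^ i) R (xorFld R n' z y) = xb (dig (R ^ i) R y) (z i) :=
  dig_dsum (fun _ _ => xb_lt hR (dig_lt hR0)) hi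

section flow

variable {g R n n' y b : ℕ} {z : ℕ → ℕ}

/-- first offset (added to the target field): `2 z_i b_i` -/
def off1 (g R n' : ℕ) (z : ℕ → ℕ) (b : ℕ) : ℕ := dsum R n' (fun i => 2 * z i * dig (g ^ i) g b)

/-- second offset (added to the ancilla): the parities of the target digits -/
def off2 (g R n' y : ℕ) : ℕ := dsum g n' (fun i => dig (R ^ i) 2 y)

/-- third offset (added to the target field): `z_i (1 - 2 b_i)` -/
def off3 (g R n' : ℕ) (z : ℕ → ℕ) (b : ℕ) : ℕ := dsum R n' z + (R ^ n' - off1 g R n' z b)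

/-- fourth offset (added to the ancilla): minus the old parities of the target digits -/
def off4 (g R n n' : ℕ) (z : ℕ → ℕ) (y : ℕ) : ℕ :=
  g ^ n - dsum g n' (fun i => (dig (R ^ i) 2 y + z i) % 2)

/-- The four additions of the gadget: the target field is xored, the ancilla is restored. -/
theorem flow (hR : 2 ∣ R) (hn : n' ≤ n) (hz : ∀ i < n', z i ≤ 1) (hy : y < R ^ n')
    (hb : b < g ^ n) (hys : ∀ i < n', dig (R ^ i) R y + 2 * g ≤ R)
    (hbs : ∀ i < n', dig (g ^ i) g b + 2 ≤ g) (hg : 0 < g) (hR0 : 0 < R) {y1 b1 y2 b2 : ℕ}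
    (e1 : y1 = (y + off1 g R n' z b) % R ^ n') (e2 : b1 = (b + off2 g R n' y1) % g ^ n)
    (e3 : y2 = (y1 + off3 g R n' z b1) % R ^ n') (e4 : b2 = (b1 + off4 g R n n' z y2) % g ^ n) :
    y2 = xorFld R n' z y ∧ b2 = b := by
  -- step 1
  have c1 : ∀ i < n', dig (R ^ i) R y + 2 * z i * dig (g ^ i) g b < R := fun i hi => by
    have h1 := hz i hi
    have h2 := hys i hi
    have h3 := hbs i hi
    have : 2 * z i * dig (g ^ i) g b ≤ 2 * 1 * dig (g ^ i) g b := by gcongr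
    omega
  have v1 : y1 = y + off1 g R n' z b := by
    rw [e1]; exact Nat.mod_eq_of_lt (add_dsum_lt hR0 c1 le_rfl hy)
  have d1 : ∀ i < n', dig (R ^ i) R y1 = dig (R ^ i) R y + 2 * z i * dig (g ^ i) g b :=
    fun i hi => by rw [v1]; exact dig_add_dsum c1 hi
  have p1 : ∀ i < n', dig (R ^ i) 2 y1 = dig (R ^ i) R y % 2 := fun i hi => by
    rw [dig_two hR, d1 i hi, mul_assoc, Nat.add_mul_mod_self_left]
  -- step 2
  have c2 : ∀ i < n', dig (g ^ i) g b + dig (R ^ i) 2 y1 < g := fun i hi => by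
    have h3 := hbs i hi
    rw [p1 i hi]
    omega
  have l2 : b + off2 g R n' y1 < g ^ n := add_dsum_lt hg c2 hn hb
  have v2 : b1 = b + off2 g R n' y1 := by rw [e2]; exact Nat.mod_eq_of_lt l2
  have d2 : ∀ i < n', dig (g ^ i) g b1 = dig (g ^ i) g b + dig (R ^ i) R y % 2 :=
    fun i hi => by rw [v2, ← p1 i hi]; exact dig_add_dsum c2 hi
  -- step 3
  have l3 : off1 g R n' z b1 < R ^ n' := dsum_lt fun i hi => by
    have h1 := hz i hi
    have h2 := hys i hi
    have h3 : dig (g ^ i) g b1 < g := dig_lt hg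
    have : 2 * z i * dig (g ^ i) g b1 ≤ 2 * 1 * dig (g ^ i) g b1 := by gcongr
    omega
  have k3 : y1 + dsum R n' z = xorFld R n' z y + off1 g R n' z b1 := by
    have ey : dsum R n' (fun i => dig (R ^ i) R y) = y := by
      rw [dsum_dig, Nat.mod_eq_of_lt hy]
    have : y1 = dsum R n' (fun i => dig (R ^ i) R y) + off1 g R n' z b := by rw [v1, ey]
    rw [this, off1, off1, xorFld, ← dsum_add, ← dsum_add, ← dsum_add]
    refine dsum_congr fun i hi => ?_
    rw [d2 i hi, xb]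
    have h1 := hz i hi
    rcases Nat.le_one_iff_eq_zero_or_eq_one.1 h1 with h | h <;> rw [h] <;> omega
  have v3 : y2 = xorFld R n' z y := by
    have : y1 + off3 g R n' z b1 = xorFld R n' z y + R ^ n' := by unfold off3; omega
    rw [e3, this, Nat.add_mod_right, Nat.mod_eq_of_lt (xorFld_lt hR hR0 _ _ _)]
  refine ⟨v3, ?_⟩
  -- step 4
  have k4 : dsum g n' (fun i => (dig (R ^ i) 2 y2 + z i) % 2) = off2 g R n' y1 := by
    refine dsum_congr fun i hi => ?_
    rw [p1 i hi, dig_two hR, v3, dig_xorFld hR hR0 z y hi, xb_mod]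
    omega
  have : b1 + off4 g R n n' z y2 = b + g ^ n := by unfold off4; rw [k4]; omega
  rw [e4, this, Nat.add_mod_right, Nat.mod_eq_of_lt hb]

end flow

/-! ### the eight index maps -/

/-- rotation of the field of weight `w` and range `Q` by an offset read from the slower fields -/
def rotIdx (w Q : ℕ) (δ : ℕ → ℕ) (j : ℕ) : ℕ :=
  setDig w Q j ((dig w Q j + δ (j / (w * Q))) % Q)

theorem rotIdx_lt {w Q n j : ℕ} (δ : ℕ → ℕ) (hw : 0 < w) (hQ : 0 < Q) (h : w * Q ∣ n)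
    (hj : j < n) : rotIdx w Q δ j < n := setDig_lt hw (Nat.mod_lt _ hQ) h hj

theorem step_lt {a A b B : ℕ} (h1 : a < A) (h2 : b < B) : a * B + b < A * B := by
  have : (a + 1) * B ≤ A * B := Nat.mul_le_mul_right _ h1
  rw [Nat.add_mul, Nat.one_mul] at this
  omega

theorem step_div {a b B : ℕ} (h : b < B) : (a * B + b) / B = a := by
  rw [Nat.add_comm, Nat.add_mul_div_right _ _ (by omega), Nat.div_eq_of_lt h, Nat.zero_add]

theorem step_mod {a b B : ℕ} (h : b < B) : (a * B + b) % B = b := by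
  rw [Nat.add_comm, Nat.add_mul_mod_self_right, Nat.mod_eq_of_lt h]

theorem dig_mk {w Q : ℕ} (p : ℕ) {y z : ℕ} (hy : y < Q) (hz : z < w) :
    dig w Q ((p * Q + y) * w + z) = y := by rw [dig, step_div hz, step_mod hy]

theorem rotIdx_mk {w Q : ℕ} (δ : ℕ → ℕ) (p : ℕ) {y z : ℕ} (hy : y < Q) (hz : z < w) :
    rotIdx w Q δ ((p * Q + y) * w + z) = (p * Q + (y + δ p) % Q) * w + z := by
  have e : ((p * Q + y) * w + z) / (w * Q) = p := by
    rw [← Nat.div_div_eq_div_mul, step_div hz, step_div hy]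
  rw [rotIdx, setDig, dig_mk p hy hz, e, step_mod hz]
  ring

/-- the flat index of the address `(p, a, g1, y, g2, b, z)` in the layout
`[P] × [QA] × [G1] × [QY] × [G2] × [QA] × [Z]` -/
def h7 (QA G1 QY G2 Z p a g1 y g2 b z : ℕ) : ℕ :=
  (((((p * QA + a) * G1 + g1) * QY + y) * G2 + g2) * QA + b) * Z + z

section h7

variable {QA G1 QY G2 Z : ℕ} (p : ℕ) {a g1 y g2 b z : ℕ}

theorem swap_h7 (ha : a < QA) (h1 : g1 < G1) (hy : y < QY) (h2 : g2 < G2) (hb : b < QA)
    (hz : z < Z) :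
    swapIdx QA (Z * QA * G2 * QY * G1) Z (h7 QA G1 QY G2 Z p a g1 y g2 b z) =
      h7 QA G1 QY G2 Z p b g1 y g2 a z := by
  have h := swapIdx_mk p ha (step_lt (step_lt h1 hy) h2) hb hz
  have e : ∀ a b, h7 QA G1 QY G2 Z p a g1 y g2 b z =
      (((p * QA + a) * (G1 * QY * G2) + ((g1 * QY + y) * G2 + g2)) * QA + b) * Z + z :=
    fun a b => by unfold h7; ring
  rw [e, e, ← h]
  congr 1
  ring

theorem rotY_h7 (δ : ℕ → ℕ) (hy : y < QY) (h2 : g2 < G2) (hb : b < QA) (hz : z < Z) :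
    rotIdx (Z * QA * G2) QY δ (h7 QA G1 QY G2 Z p a g1 y g2 b z) =
      h7 QA G1 QY G2 Z p a g1 ((y + δ ((p * QA + a) * G1 + g1)) % QY) g2 b z := by
  have hw : (g2 * QA + b) * Z + z < Z * QA * G2 := by
    have := step_lt (step_lt h2 hb) hz
    rwa [show G2 * QA * Z = Z * QA * G2 by ring] at this
  have e : ∀ y, h7 QA G1 QY G2 Z p a g1 y g2 b z =
      (((p * QA + a) * G1 + g1) * QY + y) * (Z * QA * G2) + ((g2 * QA + b) * Z + z) :=
    fun y => by unfold h7; ring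
  rw [e, e, rotIdx_mk δ _ hy hw]

theorem rotB_h7 (δ : ℕ → ℕ) (hb : b < QA) (hz : z < Z) :
    rotIdx Z QA δ (h7 QA G1 QY G2 Z p a g1 y g2 b z) =
      h7 QA G1 QY G2 Z p a g1 y g2
        ((b + δ ((((p * QA + a) * G1 + g1) * QY + y) * G2 + g2)) % QA) z :=
  rotIdx_mk δ _ hb hz

end h7

/-- offset of the first rotation, read from the prefix of the target field -/
def d1 (g R n G1 : ℕ) (zf : ℕ → ℕ → ℕ) (pre : ℕ) : ℕ :=
  off1 g R n (zf (pre % G1)) (dig G1 (g ^ n) pre)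

/-- offset of the second rotation, read from the prefix of the lower ancilla -/
def d2 (g R n G2 : ℕ) (pre : ℕ) : ℕ := off2 g R n (dig G2 (R ^ n) pre)

/-- offset of the third rotation -/
def d3 (g R n G1 : ℕ) (zf : ℕ → ℕ → ℕ) (pre : ℕ) : ℕ :=
  off3 g R n (zf (pre % G1)) (dig G1 (g ^ n) pre)

/-- offset of the fourth rotation -/
def d4 (g R n G1 G2 : ℕ) (zf : ℕ → ℕ → ℕ) (pre : ℕ) : ℕ :=
  off4 g R n n (zf (dig (G2 * R ^ n) G1 pre)) (dig G2 (R ^ n) pre)

/-- the index map of the gadget; the mask `zf g1` is read from the field `G1` -/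
def gadIdx (g R n G1 G2 Z : ℕ) (zf : ℕ → ℕ → ℕ) (j : ℕ) : ℕ :=
  rotIdx Z (g ^ n) (d4 g R n G1 G2 zf) <|
  swapIdx (g ^ n) (Z * g ^ n * G2 * R ^ n * G1) Z <|
  rotIdx (Z * g ^ n * G2) (R ^ n) (d3 g R n G1 zf) <|
  swapIdx (g ^ n) (Z * g ^ n * G2 * R ^ n * G1) Z <|
  rotIdx Z (g ^ n) (d2 g R n G2) <|
  swapIdx (g ^ n) (Z * g ^ n * G2 * R ^ n * G1) Z <|
  rotIdx (Z * g ^ n * G2) (R ^ n) (d1 g R n G1 zf) <|
  swapIdx (g ^ n) (Z * g ^ n * G2 * R ^ n * G1) Z j

/-- On safe addresses the gadget xors the target field with the mask. -/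
theorem gadIdx_h7 {g R n G1 G2 Z : ℕ} (zf : ℕ → ℕ → ℕ) (p : ℕ) {a g1 y g2 b z : ℕ} (hR : 2 ∣ R)
    (hg : 0 < g) (hR0 : 0 < R) (ha : a < g ^ n) (h1 : g1 < G1) (hy : y < R ^ n) (h2 : g2 < G2)
    (hb : b < g ^ n) (hz : z < Z) (hzf : ∀ i < n, zf g1 i ≤ 1)
    (hys : ∀ i < n, dig (R ^ i) R y + 2 * g ≤ R) (hbs : ∀ i < n, dig (g ^ i) g b + 2 ≤ g) :
    gadIdx g R n G1 G2 Z zf (h7 (g ^ n) G1 (R ^ n) G2 Z p a g1 y g2 b z) =
      h7 (g ^ n) G1 (R ^ n) G2 Z p a g1 (xorFld R n (zf g1) y) g2 b z := by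
  have hA : 0 < g ^ n := pow_pos hg n
  have hY : 0 < R ^ n := pow_pos hR0 n
  have o1 : ∀ c < g ^ n, d1 g R n G1 zf ((p * g ^ n + c) * G1 + g1) = off1 g R n (zf g1) c :=
    fun c hc => by rw [d1, step_mod h1, dig_mk _ hc h1]
  have o3 : ∀ c < g ^ n, d3 g R n G1 zf ((p * g ^ n + c) * G1 + g1) = off3 g R n (zf g1) c :=
    fun c hc => by rw [d3, step_mod h1, dig_mk _ hc h1]
  have o2 : ∀ q, ∀ c < R ^ n, d2 g R n G2 ((q * R ^ n + c) * G2 + g2) = off2 g R n c :=
    fun q c hc => by rw [d2, dig_mk _ hc h2]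
  have o4 : ∀ q, ∀ c < R ^ n, d4 g R n G1 G2 zf (((q * G1 + g1) * R ^ n + c) * G2 + g2) =
      off4 g R n n (zf g1) c := fun q c hc => by
    rw [d4, dig_mk _ hc h2, dig, ← Nat.div_div_eq_div_mul, step_div h2, step_div hc, step_mod h1]
  obtain ⟨e1, e2⟩ := flow hR le_rfl hzf hy hb hys hbs hg hR0 rfl rfl rfl rfl
  rw [gadIdx, swap_h7 p ha h1 hy h2 hb hz, rotY_h7 p _ hy h2 ha hz, o1 b hb,
    swap_h7 p hb h1 (Nat.mod_lt _ hY) h2 ha hz, rotB_h7 p _ hb hz, o2 _ _ (Nat.mod_lt _ hY),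
    swap_h7 p ha h1 (Nat.mod_lt _ hY) h2 (Nat.mod_lt _ hA) hz,
    rotY_h7 p _ (Nat.mod_lt _ hY) h2 ha hz, o3 _ (Nat.mod_lt _ hA),
    swap_h7 p (Nat.mod_lt _ hA) h1 (Nat.mod_lt _ hY) h2 ha hz,
    rotB_h7 p _ (Nat.mod_lt _ hA) hz, o4 _ _ (Nat.mod_lt _ hY), e2, e1]

end Crest.Agent.X326.B3.Gad
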