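import Crest.Agent.X326.B3.Defs
import Crest.Agent.X326.B3.GadgetIdx

/-!
Row 326 (S0503), part M3: the xor gadget on flat lists.

`xorL d L t s len l` and `flipL d L t len l` pull the list `l` back along the index map of the
gadget; on safe addresses this is the pull-back along `xorMap t s len`, resp. `flipMap t len`.
-/

set_option autoImplicit false

namespace Crest.Agent.X326.B3

open Crest.Agent.X326.A Gad

namespace Gad

/-- the mask of a xor: bit `i` is the last bit of chunk `c + i` of the field above the target -/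
def zx (R c : ℕ) (g1 i : ℕ) : ℕ := dig (R ^ (c + i)) 2 g1

/-- the mask of a flip -/
def zone (_g1 _i : ℕ) : ℕ := 1

/-- range of the field between the upper ancilla and the target -/
def G1' (L : Lay) (t len : ℕ) : ℕ := L.R ^ (L.F - t - len) * L.G1

/-- range of the field between the target and the lower ancilla -/
def G2' (L : Lay) (t len : ℕ) : ℕ := L.g ^ (L.F - len) * L.G2 * L.R ^ t

/-- the index map of the gadget for the target chunks `t, …, t + len - 1` -/
def layIdx (L : Lay) (t len : ℕ) (zf : ℕ → ℕ → ℕ) : ℕ → ℕ :=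
  gadIdx L.g L.R len (G1' L t len) (G2' L t len) L.Z zf

end Gad

/-- the bits of the chunks `t, …, t + len - 1` receive those of the chunks `s, …, s + len - 1` -/
def xorL {α : Type} (d : α) (L : Lay) (t s len : ℕ) (l : List α) : List α :=
  perm d (layIdx L t len (zx L.R (s - t - len))) l

/-- the bits of the chunks `t, …, t + len - 1` are flipped -/
def flipL {α : Type} (d : α) (L : Lay) (t len : ℕ) (l : List α) : List α :=
  perm d (layIdx L t len zone) l

namespace Gad

theorem ds_eq (q : ℕ) (d : ℕ → ℕ) (n : ℕ) : ds q d n = dsum q n d := rfl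

theorem dsum_split (B m n : ℕ) (f : ℕ → ℕ) :
    dsum B (m + n) f = dsum B n (fun j => f (m + j)) * B ^ m + dsum B m f := by
  induction n with
  | zero => simp
  | succ n ih => rw [← add_assoc, dsum_succ, dsum_succ, ih, pow_add]; ring

theorem gadIdx_lt {g R n G1 G2 Z N j : ℕ} (zf : ℕ → ℕ → ℕ)
    (h : Z * g ^ n * G2 * R ^ n * G1 * g ^ n ∣ N) (hj : j < N) :
    gadIdx g R n G1 G2 Z zf j < N := by
  have hN : 0 < N := by omega
  have h0 := Nat.pos_of_dvd_of_pos h hN
  have hA : 0 < g ^ n := Nat.pos_of_mul_pos_left h0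
  have hH : 0 < Z * g ^ n * G2 * R ^ n * G1 := Nat.pos_of_mul_pos_right h0
  have h1 : 0 < Z * g ^ n * G2 * R ^ n := Nat.pos_of_mul_pos_right hH
  have hY : 0 < R ^ n := Nat.pos_of_mul_pos_left h1
  have hw : 0 < Z * g ^ n * G2 := Nat.pos_of_mul_pos_right h1
  have hZ : 0 < Z := Nat.pos_of_mul_pos_right (Nat.pos_of_mul_pos_right hw)
  have d1 : Z * g ^ n ∣ Z * g ^ n * G2 * R ^ n * G1 := ⟨G2 * R ^ n * G1, by ring⟩
  have d2 : Z * g ^ n * G2 * R ^ n ∣ N := Dvd.dvd.trans ⟨G1 * g ^ n, by ring⟩ h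
  have d3 : Z * g ^ n ∣ N := Dvd.dvd.trans (d1.mul_right _) h
  have s : ∀ j < N, swapIdx (g ^ n) (Z * g ^ n * G2 * R ^ n * G1) Z j < N :=
    fun j hj => swapIdx_lt hA hZ hH d1 h hj
  exact rotIdx_lt _ hZ hA d3 <| s _ <| rotIdx_lt _ hw hY d2 <| s _ <| rotIdx_lt _ hZ hA d3 <|
    s _ <| rotIdx_lt _ hw hY d2 <| s _ hj

theorem lay_N (L : Lay) {t len : ℕ} (h : t + len ≤ L.F) :
    L.N = L.Z * L.g ^ len * G2' L t len * L.R ^ len * G1' L t len * L.g ^ len *
      (L.g ^ (L.F - len) * L.Pre) := by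
  obtain ⟨u, hu⟩ := Nat.exists_eq_add_of_le h
  have e1 : L.F - t - len = u := by omega
  have e2 : L.F - len = t + u := by omega
  unfold Lay.N Lay.wh Lay.wy G1' G2'
  rw [e1, e2, hu]
  ring

theorem lay_dvd (L : Lay) {t len : ℕ} (h : t + len ≤ L.F) :
    L.Z * L.g ^ len * G2' L t len * L.R ^ len * G1' L t len * L.g ^ len ∣ L.N :=
  ⟨_, lay_N L h⟩

theorem layIdx_lt (L : Lay) {t len j : ℕ} (zf : ℕ → ℕ → ℕ) (h : t + len ≤ L.F) (hj : j < L.N) :
    layIdx L t len zf j < L.N := gadIdx_lt zf (lay_dvd L h) hj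

/-- the chunks of an address -/
def chunk (β : Base) (b : Bv) (j : ℕ) : ℕ := 2 * β.h j + (b j).val

/-- the content of the field between the upper ancilla and the target -/
def g1Of (L : Lay) (t len : ℕ) (β : Base) (b : Bv) : ℕ :=
  β.hi % L.G1 * L.R ^ (L.F - t - len) +
    dsum L.R (L.F - t - len) (fun j => chunk β b (t + len + j))

/-- the content of the field between the target and the lower ancilla -/
def g2Of (L : Lay) (t len : ℕ) (β : Base) (b : Bv) : ℕ :=
  (dsum L.R t (chunk β b) * L.G2 + β.p) * L.g ^ (L.F - len) +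
    dsum L.g (L.F - len) (fun j => β.a (len + j))

theorem addr_eq_h7 (L : Lay) {t len : ℕ} (h : t + len ≤ L.F) (β : Base) (b : Bv) :
    L.addr β b = h7 (L.g ^ len) (G1' L t len) (L.R ^ len) (G2' L t len) L.Z
      (β.hi / L.G1 / L.g ^ len) (β.hi / L.G1 % L.g ^ len) (g1Of L t len β b)
      (dsum L.R len (fun j => chunk β b (t + j))) (g2Of L t len β b) (dsum L.g len β.a) β.z := by
  obtain ⟨u, hu⟩ := Nat.exists_eq_add_of_le h
  have e1 : L.F - t - len = u := by omega
  have e2 : L.F - len = t + u := by omega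
  have a1 : dsum L.R L.F (chunk β b) = (dsum L.R u (fun j => chunk β b (t + len + j)) *
      L.R ^ len + dsum L.R len (fun j => chunk β b (t + j))) * L.R ^ t +
      dsum L.R t (chunk β b) := by
    rw [hu, add_assoc, dsum_split, dsum_split]
    simp only [add_assoc]
  have a2 : dsum L.g L.F β.a =
      dsum L.g (t + u) (fun j => β.a (len + j)) * L.g ^ len + dsum L.g len β.a := by
    rw [show L.F = len + (t + u) by omega, dsum_split]
  have a3 : β.hi / L.G1 / L.g ^ len * L.g ^ len + β.hi / L.G1 % L.g ^ len = β.hi / L.G1 :=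
    Nat.div_add_mod' _ _
  have a4 : β.hi = β.hi / L.G1 * L.G1 + β.hi % L.G1 := (Nat.div_add_mod' _ _).symm
  have a5 : L.addr β b = (β.hi * L.R ^ L.F + dsum L.R L.F (chunk β b)) * L.wy +
      (β.p * L.g ^ L.F + dsum L.g L.F β.a) * L.Z + β.z := rfl
  rw [a5, h7, a3, a1, a2, g1Of, g2Of, G1', G2', Lay.wy, e1, e2]
  generalize β.hi / L.G1 = x at a4 ⊢
  generalize β.hi % L.G1 = x' at a4 ⊢
  rw [a4, hu]
  ring

section safe

variable {L : Lay} {β : Base}

theorem chunk_le (hβ : L.Safe β) (b : Bv) {j : ℕ} (hj : j < L.F) :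
    chunk β b j + 2 * L.g + 1 ≤ L.R := by
  have h1 := hβ.h j hj
  have h2 : (b j).val < 2 := ZMod.val_lt _
  unfold chunk
  omega

theorem g1Of_lt (hβ : L.Safe β) {t len : ℕ} (h : t + len ≤ L.F) (b : Bv) :
    g1Of L t len β b < G1' L t len := by
  have hG : 0 < L.G1 := by
    have h0 : 0 < L.G1 * L.g ^ L.F * L.Pre := Nat.lt_of_le_of_lt (Nat.zero_le _) hβ.hi
    exact Nat.pos_of_mul_pos_right (Nat.pos_of_mul_pos_right h0)
  rw [G1', mul_comm]
  refine step_lt (Nat.mod_lt _ hG) (dsum_lt fun j hj => ?_)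
  have := chunk_le hβ b (j := t + len + j) (by omega)
  omega

theorem g2Of_lt (hβ : L.Safe β) {t len : ℕ} (h : t + len ≤ L.F) (b : Bv) :
    g2Of L t len β b < G2' L t len := by
  rw [G2', show L.g ^ (L.F - len) * L.G2 * L.R ^ t = L.R ^ t * L.G2 * L.g ^ (L.F - len) by ring]
  refine step_lt (step_lt (dsum_lt fun j hj => ?_) hβ.p) (dsum_lt fun j hj => ?_)
  · have := chunk_le hβ b (j := j) (by omega)
    omega
  · have := hβ.a (len + j) (by omega)
    omega

/-- The gadget on a safe address: the selected bits of the target chunks change by the mask. -/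
theorem layIdx_addr (hR : 2 ∣ L.R) (hβ : L.Safe β) {t len : ℕ} (h : t + len ≤ L.F)
    (zf : ℕ → ℕ → ℕ) (b b' : Bv) (hz : ∀ i < len, zf (g1Of L t len β b) i ≤ 1)
    (h1 : ∀ k, ¬ (t ≤ k ∧ k < t + len) → b' k = b k)
    (h2 : ∀ i < len, b' (t + i) = b (t + i) + (zf (g1Of L t len β b) i : ZMod 2)) :
    layIdx L t len zf (L.addr β b) = L.addr β b' := by
  rcases Nat.eq_zero_or_pos len with rfl | hlen
  · have : b' = b := funext fun k => h1 k (by omega)
    subst this
    have hZ : β.z < L.Z := hβ.z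
    rw [addr_eq_h7 L h, layIdx]
    unfold gadIdx
    simp only [pow_zero]
    have hy : dsum L.R 0 (fun j => chunk β b' (t + j)) < 1 := by simp
    have hb : dsum L.g 0 β.a < 1 := by simp
    have ha : β.hi / L.G1 % 1 < 1 := Nat.mod_lt _ one_pos
    have e1 := g1Of_lt hβ h b'
    have e2 := g2Of_lt hβ h b'
    have m : ∀ x, x % 1 < 1 := fun x => Nat.mod_lt _ one_pos
    rw [swap_h7 _ ha e1 hy e2 hb hZ, rotY_h7 _ _ hy e2 ha hZ, swap_h7 _ hb e1 (m _) e2 ha hZ,
      rotB_h7 _ _ hb hZ, swap_h7 _ ha e1 (m _) e2 (m _) hZ, rotY_h7 _ _ (m _) e2 ha hZ,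
      swap_h7 _ (m _) e1 (m _) e2 ha hZ, rotB_h7 _ _ (m _) hZ]
    simp [Nat.mod_one]
  have hg : 0 < L.g := by have := hβ.a 0 (by omega); omega
  have hR0 : 0 < L.R := by have := chunk_le hβ b (j := 0) (by omega); omega
  have cy : ∀ i < len, chunk β b (t + i) < L.R := fun i hi => by
    have := chunk_le hβ b (j := t + i) (by omega); omega
  have ca : ∀ i < len, β.a i < L.g := fun i hi => by have := hβ.a i (by omega); omega
  have e1 : g1Of L t len β b' = g1Of L t len β b := by
    unfold g1Of chunk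
    congr 1
    exact dsum_congr fun j _ => by rw [h1 _ (by omega)]
  have e2 : g2Of L t len β b' = g2Of L t len β b := by
    have : dsum L.R t (chunk β b') = dsum L.R t (chunk β b) :=
      dsum_congr fun j hj => by unfold chunk; rw [h1 _ (by omega)]
    rw [g2Of, g2Of, this]
  rw [addr_eq_h7 L h, addr_eq_h7 L h β b', layIdx, e1, e2,
    gadIdx_h7 zf _ hR hg hR0 (Nat.mod_lt _ (pow_pos hg _)) (g1Of_lt hβ h b) (dsum_lt cy)
      (g2Of_lt hβ h b) (dsum_lt ca) hβ.z hz]
  · congr 1
    refine dsum_congr fun i hi => ?_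
    rw [dig_dsum cy hi, xb, chunk, chunk, h2 i hi, ZMod.val_add, ZMod.val_natCast]
    have : (b (t + i)).val < 2 := ZMod.val_lt _
    omega
  · intro i hi
    rw [dig_dsum cy hi]
    have := chunk_le hβ b (j := t + i) (by omega)
    omega
  · intro i hi
    rw [dig_dsum ca hi]
    have := hβ.a i (by omega)
    omega

theorem zx_g1Of (hR : 2 ∣ L.R) (hβ : L.Safe β) {t s len : ℕ} (hts : t + len ≤ s)
    (hs : s + len ≤ L.F) (b : Bv) {i : ℕ} (hi : i < len) :
    zx L.R (s - t - len) (g1Of L t len β b) i = (b (s + i)).val := by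
  have hc : ∀ j < L.F - t - len, chunk β b (t + len + j) < L.R := fun j hj => by
    have := chunk_le hβ b (j := t + len + j) (by omega); omega
  have hlt : s - t - len + i < L.F - t - len := by omega
  rw [zx, dig_two hR, g1Of, dig_eq_of_mod (w := L.R ^ (L.F - t - len))
    (by rw [← pow_succ]; exact pow_dvd_pow _ hlt) (Nat.mul_add_mod_self_right _ _ _),
    dig_dsum hc hlt, chunk, show t + len + (s - t - len + i) = s + i by omega]
  have : (b (s + i)).val < 2 := ZMod.val_lt _
  omega

end safe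

end Gad

section spec

variable {α : Type} {L : Lay} {β : Base} {l : List α} {t s len : ℕ}

@[simp] theorem length_xorL (d : α) (L : Lay) (t s len : ℕ) (l : List α) :
    (xorL d L t s len l).length = l.length := length_perm _ _ _

@[simp] theorem length_flipL (d : α) (L : Lay) (t len : ℕ) (l : List α) :
    (flipL d L t len l).length = l.length := length_perm _ _ _

/-- the gadget only permutes records (at all addresses) -/
theorem mem_xorL {d a : α} (hl : l.length = L.N) (ht : t + len ≤ L.F)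
    (h : a ∈ xorL d L t s len l) : a ∈ l :=
  mem_perm (fun _ hj => by rw [hl] at hj ⊢; exact layIdx_lt L _ ht hj) h

theorem mem_flipL {d a : α} (hl : l.length = L.N) (ht : t + len ≤ L.F)
    (h : a ∈ flipL d L t len l) : a ∈ l :=
  mem_perm (fun _ hj => by rw [hl] at hj ⊢; exact layIdx_lt L _ ht hj) h

theorem Gad.addr_lt (hβ : L.Safe β) (b : Bv) : L.addr β b < L.N := by
  have h1 : dsum L.R L.F (chunk β b) < L.R ^ L.F :=
    dsum_lt fun j hj => by have := chunk_le hβ b hj; omega
  have h2 : dsum L.g L.F β.a < L.g ^ L.F := dsum_lt fun j hj => by have := hβ.a j hj; omega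
  have h3 := step_lt (step_lt (step_lt (step_lt hβ.hi h1) hβ.p) h2) hβ.z
  have a5 : L.addr β b = (β.hi * L.R ^ L.F + dsum L.R L.F (chunk β b)) * L.wy +
      (β.p * L.g ^ L.F + dsum L.g L.F β.a) * L.Z + β.z := rfl
  rw [a5]
  unfold Lay.N Lay.wh Lay.wy
  convert h3 using 1 <;> ring

/-- specification of `xorL` on safe addresses -/
theorem getD_xorL (d d' : α) (hR : 2 ∣ L.R) (hl : l.length = L.N) (hts : t + len ≤ s)
    (hs : s + len ≤ L.F) (hβ : L.Safe β) (b : Bv) :
    (xorL d L t s len l).getD (L.addr β b) d' = l.getD (L.addr β (xorMap t s len b)) d := by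
  rw [xorL, getD_perm _ _ _ _ (by rw [hl]; exact Gad.addr_lt hβ b),
    layIdx_addr hR hβ (by omega) _ b (xorMap t s len b)]
  · intro i hi
    rw [zx_g1Of hR hβ hts hs b hi]
    have : (b (s + i)).val < 2 := ZMod.val_lt _
    omega
  · intro k hk
    rw [xorMap, if_neg hk]
  · intro i hi
    rw [zx_g1Of hR hβ hts hs b hi, xorMap, if_pos (by omega), ZMod.natCast_zmod_val,
      show t + i - t + s = s + i by omega]

/-- specification of `flipL` on safe addresses -/
theorem getD_flipL (d d' : α) (hR : 2 ∣ L.R) (hl : l.length = L.N) (ht : t + len ≤ L.F)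
    (hβ : L.Safe β) (b : Bv) :
    (flipL d L t len l).getD (L.addr β b) d' = l.getD (L.addr β (flipMap t len b)) d := by
  rw [flipL, getD_perm _ _ _ _ (by rw [hl]; exact Gad.addr_lt hβ b),
    layIdx_addr hR hβ ht _ b (flipMap t len b)]
  · intro i _
    exact le_rfl
  · intro k hk
    rw [flipMap, if_neg hk]
  · intro i hi
    rw [flipMap, if_pos (by omega), zone, Nat.cast_one]

end spec

end Crest.Agent.X326.B3
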