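import Crest.Agent.X326.B3.Embed
import Crest.Agent.X326.M4.Fft

/-!
Row 326 (S0503), part M3: `H^{⊗ n} = (1 - i) ^ n S C^{⊗ n} S` with `S = diag (1, i)^{⊗ n}`, and the
reading of `H^{⊗ n}` on a layout whose radices are powers of two.
-/

set_option autoImplicit false

namespace Crest.Agent.X326.B3

open Finset

variable {A : Type} [CommRing A]

/-- the butterfly `H` on bit `j` -/
def Hop (j : ℕ) (y : Bv → A) : Bv → A :=
  fun b => if (b j).val = 1 then y (b + Pi.single j 1) - y b else y b + y (b + Pi.single j 1)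

/-- `H` on the bits `0, …, n - 1` -/
def Hrange : ℕ → (Bv → A) → Bv → A
  | 0, y => y
  | n + 1, y => Hop n (Hrange n y)

/-- the number of set bits among the first `n` -/
def cnt (n : ℕ) (b : Bv) : ℕ := ∑ j ∈ range n, (b j).val

theorem cnt_succ (n : ℕ) (b : Bv) : cnt (n + 1) b = cnt n b + (b n).val := by
  unfold cnt; rw [sum_range_succ]

theorem cnt_flip {n j : ℕ} (h : n ≤ j) (b : Bv) : cnt n (b + Pi.single j 1) = cnt n b := by
  unfold cnt
  refine sum_congr rfl (fun k hk => ?_)
  have : k ≠ j := by have := mem_range.1 hk; omega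
  simp [this]

theorem Crange_mul (i hf : A) (lo n : ℕ) (s w : Bv → A)
    (hs : ∀ j < n, ∀ b, s (b + Pi.single (lo + j) 1) = s b) :
    Crange i hf lo n (fun b => s b * w b) = fun b => s b * Crange i hf lo n w b := by
  induction n with
  | zero => rfl
  | succ n ih =>
    funext b
    simp only [Crange, ih (fun j hj => hs j (by omega)), Cop, hs n (by omega), smul_eq_mul]
    ring

theorem Hrange_eq {i hf : A} (hi : i * i = -1) (hhf : 2 * hf = 1) (n : ℕ) (y : Bv → A) :
    Hrange n y = fun b =>
      (1 - i) ^ n * (i ^ cnt n b * Crange i hf 0 n (fun c => i ^ cnt n c * y c) b) := by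
  induction n with
  | zero => funext b; simp [Hrange, Crange, cnt]
  | succ n ih =>
    funext b
    have e1 : (fun c => i ^ cnt (n + 1) c * y c) =
        fun c => i ^ (c n).val * (i ^ cnt n c * y c) := by
      funext c; rw [cnt_succ, pow_add]; ring
    have e2 := Crange_mul i hf 0 n (fun c => i ^ (c n).val) (fun c => i ^ cnt n c * y c)
      (fun j hj c => by
        have : n ≠ j := by omega
        simp [this])
    have h2 : (b n).val < 2 := ZMod.val_lt _
    have e3 : ((b + Pi.single n 1 : Bv) n).val = 1 - (b n).val := by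
      rw [Pi.add_apply, Pi.single_eq_same, Lay.val_add_one]
    have c1 : (1 - i) * i * (hf * (1 + i) * i) = -1 := by
      linear_combination (-hf * (i * i - 2)) * hi - hhf
    have c2 : (1 - i) * i * (hf * (1 - i)) = 1 := by
      linear_combination (hf * i - 2 * hf) * hi + hhf
    have c3 : (1 - i) * (hf * (1 + i)) = 1 := by
      linear_combination (-hf) * hi + hhf
    rw [e1, Crange, e2]
    simp only [Hrange, Hop, ih, Cop, zero_add, smul_eq_mul, cnt_flip le_rfl, cnt_succ, e3]
    generalize Crange i hf 0 n (fun c => i ^ cnt n c * y c) b = u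
    generalize Crange i hf 0 n (fun c => i ^ cnt n c * y c) (b + Pi.single n 1) = u'
    split_ifs with h
    · rw [h, pow_add, pow_succ (1 - i)]
      linear_combination (-((1 - i) ^ n * i ^ cnt n b * u)) * c1 -
        ((1 - i) ^ n * i ^ cnt n b * u') * c2
    · have h0 : (b n).val = 0 := by omega
      rw [h0, pow_succ (1 - i)]
      linear_combination (-((1 - i) ^ n * i ^ cnt n b * u)) * c3 -
        ((1 - i) ^ n * i ^ cnt n b * u') * c2

theorem one_sub_pow_of_dvd {i : A} (hi : i * i = -1) {n : ℕ} (hn : 8 ∣ n) :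
    (1 - i) ^ n = 2 ^ (n / 2) := by
  obtain ⟨e, rfl⟩ := hn
  have h8 : (1 - i) ^ 8 = 2 ^ 4 := by
    have h2 : (1 - i) ^ 2 = -2 * i := by linear_combination hi
    have h4 : (1 - i) ^ 4 = -4 := by
      rw [show 4 = 2 * 2 from rfl, pow_mul, h2]; linear_combination 4 * hi
    rw [show 8 = 4 * 2 from rfl, pow_mul, h4]; norm_num
  rw [pow_mul, h8, ← pow_mul, show 8 * e / 2 = 4 * e by omega]

/-! ### layouts with radices that are powers of two -/

/-- the number of set selected bits of a flat index -/
def sexp (wy R F x : ℕ) : ℕ := ((List.range F).map (fun j => x / (wy * R ^ j) % 2)).sum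

theorem sexp_addr {L : Lay} {β : Base} {sy sa : ℕ} (h : L.Ok sy sa β) (hR : 2 ∣ L.R) (b : Bv) :
    sexp L.wy L.R L.F (L.addr β b) = cnt L.F b := by
  unfold sexp cnt
  rw [show ∀ f : ℕ → ℕ, ((List.range L.F).map f).sum = ∑ j ∈ range L.F, f j from fun _ => rfl]
  exact sum_congr rfl (fun j hj => Lay.addr_div_mod_two h hR (mem_range.1 hj) b)

/-- the bit positions of the selected bits: chunk `j` starts at bit `a + k * j` -/
def fastBits (a k n : ℕ) : List ℕ := ((List.range n).map (fun j => a + k * j)).reverse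

theorem fastBits_succ (a k n : ℕ) : fastBits a k (n + 1) = (a + k * n) :: fastBits a k n := by
  simp [fastBits, List.range_succ]

theorem Hbit_addr {L : Lay} {β : Base} {sy sa a k : ℕ} (h : L.Ok sy sa β) (hy : L.wy = 2 ^ a)
    (hR : L.R = 2 ^ k) (hk : 0 < k) {j : ℕ} (hj : j < L.F) (x : ℕ → A) (b : Bv) :
    M4.Hbit (a + k * j) x (L.addr β b) = Hop j (fun c => x (L.addr β c)) b := by
  have h2 : 2 ∣ L.R := hR ▸ dvd_pow_self 2 hk.ne'
  have hw : L.wy * L.R ^ j = 2 ^ (a + k * j) := by rw [hy, hR, ← pow_mul, ← pow_add]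
  have e1 := Lay.addr_div_mod_two h h2 hj b
  have e2 := Lay.pidx_addr h h2 hj b
  rw [hw] at e1 e2
  rw [pidx_two_pow] at e2
  unfold M4.Hbit Hop
  rw [Nat.testBit_eq_decide_div_mod_eq, e1, e2]
  simp

theorem Hs_addr {L : Lay} {β : Base} {sy sa a k : ℕ} (h : L.Ok sy sa β) (hy : L.wy = 2 ^ a)
    (hR : L.R = 2 ^ k) (hk : 0 < k) {n : ℕ} (hn : n ≤ L.F) (x : ℕ → A) :
    (fun b => M4.Hs (fastBits a k n) x (L.addr β b)) = Hrange n (fun c => x (L.addr β c)) := by
  induction n with
  | zero => rfl
  | succ n ih =>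
    funext b
    rw [fastBits_succ, M4.Hs_cons, Hbit_addr h hy hR hk (by omega), ih (by omega), Hrange]

/-- the layer is three plain butterflies and the butterflies on the fast axes -/
theorem layBits_perm (k F ρ : ℕ) : (M4.layBits k (F + 3) ρ).Perm
    (ρ :: (k * (F + 1) + ρ) :: (k * (F + 2) + ρ) :: fastBits (k + ρ) k F) := by
  have e : M4.layBits k (F + 3) ρ = ρ :: ((List.range F).map (fun j => k + ρ + k * j) ++
      [k * (F + 1) + ρ, k * (F + 2) + ρ]) := by
    unfold M4.layBits
    rw [List.range_succ, List.range_succ, List.range_succ_eq_map]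
    simp only [List.map_append, List.map_cons, List.map_map, List.map_nil, List.cons_append,
      List.append_assoc, List.nil_append, mul_zero, zero_add, List.cons.injEq, true_and]
    congr 1
    exact List.map_congr_left (fun j _ => by simp only [Function.comp, Nat.succ_eq_add_one]; ring)
  rw [e]
  refine List.Perm.cons _ (List.perm_append_comm.trans ?_)
  exact List.Perm.cons _ (List.Perm.cons _ (List.reverse_perm _).symm)

theorem Hlay_eq (k F ρ : ℕ) (x : ℕ → A) : M4.Hlay k (F + 3) ρ x =
    M4.Hbit ρ (M4.Hbit (k * (F + 1) + ρ) (M4.Hbit (k * (F + 2) + ρ)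
      (M4.Hs (fastBits (k + ρ) k F) x))) :=
  M4.Hs_perm (layBits_perm k F ρ) x

end Crest.Agent.X326.B3
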