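import Crest.Agent.X326.B3.LayerPure
import Crest.Agent.X326.B3.BaseTC
import Crest.Agent.X326.M4.TwPT
import Crest.Agent.Lib.PT.ListFns2

/-!
Row 326 (S0503), part M3: the address functions of the layer are polynomial time.
-/

set_option autoImplicit false

namespace Crest.Agent.X326.B3

open Crest.Agent.Lib.PT M4

variable {α : Type} [PTCode α]

theorem ptf_inbStep {s : α → ℕ × Bool} {q : α → ℕ × ℕ} (hs : PTF s) (hq : PTF q) :
    PTF (fun a => inbStep (s a) (q a)) := by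
  have h1 := PTF.comp PTF.fst hs
  have h2 := PTF.comp PTF.snd hs
  have h3 := PTF.comp PTF.fst hq
  have h4 := PTF.comp PTF.snd hq
  exact PTF.prodMk (PTF.natDiv h1 h4) (PTF.and h2 (PTPred.natLt (PTF.natMod h1 h4) h3).toPTF)

theorem ptf_inb {S : α → List (ℕ × ℕ)} {H y : α → ℕ} (hS : PTF S) (hH : PTF H) (hy : PTF y) :
    PTF (fun a => inb (S a) (H a) (y a)) := by
  have h : PTF (fun a => (S a).foldl inbStep (y a, true)) :=
    PTF.foldl_add (f := fun _ s q => inbStep s q) hS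
      (ptf_inbStep (PTF.comp PTF.fst PTF.snd) (PTF.comp PTF.snd PTF.snd))
      (PTF.prodMk hy (PTF.const true)) (PB.const 0) (fun _ s q _ => by
        have := Nat.size_le_size (Nat.div_le_self s.1 q.2)
        simp only [inbStep, sz_prod, sz_nat, sz_bool]
        omega)
  have h1 := PTF.comp PTF.fst h
  have h2 := PTF.comp PTF.snd h
  exact PTF.and h2 (PTPred.natLt h1 hH).toPTF

theorem ptf_shape {L0 L : α → Lay} (h0 : PTF L0) (h : PTF L) :
    PTF (fun a => shape (L0 a) (L a)) :=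
  PTF.listCons (PTF.prodMk (Bf.ptf_Z h0) (Bf.ptf_Z h))
    (PTF.append (PTF.replicate (Bf.ptu_F h0) (PTF.prodMk (Bf.ptf_g h0) (Bf.ptf_g h)))
      (PTF.listCons (PTF.prodMk (Bf.ptf_G2 h0) (Bf.ptf_G2 h))
        (PTF.replicate (Bf.ptu_F h0) (PTF.prodMk (Bf.ptf_R h0) (Bf.ptf_R h)))))

variable {p : α → Par} {ρ : α → ℕ}

theorem ptu_fF (hp : PTF p) : PTU (fun a => fF (p a)) := (ptu_d hp).sub (PTU.const 3)

theorem ptu_fq (hp : PTF p) : PTU (fun a => fq (p a)) := (ptu_fF hp).toPTF.natSizeUn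

theorem ptf_layPre (hp : PTF p) (hρ : PTU ρ) :
    PTF (fun a => 2 ^ (2 * (p a).k - ρ a - fq (p a) * fF (p a))) :=
  PTF.natTwoPow ((((PTU.const 2).mul (ptu_k hp)).sub hρ).sub ((ptu_fq hp).mul (ptu_fF hp)))

theorem ptf_layZ (hp : PTF p) (hρ : PTU ρ) :
    PTF (fun a => 2 ^ ((p a).k + ρ a - fq (p a) * fF (p a))) :=
  PTF.natTwoPow (((ptu_k hp).add hρ).sub ((ptu_fq hp).mul (ptu_fF hp)))

theorem ptf_lay0 (hp : PTF p) (hρ : PTU ρ) : PTF (fun a => lay0 (p a) (ρ a)) :=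
  Bf.ptf_layMk (ptf_layPre hp hρ) (PTF.natTwoPow (ptu_fq hp)) (ptu_fF hp) (PTF.const 1)
    (PTF.natTwoPow (ptu_k hp)) (PTF.const 1) (ptf_layZ hp hρ)

theorem ptf_lay1 (hp : PTF p) (hρ : PTU ρ) : PTF (fun a => lay1 (p a) (ρ a)) :=
  Bf.ptf_layMk (ptf_layPre hp hρ) (PTF.natAdd (PTF.natTwoPow (ptu_fq hp)) (PTF.const 1))
    (ptu_fF hp) (PTF.const 1)
    (PTF.natAdd (PTF.natTwoPow (ptu_k hp))
      (PTF.natMul (PTF.const 2) (PTF.natAdd (PTF.natTwoPow (ptu_fq hp)) (PTF.const 1))))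
    (PTF.const 1) (ptf_layZ hp hρ)

/-- the flag of address `y` -/
def lflag (c : Par × Un) (y : ℕ) : Bool :=
  inb (shape (lay0 c.1 c.2.val) (lay1 c.1 c.2.val)) (2 ^ (2 * c.1.k - c.2.val)) y

theorem ptf_lflag : PTF (fun q : (Par × Un) × ℕ => lflag q.1 q.2) := by
  have hp : PTF (fun q : (Par × Un) × ℕ => q.1.1) := PTF.comp PTF.fst PTF.fst
  have hρ : PTU (fun q : (Par × Un) × ℕ => q.1.2.val) :=
    PTU.val (f := fun q : (Par × Un) × ℕ => q.1.2) (PTF.comp PTF.snd PTF.fst)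
  exact ptf_inb (ptf_shape (ptf_lay0 hp hρ) (ptf_lay1 hp hρ))
    (PTF.natTwoPow (((PTU.const 2).mul (ptu_k hp)).sub hρ)) PTF.snd

theorem ptf_sexp {a k F x : α → ℕ} (ha : PTF a) (hk : PTF k) (hF : PTU F) (hx : PTF x) :
    PTF (fun z => sexp (2 ^ a z) (2 ^ k z) (F z) (x z)) := by
  have h : PTF (fun z => ∑ j ∈ Finset.range (F z), (x z >>> (a z + k z * j)) % 2) :=
    PTF.natSumRange hF (f := fun z j => (x z >>> (a z + k z * j)) % 2)
      (PTF.natMod (PTF.natShiftRight (PTF.comp hx PTF.fst)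
        (PTF.natAdd (PTF.comp ha PTF.fst) (PTF.natMul (PTF.comp hk PTF.fst) PTF.snd)))
        (PTF.const 2))
  refine h.of_eq (fun z => ?_)
  unfold sexp
  rw [show ∀ f : ℕ → ℕ, ((List.range (F z)).map f).sum = ∑ j ∈ Finset.range (F z), f j from
    fun _ => rfl]
  refine Finset.sum_congr rfl (fun j _ => ?_)
  rw [Nat.shiftRight_eq_div_pow, pow_add, pow_mul]

theorem ptf_sE {x : α → ℕ} (hp : PTF p) (hρ : PTU ρ) (hx : PTF x) :
    PTF (fun a => sE (p a) (ρ a) (x a)) :=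
  PTF.natMod (PTF.natMul (PTF.natDiv (ptf_r hp) (PTF.const 2))
    (ptf_sexp ((ptu_k hp).add hρ).toPTF (ptu_k hp).toPTF (ptu_fF hp) hx))
    (PTF.natMul (PTF.const 2) (ptf_r hp))

end Crest.Agent.X326.B3
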