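import Crest.Agent.X326.B3.HC
import Crest.Agent.X326.B3.Base
import Crest.Agent.X326.B3.Spec
import Crest.Agent.X326.M4.Bridge

/-!
Row 326 (S0503), part M3: the layer of butterflies on bit `ρ` of all axes, from part B.
Definitions and correctness.
-/

set_option autoImplicit false

namespace Crest.Agent.X326.B3

open M4 Crest.Agent.Lib.PT

/-- lists of records -/
abbrev RL : Type := List (List ℕ)

/-- multiplication by `y ^ e.2` modulo `e.1` -/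
def rotOp (e : ℕ × ℕ) (a : List ℕ) : List ℕ := recRot e.1 e.2 a

/-- multiply record number `n` by `y ^ e n` -/
def stw (M : ℕ) (e : ℕ → ℕ) (l : RL) : RL :=
  List.zipWith rotOp ((List.range l.length).map (fun n => (M, e n))) l

theorem wfa_stw {N r M : ℕ} {l : RL} (h : WFA N r M l) (e : ℕ → ℕ) : WFA N r M (stw M e l) := by
  refine ⟨by simp [stw, h.1], fun x hx => ?_⟩
  obtain ⟨i, hi, rfl⟩ := List.getElem_of_mem hx
  simp only [stw, List.getElem_zipWith, List.getElem_map, rotOp]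
  exact (h.2 _ (List.getElem_mem _)).rot _

theorem arr_stw {N r M : ℕ} {l : RL} (h : WFA N r M l) {e : ℕ → ℕ} {n : ℕ} (hn : n < N)
    (he : e n ≤ 2 * r) : arr r M (stw M e l) n = yR r M ^ e n * arr r M l n := by
  have h1 : n < l.length := by rw [h.1]; exact hn
  have h2 : (stw M e l).getD n [] = recRot M (e n) (l.getD n []) := by
    rw [List.getD_eq_getElem _ _ (by simpa [stw] using h1), List.getD_eq_getElem _ _ h1]
    simp [stw, rotOp]
  rw [arr, h2, ev_rot (cast_M_Rg r M) (yR_pow r M) (h.getD hn) he, arr]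

/-- number of fast axes -/
def fF (p : Par) : ℕ := p.d - 3

/-- bits per slot of the lower ancilla -/
def fq (p : Par) : ℕ := (fF p).size

/-- the natural layout, bracketed at bit `ρ` -/
def lay0 (p : Par) (ρ : ℕ) : Lay :=
  ⟨2 ^ (2 * p.k - ρ - fq p * fF p), 2 ^ fq p, fF p, 1, 2 ^ p.k, 1, 2 ^ (p.k + ρ - fq p * fF p)⟩

/-- the safe layout -/
def lay1 (p : Par) (ρ : ℕ) : Lay :=
  ⟨2 ^ (2 * p.k - ρ - fq p * fF p), 2 ^ fq p + 1, fF p, 1, 2 ^ p.k + 2 * (2 ^ fq p + 1), 1,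
    2 ^ (p.k + ρ - fq p * fF p)⟩

/-- the flags of the embedding -/
def lflags (p : Par) (ρ : ℕ) : List Bool :=
  flags (shape (lay0 p ρ) (lay1 p ρ)) (2 ^ (2 * p.k - ρ)) (lay1 p ρ).N

/-- the exponent of `y` in the diagonal map `S` -/
def sE (p : Par) (ρ x : ℕ) : ℕ :=
  p.r / 2 * sexp (2 ^ (p.k + ρ)) (2 ^ p.k) (fF p) x % (2 * p.r)

/-- input of part B -/
abbrev PBIn : Type := (ℕ × ℕ) × Lay × (Un × Un) × List (List ℕ)

/-- the input of part B in the layer -/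
def pbIn (m : ℕ) (p : Par) (ρ : ℕ) (l : RL) : PBIn :=
  ((p.M, p.r), lay1 p ρ, (⟨0⟩, ⟨Nat.log m (fF p)⟩),
    embL (lflags p ρ) (recZero p.r) (stw p.M (sE p ρ) l))

/-- the butterflies on the fast axes -/
def fastL (m : ℕ) (pb : PBIn → RL) (p : Par) (ρ : ℕ) (l : RL) : RL :=
  (stw p.M (sE p ρ) (filterBy (lflags p ρ) (pb (pbIn m p ρ l)))).map (recShift p.P (fF p / 2))

/-- the layer -/
def layerL (m : ℕ) (pb : PBIn → RL) (p : Par) (ρ : ℕ) (l : RL) : RL :=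
  hPass p.M ρ (hPass p.M (p.k * (fF p + 1) + ρ) (hPass p.M (p.k * (fF p + 2) + ρ)
    (fastL m pb p ρ l)))

/-- side conditions of the layer (`2 ^ w` streams, `m` groups) -/
def LayerOk (w m : ℕ) (p : Par) : Prop :=
  p.Ok ∧ ∃ j, 1 ≤ j ∧ p.d = m ^ j + 3 ∧
    m ^ j * (m ^ j).size + w * j + 2 * (m ^ j).size + 3 ≤ p.k

/-- the facts used below -/
structure LFacts (w m : ℕ) (p : Par) : Prop where
  ok : p.Ok
  d_eq : p.d = fF p + 3
  pow_eq : m ^ Nat.log m (fF p) = fF p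
  dvd : 8 ∣ fF p
  pos : 0 < fF p
  room : fq p * fF p + w * Nat.log m (fF p) + 2 * fq p + 3 ≤ p.k

theorem LayerOk.facts {w m : ℕ} (hm : 8 ∣ m) (hm0 : 0 < m) {p : Par} (h : LayerOk w m p) :
    LFacts w m p := by
  obtain ⟨hok, j, hj, hd, hr⟩ := h
  have hF : fF p = m ^ j := by unfold fF; omega
  have hm1 : 1 < m := by have := Nat.le_of_dvd hm0 hm; omega
  have hl : Nat.log m (fF p) = j := by rw [hF, Nat.log_pow hm1]
  refine ⟨hok, by rw [hF, hd], by rw [hl, hF], ?_, ?_, ?_⟩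
  · rw [hF]; exact hm.trans (dvd_pow_self m (by omega))
  · rw [hF]; positivity
  · rw [hl, fq, hF, mul_comm]; exact hr

section Facts

variable {w m : ℕ} {p : Par} {ρ : ℕ}

theorem lay0_wy (h : LFacts w m p) (ρ : ℕ) : (lay0 p ρ).wy = 2 ^ (p.k + ρ) := by
  have := h.room
  simp only [lay0, Lay.wy, mul_one]
  rw [← pow_mul, ← pow_add]
  congr 1; omega

theorem lay0_hi (h : LFacts w m p) (hρ : ρ < p.k) :
    (lay0 p ρ).G1 * (lay0 p ρ).g ^ (lay0 p ρ).F * (lay0 p ρ).Pre = 2 ^ (2 * p.k - ρ) := by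
  have := h.room
  simp only [lay0, one_mul]
  rw [← pow_mul, ← pow_add]
  congr 1; omega

theorem prodS_lay (h : LFacts w m p) (hρ : ρ < p.k) :
    prodS (shape (lay0 p ρ) (lay1 p ρ)) * 2 ^ (2 * p.k - ρ) = p.N := by
  rw [prodS_shape, lay0_wy h, Par.N, h.d_eq]
  simp only [lay0]
  rw [← pow_mul, ← pow_add, ← pow_add]
  congr 1
  have : p.k * (fF p + 3) = p.k * fF p + 3 * p.k := by ring
  omega

theorem lay0_N (h : LFacts w m p) (hρ : ρ < p.k) : (lay0 p ρ).N = p.N := by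
  rw [← prodS_lay h hρ, prodS_shape, ← lay0_hi h hρ, Lay.N, Lay.wh]; ring

theorem grow_lay (p : Par) (ρ : ℕ) : Grow (shape (lay0 p ρ) (lay1 p ρ)) := by
  intro q hq
  simp only [shape, lay0, lay1, List.mem_cons, List.mem_append, List.mem_replicate] at hq
  rcases hq with rfl | ⟨_, rfl⟩ | rfl | ⟨_, rfl⟩ <;> simp

theorem prodT_lay (h : LFacts w m p) (hρ : ρ < p.k) :
    prodT (shape (lay0 p ρ) (lay1 p ρ)) * 2 ^ (2 * p.k - ρ) ≤ (lay1 p ρ).N := by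
  rw [prodT_shape (L0 := lay0 p ρ) (L := lay1 p ρ) rfl, ← lay0_hi h hρ, Lay.N, Lay.wh]
  have h1 : (lay0 p ρ).g ^ (lay0 p ρ).F ≤ (lay1 p ρ).g ^ (lay1 p ρ).F :=
    Nat.pow_le_pow_left (Nat.le_succ _) _
  calc (lay1 p ρ).wy * (lay1 p ρ).R ^ (lay1 p ρ).F *
        ((lay0 p ρ).G1 * (lay0 p ρ).g ^ (lay0 p ρ).F * (lay0 p ρ).Pre)
      ≤ (lay1 p ρ).wy * (lay1 p ρ).R ^ (lay1 p ρ).F *
        ((lay1 p ρ).G1 * (lay1 p ρ).g ^ (lay1 p ρ).F * (lay1 p ρ).Pre) :=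
        Nat.mul_le_mul_left _ (Nat.mul_le_mul_right _ (Nat.mul_le_mul_left _ h1))
    _ = _ := by ring

theorem lay1_good (h : LFacts w m p) (ρ : ℕ) : (lay1 p ρ).Good := by
  have hk := h.ok.k_pos
  refine ⟨Nat.two_pow_pos _, Nat.succ_le_succ Nat.one_le_two_pow, Nat.one_pos, ?_, ?_,
    Nat.one_pos, Nat.two_pow_pos _⟩
  · exact Nat.add_pos_left (Nat.two_pow_pos _) _
  · exact dvd_add (dvd_pow_self 2 (by omega)) (dvd_mul_right _ _)

theorem lay1_safe {β : Base} (hβ : (lay0 p ρ).Ok 0 0 β) : (lay1 p ρ).Safe β := by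
  refine ⟨hβ.hi.trans_le ?_, fun j hj => ?_, hβ.p, fun j hj => ?_, hβ.z⟩
  · exact Nat.mul_le_mul_right _ (Nat.mul_le_mul_left _ (Nat.pow_le_pow_left (Nat.le_succ _) _))
  · have := hβ.h j hj
    simp only [lay0, lay1] at this ⊢
    omega
  · have := hβ.a j hj
    simp only [lay0, lay1] at this ⊢
    omega

theorem lay1_N_le (h : LFacts w m p) (hρ : ρ < p.k) : (lay1 p ρ).N ≤ 27 * p.N := by
  have hq : fF p < 2 ^ fq p := Nat.lt_size_self _
  have h1 : (2 ^ fq p + 1) ^ fF p ≤ 3 * (2 ^ fq p) ^ fF p := add_pow_le_three_mul (by omega)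
  have h2 : (2 ^ p.k + 2 * (2 ^ fq p + 1)) ^ fF p ≤ 3 * (2 ^ p.k) ^ fF p := by
    apply add_pow_le_three_mul
    have h3 : 2 ^ (2 * fq p + 2) ≤ 2 ^ p.k :=
      Nat.pow_le_pow_right (by norm_num) (by have := h.room; omega)
    have h4 : 2 ^ (2 * fq p + 2) = 2 ^ fq p * (2 * (2 ^ fq p + 2 ^ fq p)) := by ring
    have h5 : fF p * (2 * (2 ^ fq p + 1)) ≤ 2 ^ fq p * (2 * (2 ^ fq p + 2 ^ fq p)) :=
      Nat.mul_le_mul hq.le (by omega)
    omega
  rw [← lay0_N h hρ]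
  simp only [Lay.N, Lay.wh, Lay.wy, lay0, lay1, mul_one]
  generalize 2 ^ (p.k + ρ - fq p * fF p) = Z at *
  generalize 2 ^ (2 * p.k - ρ - fq p * fF p) = Pre at *
  calc Z * (2 ^ fq p + 1) ^ fF p * (2 ^ p.k + 2 * (2 ^ fq p + 1)) ^ fF p *
        (2 ^ fq p + 1) ^ fF p * Pre
      ≤ Z * (3 * (2 ^ fq p) ^ fF p) * (3 * (2 ^ p.k) ^ fF p) * (3 * (2 ^ fq p) ^ fF p) * Pre := by
        gcongr
    _ = _ := by ring

theorem LFacts.r_even (h : LFacts w m p) : p.r % 2 = 0 := by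
  have h1 := h.room
  have h2 := h.ok.k_le
  obtain ⟨e, he⟩ : ∃ e, p.lr = e + 1 := ⟨p.lr - 1, by omega⟩
  rw [Par.r, he, pow_succ]; omega

theorem LFacts.M_odd (h : LFacts w m p) : p.M % 2 = 1 :=
  two_pow_sub_one_odd (by have := h.ok.P_ge; omega)

theorem LFacts.M_pos (h : LFacts w m p) : 0 < p.M := by have := h.M_odd; omega

theorem LFacts.F_le (h : LFacts w m p) : fF p ≤ p.P := by
  have h1 := h.ok.kd_le
  have h2 : 1 * p.d ≤ p.k * p.d := Nat.mul_le_mul_right _ h.ok.k_pos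
  have := h.d_eq
  omega

theorem sE_le (p : Par) (ρ x : ℕ) : sE p ρ x ≤ 2 * p.r :=
  (Nat.mod_lt _ (by have : 0 < p.r := Nat.two_pow_pos _; omega)).le

theorem pbIn_dom (h : LFacts w m p) (hρ : ρ < p.k) {l : RL} (hl : p.WF l) :
    PartBDom (2 ^ w) m (pbIn m p ρ l) := by
  have ht := wfa_stw hl (sE p ρ)
  refine ⟨lay1_good h ρ, ?_, ?_, ?_, fun x hx => ?_⟩
  · simp only [pbIn, zero_add, h.pow_eq]; exact le_rfl
  · simp only [pbIn, lay1]
    rw [← pow_mul]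
    exact pow_dvd_pow 2 (by have := h.room; omega)
  · exact length_embL (grow_lay p ρ) (prodT_lay h hρ) _ (ht.1.trans (prodS_lay h hρ).symm)
  · rcases mem_of_mem_embL hx with hx | rfl
    · exact ht.2 x hx
    · exact wf_zero h.M_pos

end Facts

/-- the specification of part B -/
def PBSpec (W m : ℕ) (pb : PBIn → RL) : Prop :=
  ∀ (M r : ℕ) (L : Lay) (lo j : ℕ) (l : List (List ℕ)),
    PartBDom W m ((M, r), L, (⟨lo⟩, ⟨j⟩), l) →
    WFL L r M (pb ((M, r), L, (⟨lo⟩, ⟨j⟩), l)) ∧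
    ∀ (A : Type) [CommRing A] (y hf : A), (M : A) = 0 → M % 2 = 1 → y ^ r = -1 →
      r % 2 = 0 → 2 * hf = 1 → ∀ β, L.Safe β →
        fib y L β (pb ((M, r), L, (⟨lo⟩, ⟨j⟩), l)) =
          Crange (y ^ (r / 2)) hf lo (m ^ j) (fib y L β l)

section Correct

variable {w m : ℕ} {p : Par} {ρ : ℕ} {pb : PBIn → RL} {l : RL}

theorem wfl_pb (hpb : PBSpec (2 ^ w) m pb) (h : LFacts w m p) (hρ : ρ < p.k) (hl : p.WF l) :
    WFL (lay1 p ρ) p.r p.M (pb (pbIn m p ρ l)) :=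
  (hpb _ _ _ _ _ _ (pbIn_dom h hρ hl)).1

theorem filter_pb (hpb : PBSpec (2 ^ w) m pb) (h : LFacts w m p) (hρ : ρ < p.k) (hl : p.WF l) :
    filterBy (lflags p ρ) (pb (pbIn m p ρ l)) = (List.range p.N).map
      (fun x => (pb (pbIn m p ρ l)).getD (rb (shape (lay0 p ρ) (lay1 p ρ)) x) []) := by
  rw [lflags, filterBy_flags (grow_lay p ρ) (prodT_lay h hρ) [] (wfl_pb hpb h hρ hl).1,
    prodS_lay h hρ]

theorem wf_filter_pb (hpb : PBSpec (2 ^ w) m pb) (h : LFacts w m p) (hρ : ρ < p.k)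
    (hl : p.WF l) : p.WF (filterBy (lflags p ρ) (pb (pbIn m p ρ l))) :=
  ⟨by rw [filter_pb hpb h hρ hl]; simp,
    fun x hx => (wfl_pb hpb h hρ hl).2 x (mem_of_mem_filterBy hx)⟩

theorem wf_fastL (hpb : PBSpec (2 ^ w) m pb) (h : LFacts w m p) (hρ : ρ < p.k) (hl : p.WF l) :
    p.WF (fastL m pb p ρ l) := by
  have ht := wfa_stw (wf_filter_pb hpb h hρ hl) (sE p ρ)
  refine ⟨by simp [fastL, ht.1], fun x hx => ?_⟩
  obtain ⟨z, hz, rfl⟩ := List.mem_map.1 hx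
  exact WF.shift h.ok.P_ge (by have := h.F_le; omega) (ht.2 z hz)

theorem pow_sE (h : LFacts w m p) {β : Base} (hβ : (lay0 p ρ).Ok 0 0 β) (b : Bv) :
    yR p.r p.M ^ sE p ρ ((lay0 p ρ).addr β b) = (yR p.r p.M ^ (p.r / 2)) ^ cnt (fF p) b := by
  have h2 : 2 ∣ (lay0 p ρ).R := dvd_pow_self 2 (by have := h.ok.k_pos; omega)
  have h3 := sexp_addr hβ h2 b
  rw [lay0_wy h] at h3
  rw [sE, pow_mod_two_mul (yR_pow _ _), pow_mul]
  exact congrArg _ h3

theorem arr_fastL (hpb : PBSpec (2 ^ w) m pb) (h : LFacts w m p) (hρ : ρ < p.k) (hl : p.WF l) :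
    ∀ n < p.N, arr p.r p.M (fastL m pb p ρ l) n =
      Hs (fastBits (p.k + ρ) p.k (fF p)) (arr p.r p.M l) n := by
  intro n hn
  have h2 : 2 ∣ (lay0 p ρ).R := dvd_pow_self 2 (by have := h.ok.k_pos; omega)
  obtain ⟨β, b, hβ, rfl⟩ := exists_addr (lay0 p ρ) h2 (hn.trans_eq (lay0_N h hρ).symm)
  have hlt : ∀ c, (lay0 p ρ).addr β c < p.N := fun c => lay0_N h hρ ▸ Lay.addr_lt_N hβ c
  have hi : yR p.r p.M ^ (p.r / 2) * yR p.r p.M ^ (p.r / 2) = -1 :=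
    pow_half_sq (yR_pow _ _) h.r_even
  have hhf := two_mul_hfR p.r h.M_odd
  have hf := wf_filter_pb hpb h hρ hl
  have ht := wfa_stw hf (sE p ρ)
  have hrb : ∀ c, rb (shape (lay0 p ρ) (lay1 p ρ)) ((lay0 p ρ).addr β c) = (lay1 p ρ).addr β c :=
    fun c => rb_addr (L0 := lay0 p ρ) (L := lay1 p ρ) rfl hβ c
  -- the last two passes
  have e1 : arr p.r p.M (fastL m pb p ρ l) ((lay0 p ρ).addr β b) = 2 ^ (fF p / 2) *
      arr p.r p.M (stw p.M (sE p ρ) (filterBy (lflags p ρ) (pb (pbIn m p ρ l))))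
        ((lay0 p ρ).addr β b) := by
    have h1 : (lay0 p ρ).addr β b <
        (stw p.M (sE p ρ) (filterBy (lflags p ρ) (pb (pbIn m p ρ l)))).length := by
      rw [ht.1]; exact hn
    have e : (fastL m pb p ρ l).getD ((lay0 p ρ).addr β b) [] = recShift p.P (fF p / 2)
        ((stw p.M (sE p ρ) (filterBy (lflags p ρ) (pb (pbIn m p ρ l)))).getD
          ((lay0 p ρ).addr β b) []) := by
      rw [fastL, List.getD_eq_getElem _ _ (by simpa using h1), List.getD_eq_getElem _ _ h1,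
        List.getElem_map]
    rw [arr, e]
    exact ev_shift (cast_M_Rg p.r _) h.ok.P_ge (by have := h.F_le; omega) (WFA.getD ht hn)
  have e2 : arr p.r p.M (filterBy (lflags p ρ) (pb (pbIn m p ρ l))) ((lay0 p ρ).addr β b) =
      fib (yR p.r p.M) (lay1 p ρ) β (pb (pbIn m p ρ l)) b := by
    rw [arr, filter_pb hpb h hρ hl, getD_map_range _ hn, hrb, fib]
  have e3 : fib (yR p.r p.M) (lay1 p ρ) β (embL (lflags p ρ) (recZero p.r)
      (stw p.M (sE p ρ) l)) = fun c => (yR p.r p.M ^ (p.r / 2)) ^ cnt (fF p) c *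
        arr p.r p.M l ((lay0 p ρ).addr β c) := by
    funext c
    rw [fib, ← hrb, lflags, getD_embL (grow_lay p ρ) (prodT_lay h hρ) _ _
      ((wfa_stw hl _).1.trans (prodS_lay h hρ).symm) ((hlt c).trans_eq (prodS_lay h hρ).symm),
      ← pow_sE h hβ, ← arr_stw hl (hlt c) (sE_le p ρ _), arr]
  have e4 := (hpb _ _ _ _ _ _ (pbIn_dom h hρ hl)).2 _ (yR p.r p.M) (hfR p.r p.M)
    (cast_M_Rg _ _) h.M_odd (yR_pow _ _) h.r_even hhf β (lay1_safe hβ)
  have e5 := congrFun (Hs_addr hβ (lay0_wy h ρ) (k := p.k) rfl h.ok.k_pos (n := fF p) le_rfl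
    (arr p.r p.M l)) b
  rw [e1, arr_stw hf hn (sE_le p ρ _), e2, pow_sE h hβ, e5, Hrange_eq hi hhf,
    one_sub_pow_of_dvd hi h.dvd, ← e3, ← h.pow_eq, ← e4, h.pow_eq]
  rfl

theorem wf_hPass_par {j : ℕ} (hj : j < p.k * p.d) (hl : p.WF l) : p.WF (hPass p.M j l) := by
  refine ⟨(length_hPass ?_).trans hl.1, wf_hPass hl.2⟩
  rw [hl.1, Par.N, ← pow_succ']
  exact pow_dvd_pow 2 hj

theorem arr_hPass {j : ℕ} (hj : j < p.k * p.d) (hl : p.WF l) {a : ℕ → Rg p.r p.M}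
    (ha : ∀ n < p.N, arr p.r p.M l n = a n) :
    ∀ n < p.N, arr p.r p.M (hPass p.M j l) n = Hbit j a n := fun n hn =>
  (ev_hPass (cast_M_Rg _ _) hj hl.1 hl.2 hn).trans (Hbit_congr hj ha n hn)

theorem LFacts.pos_lt (h : LFacts w m p) (hρ : ρ < p.k) {i : ℕ} (hi : i < fF p + 3) :
    p.k * i + ρ < p.k * p.d := M4.pos_lt (h.d_eq ▸ hi) hρ

theorem LFacts.rho_lt (h : LFacts w m p) (hρ : ρ < p.k) : ρ < p.k * p.d := by
  simpa using h.pos_lt hρ (i := 0) (by omega)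

theorem wf_layerL (hpb : PBSpec (2 ^ w) m pb) (h : LFacts w m p) (hρ : ρ < p.k) (hl : p.WF l) :
    p.WF (layerL m pb p ρ l) :=
  wf_hPass_par (h.rho_lt hρ) (wf_hPass_par (h.pos_lt hρ (by omega))
    (wf_hPass_par (h.pos_lt hρ (by omega)) (wf_fastL hpb h hρ hl)))

theorem arr_layerL (hpb : PBSpec (2 ^ w) m pb) (h : LFacts w m p) (hρ : ρ < p.k) (hl : p.WF l) :
    ∀ n < p.N, arr p.r p.M (layerL m pb p ρ l) n = Hlay p.k p.d ρ (arr p.r p.M l) n := by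
  have h0 := wf_fastL hpb h hρ hl
  have h1 := wf_hPass_par (h.pos_lt hρ (i := fF p + 2) (by omega)) h0
  have h2 := wf_hPass_par (h.pos_lt hρ (i := fF p + 1) (by omega)) h1
  rw [h.d_eq, Hlay_eq]
  exact arr_hPass (h.rho_lt hρ) h2 (arr_hPass (h.pos_lt hρ (by omega)) h1
    (arr_hPass (h.pos_lt hρ (by omega)) h0 (arr_fastL hpb h hρ hl)))

end Correct

end Crest.Agent.X326.B3
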