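import Crest.Agent.X326.B3.Alg
import Crest.Agent.X326.B3.StreamsTC
import Crest.Agent.X326.TC.RecStage
import Crest.Agent.X326.TC.Un

/-!
Row 326 (S0503), part M3: running time of the recursion `pbL`.
-/

set_option autoImplicit false

namespace Crest.Agent.X326.B3.PB

open Crest.Agent.Lib.PT Crest.Agent.X326.M4

/-- input of a node -/
abbrev XT : Type := (ℕ × ℕ) × Lay × (Un × Un) × Arr

/-- state of a node: `((M, r), L', (lo, j', f))` and the streams -/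
abbrev ZT : Type := ((ℕ × ℕ) × Lay × (Un × Un × Un)) × List Arr

section

variable {W m : ℕ} (gad : GadT) (bf : BaseT) (P : List (Ins W m)) (ρ : Fin W → Fin W)

/-- the recursion as a function of one argument -/
def pbF (x : XT) : Arr := pbL gad bf P ρ x.1.1 x.1.2 x.2.2.1.2.val x.2.1 x.2.2.1.1.val x.2.2.2

/-- input of the gadget for `xor` -/
def xorIn (w t s : ℕ) (z : ZT) : Lay × (Bool × Un × Un × Un) × Arr :=
  (z.1.2.1, (true, ⟨z.1.2.2.1.val + t * z.1.2.2.2.2.val⟩, ⟨z.1.2.2.1.val + s * z.1.2.2.2.2.val⟩,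
    ⟨z.1.2.2.2.2.val⟩), z.2.getD w [])

/-- input of the gadget for `flip` -/
def flipIn (w t : ℕ) (z : ZT) : Lay × (Bool × Un × Un × Un) × Arr :=
  (z.1.2.1, (false, ⟨z.1.2.2.1.val + t * z.1.2.2.2.2.val⟩,
    ⟨z.1.2.2.1.val + t * z.1.2.2.2.2.val + z.1.2.2.2.2.val⟩, ⟨z.1.2.2.2.2.val⟩), z.2.getD w [])

/-- input of the child call -/
def callIn (w s : ℕ) (z : ZT) : XT :=
  (z.1.1, z.1.2.1, (⟨z.1.2.2.1.val + s * z.1.2.2.2.2.val⟩, z.1.2.2.2.1), z.2.getD w [])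

/-- the stage of an instruction -/
def stage : Ins W m → Stage XT Arr ZT
  | .add w w' a e => .free (fun z =>
      (z.1, z.2.set w (addL z.1.1.1 a e (z.2.getD w []) (z.2.getD w' []))))
  | .xor w t s => .free (fun z => (z.1, z.2.set w (gad (xorIn w t s z))))
  | .flip w t => .free (fun z => (z.1, z.2.set w (gad (flipIn w t z))))
  | .call w s => Stage.call (callIn w s) (fun z y => (z.1, z.2.set w y))

theorem run_stage (ins : Ins W m) (M r : ℕ) (L : Lay) (lo j f : ℕ) (ws : List Arr) :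
    (stage gad ins).run (pbF gad bf P ρ) (((M, r), L, (⟨lo⟩, ⟨j⟩, ⟨f⟩)), ws) =
      (((M, r), L, (⟨lo⟩, ⟨j⟩, ⟨f⟩)),
        execL gad M L lo f (fun lo' l' => pbL gad bf P ρ M r j L lo' l') ws ins) := by
  cases ins <;> rfl

theorem runStages_eq (Q : List (Ins W m)) (M r : ℕ) (L : Lay) (lo j f : ℕ) (ws : List Arr) :
    runStages (pbF gad bf P ρ) (Q.map (stage gad)) (((M, r), L, (⟨lo⟩, ⟨j⟩, ⟨f⟩)), ws) =
      (((M, r), L, (⟨lo⟩, ⟨j⟩, ⟨f⟩)),
        Q.foldl (execL gad M L lo f (fun lo' l' => pbL gad bf P ρ M r j L lo' l')) ws) := by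
  induction Q generalizing ws with
  | nil => rfl
  | cons ins Q ih => rw [List.map_cons, runStages_cons, run_stage, ih, List.foldl_cons]

theorem sum_isCall (Q : List (Ins W m)) :
    ((Q.map (stage gad)).map Stage.isCall).sum = ncalls Q := by
  induction Q with
  | nil => rfl
  | cons ins Q ih =>
    rw [List.map_cons, List.map_cons, List.sum_cons, ih]
    cases ins <;> simp [stage, ncalls, Ins.isCall, List.countP_cons, add_comm]

end

/-- descriptor of the state below the node `x` -/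
def desc (W m : ℕ) (x : XT) : (ℕ × ℕ) × Lay × (Un × Un × Un) :=
  (x.1, x.2.1.sub W, (x.2.2.1.1, ⟨x.2.2.1.2.val - 1⟩, ⟨m ^ (x.2.2.1.2.val - 1)⟩))

/-- invariant -/
def Inv (W m : ℕ) (x : XT) (z : ZT) : Prop :=
  z.1 = desc W m x ∧ WFS W (x.2.1.sub W) x.1.2 x.1.1 z.2

theorem WFS.getD {W : ℕ} {L : Lay} {r M : ℕ} {ws : List Arr} (h : WFS W L r M ws) (w : Fin W) :
    WFL L r M (ws.getD w []) := h.2 _ (getD_mem _ (by rw [h.1]; exact w.2))

theorem WFS.set {W : ℕ} {L : Lay} {r M : ℕ} {ws : List Arr} (h : WFS W L r M ws) (w : ℕ)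
    {s : Arr} (hs : WFL L r M s) : WFS W L r M (ws.set w s) :=
  ⟨by rw [List.length_set, h.1], fun t ht => by
    rcases List.mem_or_eq_of_mem_set ht with h1 | h1
    · exact h.2 t h1
    · exact h1 ▸ hs⟩

theorem wfl_gad {gad : GadT} (hg : GadSpec gad) {L : Lay} {src : Bool} {t s len r M : ℕ}
    {l : Arr} (hd : GadDom (L, (src, ⟨t⟩, ⟨s⟩, ⟨len⟩), l)) (hl : WFL L r M l) :
    WFL L r M (gad (L, (src, ⟨t⟩, ⟨s⟩, ⟨len⟩), l)) :=
  ⟨(hg L src t s len l hd).1.trans hl.1, fun x hx => hl.2 x ((hg L src t s len l hd).2.1 x hx)⟩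

theorem group_le {m : ℕ} (s : Fin m) (f : ℕ) : s * f + f ≤ f * m := by
  have := Nat.mul_le_mul_right f (Nat.succ_le_of_lt s.2)
  rw [Nat.succ_mul] at this
  rw [mul_comm f m]
  exact this

theorem group_lt {m : ℕ} {t s : Fin m} (h : t < s) (f : ℕ) : t * f + f ≤ s * f := by
  have := Nat.mul_le_mul_right f (Nat.succ_le_of_lt (show (t : ℕ) < s from h))
  rwa [Nat.succ_mul] at this

/-- the facts about a state of an inner node -/
theorem unpack {W m : ℕ} {x : XT} {z : ZT} (hx : PartBDom W m x)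
    (hb : decide (x.2.2.1.2.val = 0) = false) (hz : Inv W m x z) :
    ∃ M r L lo j l ws, x = ((M, r), L, (⟨lo⟩, ⟨j + 1⟩), l) ∧
      z = (((M, r), Lay.sub L W, (⟨lo⟩, ⟨j⟩, ⟨m ^ j⟩)), ws) ∧ L.Good ∧ (L.sub W).Good ∧
      W ∣ L.Z ∧ W ^ j ∣ (L.sub W).Z ∧ lo + m ^ j * m ≤ L.F ∧ WFL L r M l ∧
      WFS W (L.sub W) r M ws := by
  obtain ⟨⟨M, r⟩, L, ⟨⟨lo⟩, ⟨j⟩⟩, l⟩ := x
  obtain ⟨d, ws⟩ := z
  obtain ⟨h1, h2⟩ := hz
  obtain ⟨g1, g2, g3, g4⟩ := hx
  rcases j with _ | j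
  · simp at hb
  · have hd : W ∣ L.Z := (Dvd.intro_left _ (pow_succ W j).symm).trans g3
    refine ⟨M, r, L, lo, j, l, ws, rfl, ?_, g1, g1.sub hd, hd, ?_, ?_, g4, h2⟩
    · simp only at h1
      rw [h1]
      rfl
    · rw [Lay.sub_Z]
      exact Nat.dvd_div_of_mul_dvd (by rw [mul_comm, ← pow_succ]; exact g3)
    · rw [← pow_succ]
      exact g2

theorem dom_xor {W m : ℕ} {x : XT} {z : ZT} (hx : PartBDom W m x)
    (hb : decide (x.2.2.1.2.val = 0) = false) (hz : Inv W m x z) (w : Fin W) {t s : Fin m}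
    (h : t < s) : GadDom (xorIn w t s z) := by
  obtain ⟨M, r, L, lo, j, l, ws, rfl, rfl, -, g2, -, -, g5, -, g7⟩ := unpack hx hb hz
  have h1 := group_lt h (m ^ j)
  have h2 := group_le s (m ^ j)
  refine ⟨g2, (WFS.getD g7 w).1, ?_, ?_, fun _ => ?_⟩ <;> simp only [xorIn, Lay.sub_F] <;> omega

theorem dom_flip {W m : ℕ} {x : XT} {z : ZT} (hx : PartBDom W m x)
    (hb : decide (x.2.2.1.2.val = 0) = false) (hz : Inv W m x z) (w : Fin W) (t : Fin m) :
    GadDom (flipIn w t z) := by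
  obtain ⟨M, r, L, lo, j, l, ws, rfl, rfl, -, g2, -, -, g5, -, g7⟩ := unpack hx hb hz
  have h2 := group_le t (m ^ j)
  refine ⟨g2, (WFS.getD g7 w).1, ?_, ?_, fun h => ?_⟩
  · simp only [flipIn, le_refl]
  · simp only [flipIn, Lay.sub_F]; omega
  · simp [flipIn] at h

theorem dom_call {W m : ℕ} {x : XT} {z : ZT} (hx : PartBDom W m x)
    (hb : decide (x.2.2.1.2.val = 0) = false) (hz : Inv W m x z) (w : Fin W) (s : Fin m) :
    PartBDom W m (callIn w s z) := by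
  obtain ⟨M, r, L, lo, j, l, ws, rfl, rfl, -, g2, -, g4, g5, -, g7⟩ := unpack hx hb hz
  have h2 := group_le s (m ^ j)
  refine ⟨g2, ?_, g4, WFS.getD g7 w⟩
  simp only [callIn, Lay.sub_F]
  omega

/-- one stage preserves the invariant -/
theorem inv_step {W m : ℕ} {gad : GadT} {F : XT → Arr} (hg : GadSpec gad)
    (hF : ∀ x, PartBDom W m x → WFL x.2.1 x.1.2 x.1.1 (F x)) {ins : Ins W m} (hok : ins.ok)
    {x : XT} {z : ZT} (hx : PartBDom W m x) (hb : decide (x.2.2.1.2.val = 0) = false)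
    (hz : Inv W m x z) : Inv W m x ((stage gad ins).run F z) := by
  cases ins with
  | add w w' a e =>
    obtain ⟨M, r, L, lo, j, l, ws, rfl, rfl, -, -, -, -, -, -, g7⟩ := unpack hx hb hz
    exact ⟨hz.1, WFS.set g7 _ ((WFS.getD g7 w).addL (WFS.getD g7 w') a e)⟩
  | xor w t s =>
    have hd := dom_xor hx hb hz w hok
    obtain ⟨M, r, L, lo, j, l, ws, rfl, rfl, -, -, -, -, -, -, g7⟩ := unpack hx hb hz
    exact ⟨hz.1, WFS.set g7 _ (wfl_gad hg hd (WFS.getD g7 w))⟩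
  | flip w t =>
    have hd := dom_flip hx hb hz w t
    obtain ⟨M, r, L, lo, j, l, ws, rfl, rfl, -, -, -, -, -, -, g7⟩ := unpack hx hb hz
    exact ⟨hz.1, WFS.set g7 _ (wfl_gad hg hd (WFS.getD g7 w))⟩
  | call w s =>
    have hd := hF _ (dom_call hx hb hz w s)
    obtain ⟨M, r, L, lo, j, l, ws, rfl, rfl, -, -, -, -, -, -, g7⟩ := unpack hx hb hz
    exact ⟨hz.1, WFS.set g7 _ hd⟩

theorem inv_pre {W m : ℕ} {x : XT} (hx : PartBDom W m x)
    (hb : decide (x.2.2.1.2.val = 0) = false) : Inv W m x (desc W m x, dealAll W x.2.2.2) := by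
  refine ⟨rfl, length_dealAll _ _, WFL.dealAll ?_ hx.2.2.2⟩
  have h : x.2.2.1.2.val ≠ 0 := by simpa using hb
  exact (dvd_pow_self W h).trans hx.2.2.1

/-- the recursion preserves well-formedness -/
theorem wfl_pbL {W m : ℕ} {gad : GadT} {bf : BaseT} {P : List (Ins W m)} (ρ : Fin W → Fin W)
    (hg : GadSpec gad) (hbf : BaseSpec bf) (hok : ∀ ins ∈ P, ins.ok) (x : XT)
    (hx : PartBDom W m x) : WFL x.2.1 x.1.2 x.1.1 (pbF gad bf P ρ x) := by
  obtain ⟨⟨M, r⟩, L, ⟨⟨lo⟩, ⟨j⟩⟩, l⟩ := x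
  induction j generalizing L lo l with
  | zero =>
    refine (hbf M r L lo l ⟨hx.1, ?_, hx.2.2.2⟩).1
    have := hx.2.1
    simpa using this
  | succ j ih =>
    have hd : W ∣ L.Z := (Dvd.intro_left _ (pow_succ W j).symm).trans hx.2.2.1
    have h0 := inv_pre hx (by simp)
    have key : ∀ Q : List (Ins W m), (∀ ins ∈ Q, ins.ok) → ∀ ws,
        WFS W (L.sub W) r M ws → WFS W (L.sub W) r M (Q.foldl (execL gad M (L.sub W) lo (m ^ j)
          (fun lo' l' => pbL gad bf P ρ M r j (L.sub W) lo' l')) ws) := by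
      intro Q hQ
      induction Q with
      | nil => exact fun ws h => h
      | cons ins Q ihQ =>
        intro ws hws
        refine ihQ (fun i hi => hQ i (by simp [hi])) _ ?_
        have hz : Inv W m ((M, r), L, (⟨lo⟩, ⟨j + 1⟩), l)
            (((M, r), L.sub W, (⟨lo⟩, ⟨j⟩, ⟨m ^ j⟩)), ws) := ⟨rfl, hws⟩
        have hok' := hQ ins (by simp)
        cases ins with
        | add w w' a e => exact WFS.set hws _ ((WFS.getD hws w).addL (WFS.getD hws w') a e)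
        | xor w t s =>
          exact WFS.set hws _ (wfl_gad hg (dom_xor hx (by simp) hz w hok') (WFS.getD hws w))
        | flip w t =>
          exact WFS.set hws _ (wfl_gad hg (dom_flip hx (by simp) hz w t) (WFS.getD hws w))
        | call w s => exact WFS.set hws _ (ih _ _ _ (dom_call hx (by simp) hz w s))
    have h1 := key P hok _ h0.2
    exact WFL.undealP hd ρ h1.1 h1.2

/-! ### arithmetic of the budgets -/

theorem N_pos {L : Lay} (h : L.Good) : 0 < L.N := by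
  have := h.Pre; have := h.g; have := h.G1; have := h.R; have := h.G2; have := h.Z
  have : 0 < L.g := by omega
  unfold Lay.N Lay.wh Lay.wy
  positivity

theorem pass_mono {k k' : ℕ} (h : k ≤ k') (M r : ℕ) (L : Lay) : pass k M r L ≤ pass k' M r L :=
  Nat.mul_le_mul_left _ (Nat.add_le_add_left (Nat.pow_le_pow_right (by omega) h) _)

theorem pass_sub {W : ℕ} {L : Lay} (h : W ∣ L.Z) (k M r : ℕ) :
    pass k M r (L.sub W) * W ≤ pass k M r L := by
  unfold pass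
  rw [mul_right_comm, Lay.sub_N h]
  exact Nat.mul_le_mul_left _ (Nat.add_le_add_left (Nat.pow_le_pow_left
    (by have := sz_laySub_le L W; omega) _) _)

theorem subN_le {W : ℕ} {L : Lay} (hL : L.Good) (h : W ∣ L.Z) : (L.sub W).N ≤ L.N := by
  rw [← Lay.sub_N h]
  exact Nat.le_mul_of_pos_right _ (Nat.pos_of_dvd_of_pos h hL.Z)

theorem lin_le_pass (k M r : ℕ) (L : Lay) :
    L.N * ((r + 1) * (Nat.size M + 1)) ≤ pass k M r L :=
  Nat.mul_le_mul_left _ (Nat.le_add_right _ _)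

theorem poly_le_pass (k M r : ℕ) (L : Lay) :
    L.N * (Nat.size M + Nat.size r + sz L + 1) ^ k ≤ pass k M r L :=
  Nat.mul_le_mul_left _ (Nat.le_add_left _ _)

theorem small_le_pass {k : ℕ} (hk : 1 ≤ k) (M r : ℕ) {L : Lay} (hL : L.Good) :
    Nat.size M + Nat.size r + sz L + 1 ≤ pass k M r L :=
  ((Nat.le_self_pow (by omega) _).trans (Nat.le_mul_of_pos_left _ (N_pos hL))).trans
    (poly_le_pass k M r L)

theorem F_le_sz (L : Lay) : L.F ≤ sz L := by
  rw [sz_lay]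
  omega

/-- the local budget of a node -/
noncomputable def V (m k : ℕ) (τ : ℝ) (x : XT) : ℕ :=
  pass k x.1.1 x.1.2 x.2.1 * pw τ (m ^ x.2.2.1.2.val * (Nat.size x.2.1.g + 1))

/-- the total budget of a node, as a real number -/
noncomputable def RB (m k : ℕ) (τ : ℝ) (x : XT) : ℝ :=
  2 * (pass k x.1.1 x.1.2 x.2.1 : ℝ) * (x.2.2.1.2.val + 1) *
    ((m ^ x.2.2.1.2.val * (Nat.size x.2.1.g + 1) : ℕ) : ℝ) ^ τ

theorem pass_le_V {m : ℕ} (hm : 2 ≤ m) (k : ℕ) (τ : ℝ) (x : XT) :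
    pass k x.1.1 x.1.2 x.2.1 ≤ V m k τ x :=
  Nat.le_mul_of_pos_right _ (one_le_pw τ (by positivity))

theorem V_le {m : ℕ} (hm : 2 ≤ m) (k : ℕ) {τ : ℝ} (hτ : 0 ≤ τ) (x : XT) :
    (V m k τ x : ℝ) ≤ 2 * (pass k x.1.1 x.1.2 x.2.1 : ℝ) *
      ((m ^ x.2.2.1.2.val * (Nat.size x.2.1.g + 1) : ℕ) : ℝ) ^ τ := by
  have h := pw_le_two_mul hτ (x := m ^ x.2.2.1.2.val * (Nat.size x.2.1.g + 1)) (by positivity)
  unfold V
  rw [Nat.cast_mul, mul_comm 2, mul_assoc]
  exact mul_le_mul_of_nonneg_left h (Nat.cast_nonneg _)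

theorem sz_le_V {W m k : ℕ} (hm : 2 ≤ m) (hk : 1 ≤ k) (τ : ℝ) (x : XT) (hx : PartBDom W m x) :
    sz x + 1 ≤ 20 * V m k τ x := by
  have h0 := pass_le_V hm k τ x
  obtain ⟨⟨M, r⟩, L, ⟨⟨lo⟩, ⟨j⟩⟩, l⟩ := x
  obtain ⟨g1, g2, -, g4⟩ := hx
  have h1 := small_le_pass hk M r g1
  have h2 := lin_le_pass k M r L
  have h3 := g4.sz_le
  have h4 := F_le_sz L
  have h5 : j < m ^ j := Nat.lt_pow_self (by omega)
  have h6 : L.N * (4 * ((r + 1) * (Nat.size M + 1))) =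
      4 * (L.N * ((r + 1) * (Nat.size M + 1))) := by ring
  simp only [sz_prod, sz_nat, sz_un] at *
  omega

theorem gad_cost {W m k kg : ℕ} (hm : 2 ≤ m) (hk : kg ≤ k) {τ : ℝ} (hτ : 0 ≤ τ) {M r : ℕ}
    {L : Lay} {lo j : ℕ} {l s : Arr} (hL : L.Good) (hd : W ∣ L.Z) (hs : WFL (L.sub W) r M s) :
    (L.sub W).N * (msz s + 1) * pw τ (m ^ j * Nat.size (L.sub W).g + 1) +
      (L.sub W).N * (sz (L.sub W) + 1) ^ kg ≤ 3 * V m k τ ((M, r), L, (⟨lo⟩, ⟨j + 1⟩), l) := by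
  have h0 := pass_le_V hm k τ ((M, r), L, (⟨lo⟩, ⟨j + 1⟩), l)
  have h1 := subN_le hL hd
  have h2 : msz s + 1 ≤ 2 * ((r + 1) * (Nat.size M + 1)) := by
    have := hs.msz_le
    nlinarith
  have h3 : pw τ (m ^ j * Nat.size (L.sub W).g + 1) ≤ pw τ (m ^ (j + 1) * (Nat.size L.g + 1)) := by
    refine pw_mono hτ ?_
    have a1 : m ^ j ≤ m ^ (j + 1) := Nat.pow_le_pow_right (by omega) (by omega)
    have a2 : 1 ≤ m ^ (j + 1) := Nat.one_le_pow _ _ (by omega)
    rw [Lay.sub_g, mul_add, mul_one]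
    exact Nat.add_le_add (Nat.mul_le_mul_right _ a1) a2
  have h4 : (L.sub W).N * (msz s + 1) ≤ 2 * pass k M r L := by
    have := lin_le_pass k M r L
    calc _ ≤ L.N * (2 * ((r + 1) * (Nat.size M + 1))) := Nat.mul_le_mul h1 h2
      _ = 2 * (L.N * ((r + 1) * (Nat.size M + 1))) := by ring
      _ ≤ _ := by omega
  have h5 : (L.sub W).N * (sz (L.sub W) + 1) ^ kg ≤ pass k M r L := by
    refine le_trans (Nat.mul_le_mul h1 ?_) (poly_le_pass k M r L)
    have := sz_laySub_le L W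
    exact (Nat.pow_le_pow_left (by omega) _).trans (Nat.pow_le_pow_right (by omega) hk)
  have h6 := Nat.mul_le_mul h4 h3
  have h7 : 2 * pass k M r L * pw τ (m ^ (j + 1) * (Nat.size L.g + 1)) =
      2 * V m k τ ((M, r), L, (⟨lo⟩, ⟨j + 1⟩), l) := by
    unfold V
    ring
  simp only at h0
  omega

theorem call_cost {W m k s : ℕ} (hm : 2 ≤ m) {τ : ℝ} (hτ : 0 ≤ τ)
    (hs : (s : ℝ) ≤ W * (m : ℝ) ^ τ) {M r : ℕ} {L : Lay} {lo j : ℕ} {l : Arr} (hd : W ∣ L.Z) :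
    V m k τ ((M, r), L, (⟨lo⟩, ⟨j + 1⟩), l) +
      s * ⌊RB m k τ ((M, r), L.sub W, (⟨0⟩, ⟨j⟩), [])⌋₊ ≤
      ⌊RB m k τ ((M, r), L, (⟨lo⟩, ⟨j + 1⟩), l)⌋₊ := by
  refine Nat.le_floor ?_
  have h0 := V_le hm k hτ ((M, r), L, (⟨lo⟩, ⟨j + 1⟩), l)
  have h1 : ((pass k M r (L.sub W) : ℝ)) * W ≤ pass k M r L := by exact_mod_cast pass_sub hd k M r
  have h2 : (⌊RB m k τ ((M, r), L.sub W, (⟨0⟩, ⟨j⟩), [])⌋₊ : ℝ) ≤
      RB m k τ ((M, r), L.sub W, (⟨0⟩, ⟨j⟩), []) := Nat.floor_le (by unfold RB; positivity)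
  have h3 : ((m ^ (j + 1) * (Nat.size L.g + 1) : ℕ) : ℝ) ^ τ =
      (m : ℝ) ^ τ * ((m ^ j * (Nat.size L.g + 1) : ℕ) : ℝ) ^ τ := by
    rw [← Real.mul_rpow (by positivity) (by positivity)]
    congr 1
    push_cast
    ring
  unfold RB at h2 ⊢
  simp only [Lay.sub_g] at h0 h2 ⊢
  rw [h3] at h0 ⊢
  have hy : 0 ≤ ((m ^ j * (Nat.size L.g + 1) : ℕ) : ℝ) ^ τ := by positivity
  generalize ((m ^ j * (Nat.size L.g + 1) : ℕ) : ℝ) ^ τ = y at *
  have hu : 0 ≤ (m : ℝ) ^ τ := by positivity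
  generalize (m : ℝ) ^ τ = u at *
  have h4 : (s : ℝ) * (⌊2 * (pass k M r (L.sub W) : ℝ) * ((j : ℝ) + 1) * y⌋₊ : ℝ) ≤
      (W * u) * (2 * (pass k M r (L.sub W) : ℝ) * ((j : ℝ) + 1) * y) :=
    mul_le_mul hs h2 (Nat.cast_nonneg _) (by positivity)
  have h5 : (W * u) * (2 * (pass k M r (L.sub W) : ℝ) * ((j : ℝ) + 1) * y) ≤
      2 * (pass k M r L : ℝ) * ((j : ℝ) + 1) * (u * y) := by
    have : (W * u) * (2 * (pass k M r (L.sub W) : ℝ) * ((j : ℝ) + 1) * y) =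
        ((pass k M r (L.sub W) : ℝ) * W) * (2 * ((j : ℝ) + 1) * (u * y)) := by ring
    rw [this]
    calc _ ≤ (pass k M r L : ℝ) * (2 * ((j : ℝ) + 1) * (u * y)) :=
          mul_le_mul_of_nonneg_right h1 (by positivity)
      _ = _ := by ring
  push_cast
  nlinarith

/-! ### the steps -/

theorem lin_xorIn (w t s : ℕ) : Lin (xorIn w t s) := by
  unfold xorIn
  fun_prop

theorem lin_flipIn (w t : ℕ) : Lin (flipIn w t) := by
  unfold flipIn
  fun_prop

theorem lin_callIn (w s : ℕ) : Lin (callIn w s) := by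
  unfold callIn
  fun_prop

theorem lin_put (w : ℕ) : Lin (fun p : ZT × Arr => (p.1.1, p.1.2.set w p.2)) :=
  TC.id.fst.fst.prodMk (TC.set TC.id.fst.snd (TU.const w) TC.id.snd)

theorem stage_ok {W m k kg : ℕ} (hm : 2 ≤ m) (hk : kg ≤ k) {τ : ℝ} (hτ : 0 ≤ τ) {gad : GadT}
    (hg : TC GadDom (fun x => x.1.N * (msz x.2.2 + 1) *
      pw τ (x.2.1.2.2.2.val * Nat.size x.1.g + 1) + x.1.N * (sz x.1 + 1) ^ kg) gad)
    (F : XT → Arr) {ins : Ins W m} (hok : ins.ok) :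
    (stage gad ins).OK F (PartBDom W m) (fun x => x.2.2.1.2.val) (V m k τ)
      (fun x z => PartBDom W m x ∧ decide (x.2.2.1.2.val = 0) = false ∧ Inv W m x z) := by
  cases ins with
  | add w w' a e =>
    refine Stage.ok_free (TCG.intro'
      (Q := fun z : ZT => ∀ s ∈ z.2, s.length ≤ z.1.2.1.N ∧ ∀ y ∈ s, y.length ≤ z.1.1.2)
      (S := fun z : ZT => z.1.2.1.N * ((z.1.1.2 + 1) * (Nat.size z.1.1.1 + 1)))
      (TC.id.fst.prodMk (tc_addSet w w' a e TC.id.fst.fst.fst TC.id.snd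
        (fun z : ZT => z.1.2.1.N) (fun z : ZT => z.1.1.2) (fun _ h => h) Bud.self)) 1 ?_ ?_)
    · rintro x z ⟨hx, hb, hz⟩
      obtain ⟨M, r, L, lo, j, l, ws, rfl, rfl, -, -, -, -, -, -, g7⟩ := unpack hx hb hz
      exact fun s hs => ⟨(g7.2 s hs).1.le, fun y hy => ((g7.2 s hs).2 y hy).1.le⟩
    · rintro x z ⟨hx, hb, hz⟩
      have h0 := pass_le_V hm k τ x
      obtain ⟨M, r, L, lo, j, l, ws, rfl, rfl, g1, -, g3, -, -, -, -⟩ := unpack hx hb hz
      rw [one_mul]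
      exact ((Nat.mul_le_mul_right _ (subN_le g1 g3)).trans (lin_le_pass k M r L)).trans h0
  | xor w t s =>
    refine Stage.ok_free (TCG.intro' (Q := fun z => GadDom (xorIn w t s z))
      (TC.id.fst.prodMk (TC.set TC.id.snd (TU.const w)
        (hg.comp (lin_xorIn w t s).tc (fun _ h => h) Bud.self))) 3 ?_ ?_)
    · rintro x z ⟨hx, hb, hz⟩
      exact dom_xor hx hb hz w hok
    · rintro x z ⟨hx, hb, hz⟩
      obtain ⟨M, r, L, lo, j, l, ws, rfl, rfl, g1, -, g3, -, -, -, g7⟩ := unpack hx hb hz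
      exact gad_cost hm hk hτ g1 g3 (WFS.getD g7 w)
  | flip w t =>
    refine Stage.ok_free (TCG.intro' (Q := fun z => GadDom (flipIn w t z))
      (TC.id.fst.prodMk (TC.set TC.id.snd (TU.const w)
        (hg.comp (lin_flipIn w t).tc (fun _ h => h) Bud.self))) 3 ?_ ?_)
    · rintro x z ⟨hx, hb, hz⟩
      exact dom_flip hx hb hz w t
    · rintro x z ⟨hx, hb, hz⟩
      obtain ⟨M, r, L, lo, j, l, ws, rfl, rfl, g1, -, g3, -, -, -, g7⟩ := unpack hx hb hz
      exact gad_cost hm hk hτ g1 g3 (WFS.getD g7 w)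
  | call w s =>
    refine Stage.ok_call (TCG.of_lin (lin_callIn w s)) (TCG.of_lin (lin_put w)) ?_
    rintro x z ⟨hx, hb, hz⟩
    refine ⟨dom_call hx hb hz w s, ?_⟩
    obtain ⟨M, r, L, lo, j, l, ws, rfl, rfl, -⟩ := unpack hx hb hz
    exact Nat.lt_succ_self j

/-- **Running time of the recursion.** -/
theorem tc_pbF {W m kg kb : ℕ} (hm : 2 ≤ m) {τ : ℝ} (hτ : 0 ≤ τ) {gad : GadT} {bf : BaseT}
    {P : List (Ins W m)} (ρ : Fin W → Fin W) (hok : ∀ ins ∈ P, ins.ok)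
    (hn : (ncalls P : ℝ) ≤ W * (m : ℝ) ^ τ)
    (hg : TC GadDom (fun x => x.1.N * (msz x.2.2 + 1) *
      pw τ (x.2.1.2.2.2.val * Nat.size x.1.g + 1) + x.1.N * (sz x.1 + 1) ^ kg) gad)
    (hgs : GadSpec gad) (hb : TC BaseDom (fun x => pass kb x.1.1 x.1.2 x.2.1) bf)
    (hbs : BaseSpec bf) :
    TC (PartBDom W m) (fun x => pass (kg + kb + 1) x.1.1 x.1.2 x.2.1 * (x.2.2.1.2.val + 1) *
      pw τ (m ^ x.2.2.1.2.val * (Nat.size x.2.1.g + 1))) (pbF gad bf P ρ) := by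
  obtain ⟨k, hk⟩ : ∃ k, k = kg + kb + 1 := ⟨_, rfl⟩
  rw [← hk]
  have hF := wfl_pbL ρ hgs hbs hok
  have main : TC (PartBDom W m) (fun x => ⌊RB m k τ x⌋₊) (pbF gad bf P ρ) := by
    refine TC.recStages' (P.map (stage gad)) (V := V m k τ) (L := V m k τ)
      (μ := fun x => x.2.2.1.2.val) (isBase := fun x => decide (x.2.2.1.2.val = 0))
      (base := fun x => bf (x.1, x.2.1, x.2.2.1.1, x.2.2.2))
      (pre := fun x => (desc W m x, dealAll W x.2.2.2)) (post := fun z => undealP ρ z.2)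
      (Inv W m) ?_ ?_ ?_ ?_ (fun x => inv_pre) ?_ ?_ ?_ ?_ ?_ ?_ ?_
    · rintro ⟨⟨M, r⟩, L, ⟨⟨lo⟩, ⟨j⟩⟩, l⟩ -
      rcases j with _ | j
      · rfl
      · have := runStages_eq gad bf P ρ P M r (L.sub W) lo j (m ^ j) (dealAll W l)
        show _ = undealP ρ (runStages (pbF gad bf P ρ) (P.map (stage gad))
          (((M, r), L.sub W, (⟨lo⟩, ⟨j⟩, ⟨m ^ j⟩)), dealAll W l)).2
        rw [this]
        rfl
    · exact (TU.val TC.id.snd.snd.fst.snd).decide_eq_zero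
    · refine hb.comp (by fun_prop) ?_ (Bud.self.mono ?_)
      · rintro ⟨⟨M, r⟩, L, ⟨⟨lo⟩, ⟨j⟩⟩, l⟩ ⟨hx, h0⟩
        have h1 : j = 0 := by simpa using h0
        subst h1
        refine ⟨hx.1, ?_, hx.2.2.2⟩
        have := hx.2.1
        simpa using this
      · intro x _
        exact (pass_mono (by omega) _ _ _).trans (pass_le_V hm k τ x)
    · refine TC.prodMk ?_ (TC.dealAll W TC.id.snd.snd.snd)
      have hj : TU (fun x : XT => PartBDom W m x ∧ decide (x.2.2.1.2.val = 0) = false)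
          (V m k τ) (fun x => x.2.2.1.2.val - 1) :=
        (TU.val TC.id.snd.snd.fst.snd).sub (TU.const 1)
      refine TC.id.fst.prodMk ((tc_laySub W TC.id.snd.fst).prodMk
        (TC.id.snd.snd.fst.fst.prodMk (TC.prodMk hj (TU.pow (TU.const m) hj
          (Bud.sz.mono ?_)))))
      rintro ⟨⟨M, r⟩, L, ⟨⟨lo⟩, ⟨j⟩⟩, l⟩ ⟨hx, -⟩
      have h1 : m ^ (j - 1) ≤ m ^ j := Nat.pow_le_pow_right (by omega) (by omega)
      have h2 := hx.2.1
      have h3 := F_le_sz L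
      simp only [sz_prod] at h2 ⊢
      omega
    · intro s hs x z hx h0 hz
      obtain ⟨ins, hi, rfl⟩ := List.mem_map.1 hs
      exact inv_step hgs hF (hok ins hi) hx h0 hz
    · refine ⟨8 * W + 10, fun x z hx h0 hz => ?_⟩
      have h1 := pass_le_V hm k τ x
      obtain ⟨M, r, L, lo, j, l, ws, rfl, rfl, g1, -, g3, -, g5, -, g7⟩ := unpack hx h0 hz
      have h2 := sz_streams_le g7.1 g7.2
      have h3 := lin_le_pass k M r (L.sub W)
      have h4 := pass_sub g3 k M r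
      have h5 := sz_laySub_le L W
      have h6 := F_le_sz L
      have h7 : m ^ j ≤ m ^ j * m := Nat.le_mul_of_pos_right _ (by omega)
      have h8 : W * (2 * ((L.sub W).N * (4 * ((r + 1) * (Nat.size M + 1)))) + 1) =
          8 * ((L.sub W).N * ((r + 1) * (Nat.size M + 1)) * W) + W := by ring
      have h9 := Nat.mul_le_mul_right W h3
      obtain ⟨U, hU⟩ : ∃ U, U = V m k τ ((M, r), L, (⟨lo⟩, ⟨j + 1⟩), l) +
          sz (((M, r), L, (⟨lo⟩, ⟨j + 1⟩), l) : XT) + 1 := ⟨_, rfl⟩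
      have h10 : W ≤ W * U := Nat.le_mul_of_pos_right _ (by omega)
      rw [← hU, add_mul, mul_assoc]
      simp only [sz_prod, sz_nat, sz_un] at *
      omega
    · intro s hs
      obtain ⟨ins, hi, rfl⟩ := List.mem_map.1 hs
      exact stage_ok hm (by omega) hτ hg _ (hok ins hi)
    · exact TCG.of_lin (tc_undealP ρ TC.id.snd)
    · refine ⟨21, fun x hx => ?_⟩
      have := sz_le_V hm (show 1 ≤ k by omega) τ x hx
      omega
    · intro x _ h0
      have h1 : x.2.2.1.2.val = 0 := by simpa using h0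
      refine Nat.le_floor ((V_le hm k hτ x).trans (le_of_eq ?_))
      unfold RB
      rw [h1]
      simp
    · intro x hx h0
      have h1 := callCost_le (f := pbF gad bf P ρ) (B := fun x => ⌊RB m k τ x⌋₊)
        (P.map (stage gad)) (Inv W m x)
        ⌊RB m k τ (x.1, x.2.1.sub W, (⟨0⟩, ⟨x.2.2.1.2.val - 1⟩), [])⌋₊
        (fun s hs z hz => by
          obtain ⟨ins, hi, rfl⟩ := List.mem_map.1 hs
          exact inv_step hgs hF (hok ins hi) hx h0 hz)
        (fun c get put hs z hz _ => by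
          obtain ⟨ins, -, he⟩ := List.mem_map.1 hs
          obtain ⟨M, r, L, lo, j, l, ws, rfl, rfl, -⟩ := unpack hx h0 hz
          cases ins with
          | call w s =>
            obtain ⟨-, rfl, -⟩ := Stage.callIf.inj he
            exact le_of_eq rfl
          | _ => simp [stage] at he)
        _ (inv_pre hx h0)
      rw [sum_isCall] at h1
      obtain ⟨M, r, L, lo, j, l, ws, rfl, -, -, -, g3, -⟩ := unpack hx h0 (inv_pre hx h0)
      exact (Nat.add_le_add_left h1 _).trans (call_cost hm hτ hn g3)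
  refine main.budget (Bud.of_le_mul 2 (fun x _ => ?_))
  refine Nat.floor_le_of_le ?_
  have h := le_pw τ (m ^ x.2.2.1.2.val * (Nat.size x.2.1.g + 1))
  unfold RB
  calc _ ≤ 2 * (pass k x.1.1 x.1.2 x.2.1 : ℝ) * (x.2.2.1.2.val + 1) *
        (pw τ (m ^ x.2.2.1.2.val * (Nat.size x.2.1.g + 1)) : ℝ) :=
        mul_le_mul_of_nonneg_left h (by positivity)
    _ = _ := by push_cast; ring

/-- **Part B** from the correctness of the recursion. -/
theorem mainB_of (h : RecStatement) : MainB := by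
  rintro W m τ hW hm hτ - ⟨P, ρ, hP, hn⟩ ⟨gad, kg, hg, hgs⟩ ⟨bf, kb, hb, hbs⟩
  exact ⟨pbF gad bf P ρ, kg + kb + 1, tc_pbF hm hτ.le ρ hP.ok hn hg hgs hb hbs,
    fun M r L lo j l hx => h W m gad bf P ρ hW hgs hbs hP M r j L lo l hx⟩

end Crest.Agent.X326.B3.PB
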